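import Vale.Agent.P372.TestDefs
import Vale.Agent.P372.MathlibUsed
import Vale.Agent.P372.Official

set_option linter.all false

section

open Matrix Kronecker

namespace Vale.Agent.P372

variable {A B : Type}

/-- The partial transpose. -/
def ptrans (ρ : Matrix (A × B) (A × B) ℂ) : Matrix (A × B) (A × B) ℂ :=
  fun p q => ρ (p.1, q.2) (q.1, p.2)

variable [Fintype A] [Fintype B]

/-- The test without restriction on Alice's operators. -/
def KeyTest1 [DecidableEq A] [DecidableEq B] (ρ : Matrix (A × B) (A × B) ℂ) : Prop :=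
  ∃ (X₀ X₁ : Matrix A A ℂ) (Y₀ Y₁ : Matrix B B ℂ),
    weight ρ X₀ Y₀ * weight ρ X₀ Y₁ * weight ρ X₁ Y₀ * weight ρ X₁ Y₁ <
      traceNorm ((X₀ ⊗ₖ Y₀) * ρ * (X₁ ⊗ₖ Y₁)ᴴ) ^ 4

theorem keyTest_univ [DecidableEq A] [DecidableEq B] (ρ : Matrix (A × B) (A × B) ℂ) :
    KeyTest ρ Set.univ ↔ KeyTest1 ρ :=
  ⟨fun ⟨X₀, _, X₁, _, Y₀, Y₁, h⟩ => ⟨X₀, X₁, Y₀, Y₁, h⟩,
    fun ⟨X₀, X₁, Y₀, Y₁, h⟩ => ⟨X₀, trivial, X₁, trivial, Y₀, Y₁, h⟩⟩

end Vale.Agent.P372

end

section

section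

section

open Matrix
open scoped ComplexOrder MatrixOrder

namespace Vale.Agent.P372

set_option linter.unusedSectionVars false

variable {ι : Type} [Fintype ι] [DecidableEq ι]
variable {E F G : Type} [Fintype E] [DecidableEq E] [Fintype F] [DecidableEq F] [Fintype G]
  [DecidableEq G]

/-- tensor product of a family of matrices -/
def piT (X : ι → Matrix E F ℂ) : Matrix (ι → E) (ι → F) ℂ := fun e f => ∏ i, X i (e i) (f i)

theorem piT_mul (X : ι → Matrix E F ℂ) (Y : ι → Matrix F G ℂ) :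
    piT (fun i => X i * Y i) = piT X * piT Y := by
  ext e g
  simp only [piT, Matrix.mul_apply]
  rw [Finset.prod_univ_sum]
  simp only [Fintype.piFinset_univ, Finset.prod_mul_distrib]

theorem piT_trace (X : ι → Matrix E E ℂ) : (piT X).trace = ∏ i, (X i).trace := by
  simp only [piT, Matrix.trace, Matrix.diag]
  rw [Finset.prod_univ_sum]
  simp only [Fintype.piFinset_univ]

theorem piT_conjTranspose (X : ι → Matrix E F ℂ) : (piT X)ᴴ = piT (fun i => (X i)ᴴ) := by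
  ext e f
  simp only [piT, Matrix.conjTranspose_apply, star_prod]

theorem piT_one : piT (fun _ : ι => (1 : Matrix E E ℂ)) = 1 := by
  ext e f
  simp only [piT, Matrix.one_apply]
  by_cases h : e = f
  · subst h
    simp only [↓reduceIte, Finset.prod_const_one]
  · rw [if_neg h]
    obtain ⟨i, hi⟩ := Function.ne_iff.mp h
    exact Finset.prod_eq_zero (Finset.mem_univ i) (by simp [hi])

theorem piT_sum {κ : Type} [Fintype κ] (X : ι → κ → Matrix E F ℂ) :
    piT (fun i => ∑ x, X i x) = ∑ x : ι → κ, piT (fun i => X i (x i)) := by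
  ext e f
  simp only [piT, Matrix.sum_apply]
  rw [Finset.prod_univ_sum]
  simp only [Fintype.piFinset_univ]

theorem exists_eq_conjTranspose_mul_self {X : Matrix E E ℂ} (h : X.PosSemidef) :
    ∃ C : Matrix E E ℂ, X = Cᴴ * C := by
  obtain ⟨C, hC⟩ := CStarAlgebra.nonneg_iff_eq_star_mul_self.mp h.nonneg
  exact ⟨C, by rw [hC, star_eq_conjTranspose]⟩

theorem piT_posSemidef {X : ι → Matrix E E ℂ} (h : ∀ i, (X i).PosSemidef) :
    (piT X).PosSemidef := by
  choose C hC using fun i => exists_eq_conjTranspose_mul_self (h i)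
  have : piT X = (piT C)ᴴ * piT C := by
    rw [piT_conjTranspose, ← piT_mul]
    congr 1
    funext i
    exact hC i
  rw [this]
  exact Matrix.posSemidef_conjTranspose_mul_self _

theorem piT_apply (X : ι → Matrix E F ℂ) (e : ι → E) (f : ι → F) :
    piT X e f = ∏ i, X i (e i) (f i) := rfl

end Vale.Agent.P372
end
end
end

section

section

section

/-! Linear algebra of unextendible product bases in `ℂ^d ⊗ ℂ^3`: there are always two members
`a i ⊗ b i`, `a j ⊗ b j` for which the off-diagonal block of the complementary projection does not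
vanish. -/

open Matrix
open scoped ComplexOrder

namespace Vale.Agent.P372

namespace UPB

/-- Inner product, antilinear in the first argument. -/
def ip {n : Type} [Fintype n] (u v : n → ℂ) : ℂ := star u ⬝ᵥ v

section ip

variable {n : Type} [Fintype n]

theorem ip_def (u v : n → ℂ) : ip u v = ∑ i, star (u i) * v i := rfl

theorem ip_star (u v : n → ℂ) : star (ip u v) = ip v u := by
  simp only [ip_def, star_sum, star_mul, star_star]

theorem ip_smul_right (c : ℂ) (u v : n → ℂ) : ip u (c • v) = c * ip u v := by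
  simp only [ip, dotProduct_smul, smul_eq_mul]

theorem ip_smul_left (c : ℂ) (u v : n → ℂ) : ip (c • u) v = star c * ip u v := by
  rw [← ip_star, ip_smul_right, star_mul, ip_star, mul_comm]

theorem ip_zero_right (u : n → ℂ) : ip u 0 = 0 := by simp only [ip, dotProduct_zero]

theorem ip_self_eq_zero {u : n → ℂ} (h : ip u u = 0) : u = 0 := dotProduct_star_self_eq_zero.mp (by
  rw [← h, ip, dotProduct_comm])

theorem ip_self (u : n → ℂ) : ip u u = ((∑ i, ‖u i‖ ^ 2 : ℝ) : ℂ) := by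
  rw [ip_def]
  push_cast
  refine Finset.sum_congr rfl fun i _ => ?_
  rw [RCLike.star_def, Complex.conj_mul']

theorem vmv_mulVec (u v w : n → ℂ) : vecMulVec u (star v) *ᵥ w = ip v w • u := by
  rw [vecMulVec_mulVec, ip]
  ext i
  simp only [Pi.smul_apply, MulOpposite.smul_eq_mul_unop, MulOpposite.unop_op, smul_eq_mul, mul_comm]

end ip

/-- `u` and `v` span the same line (for unit vectors). -/
def par {n : Type} (u v : n → ℂ) : Prop := vecMulVec u (star u) = vecMulVec v (star v)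

section par

variable {n : Type} [Fintype n]

end par

section three

/-- A unit vector orthogonal to two given linearly independent vectors of `ℂ^3`. -/
theorem exists_normal' {u v : Fin 3 → ℂ} (huv : star u ⨯₃ star v ≠ 0) :
    ∃ w : Fin 3 → ℂ, ip w w = 1 ∧ ip u w = 0 ∧ ip v w = 0 ∧
      ∀ x : Fin 3 → ℂ, ip u x = 0 → ip v x = 0 → ∃ c : ℂ, x = c • w := by
  set n : Fin 3 → ℂ := star u ⨯₃ star v with hn
  have hn0 : n ≠ 0 := huv
  have hun : ip u n = 0 := dot_self_cross _ _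
  have hvn : ip v n = 0 := dot_cross_self _ _
  have hx : ∀ x : Fin 3 → ℂ, ip u x = 0 → ip v x = 0 → ∃ c : ℂ, x = c • n := by
    intro x h1 h2
    have h3 : x ⨯₃ (star u ⨯₃ star v) = 0 := by
      rw [cross_cross_eq_smul_sub_smul']
      have h4 : x ⬝ᵥ star v = 0 := by rw [dotProduct_comm]; exact h2
      have h5 : star u ⬝ᵥ x = 0 := h1
      rw [h4, h5]; simp
    rw [← hn] at h3
    have h6 : star n ⨯₃ (x ⨯₃ n) = 0 := by rw [h3, map_zero]
    rw [cross_cross_eq_smul_sub_smul'] at h6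
    have h7 : star n ⬝ᵥ n ≠ 0 := fun h => hn0 (ip_self_eq_zero h)
    refine ⟨(star n ⬝ᵥ n)⁻¹ * (x ⬝ᵥ star n), ?_⟩
    have h8 := sub_eq_zero.mp h6
    rw [mul_smul, ← h8, smul_smul, inv_mul_cancel₀ h7, one_smul]
  -- normalise
  set r : ℝ := ∑ i, ‖n i‖ ^ 2 with hr
  have hrn : ip n n = (r : ℂ) := ip_self n
  have hr0 : 0 < r := by
    have h1 : 0 ≤ r := Finset.sum_nonneg fun _ _ => by (clear * -; positivity)
    rcases h1.lt_or_eq with h2 | h2
    · exact h2
    · exact absurd (ip_self_eq_zero (by rw [hrn, ← h2]; simp)) hn0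
  have hs : (√r) ≠ 0 := (Real.sqrt_pos.mpr hr0).ne'
  refine ⟨((√r : ℝ) : ℂ)⁻¹ • n, ?_, ?_, ?_, ?_⟩
  · rw [ip_smul_left, ip_smul_right, hrn]
    have : ((√r : ℝ) : ℂ) * ((√r : ℝ) : ℂ) = r := by
      rw [← Complex.ofReal_mul, Real.mul_self_sqrt hr0.le]
    have h0 : ((√r : ℝ) : ℂ) ≠ 0 := by exact_mod_cast hs
    rw [← this, star_inv₀, RCLike.star_def, Complex.conj_ofReal]
    field_simp
  · rw [ip_smul_right, hun, mul_zero]
  · rw [ip_smul_right, hvn, mul_zero]
  · intro x h1 h2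
    obtain ⟨c, hc⟩ := hx x h1 h2
    refine ⟨c * ((√r : ℝ) : ℂ), ?_⟩
    rw [smul_smul, mul_assoc, mul_inv_cancel₀ (by exact_mod_cast hs), mul_one, hc]

/-- A nonzero vector orthogonal to one given vector of `ℂ^3`. -/
theorem exists_orth (u : Fin 3 → ℂ) : ∃ w : Fin 3 → ℂ, w ≠ 0 ∧ ip u w = 0 := by
  by_cases h0 : u 0 = 0
  · refine ⟨Pi.single 0 1, by simp, ?_⟩
    simp only [ip, Fin.isValue, dotProduct_single, Pi.star_apply, h0, star_zero, mul_one]
  · refine ⟨![-star (u 1), star (u 0), 0], ?_, ?_⟩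
    · intro h
      have := congrFun h 1
      simp only [Fin.isValue, RCLike.star_def, cons_val_one, cons_val_zero, Pi.zero_apply, map_eq_zero] at this
      exact h0 this
    · simp only [Fin.isValue, RCLike.star_def, ip_def, Fin.sum_univ_three, cons_val_zero, mul_neg, cons_val_one, cons_val, mul_zero, add_zero]
      ring

end three

section proj

variable {A : Type} [Fintype A] [DecidableEq A]

end proj

section main

variable {A I : Type} [Fintype A] [DecidableEq A] [Fintype I]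

/-- The sum of the projections on the vectors `a k` with `k` in `s`. -/
def Q (a : I → A → ℂ) (s : Finset I) : Matrix A A ℂ := ∑ k ∈ s, vecMulVec (a k) (star (a k))

variable {a : I → A → ℂ} {b : I → Fin 3 → ℂ}

open Classical in
/-- Indices `k` with `b k` orthogonal to `b i` and `b j`. -/
noncomputable def T (b : I → Fin 3 → ℂ) (i j : I) : Finset I :=
  Finset.univ.filter fun k => ip (b i) (b k) = 0 ∧ ip (b j) (b k) = 0

section orth

variable (ha : ∀ i, ip (a i) (a i) = 1) (hb : ∀ i, ip (b i) (b i) = 1)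
  (horth : ∀ i j, i ≠ j → ip (a i) (a j) * ip (b i) (b j) = 0)

include ha hb horth

variable (hbad : ∀ i j, ¬ par (b i) (b j) → ip (a j) (a i) = ip (a j) (Q a (T b i j) *ᵥ a i))

include hbad

omit hbad

end orth

end main

end UPB

end Vale.Agent.P372
end
end
end

section

section

section

namespace Vale.Agent.P372

/-- Class weights: `tri w U L k` is the total weight of the words of length `L` whose letters add
up to `2 L + k` modulo 3, the letters 0, 1, 2 having weights 1, w, U. -/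
noncomputable def tri (w U : ℝ) : ℕ → Fin 3 → ℝ
  | 0 => ![1, 0, 0]
  | (L+1) => ![U * tri w U L 0 + tri w U L 2 + w * tri w U L 1,
      U * tri w U L 1 + tri w U L 0 + w * tri w U L 2,
      U * tri w U L 2 + tri w U L 1 + w * tri w U L 0]

theorem tri_bounds {W V : ℝ} (hW : 0 ≤ W) (hV : 0 ≤ V) (L : ℕ) :
    (∀ k, 0 ≤ tri W V L k) ∧ tri W V L 0 + tri W V L 1 + tri W V L 2 = (V + 1 + W) ^ L ∧
    tri W V L 1 * (V + 1 + W) ≤ L * (1 + W) * (V + 1 + W) ^ L ∧
    tri W V L 2 * (V + 1 + W) ^ 2 ≤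
      ((1 + W) * (L * (L - 1) / 2) + L * W * (V + 1 + W)) * (V + 1 + W) ^ L := by
  induction L with
  | zero =>
    refine ⟨fun k => ?_, ?_, ?_, ?_⟩
    · fin_cases k <;> simp [tri]
    · simp [tri]
    · simp [tri]
    · simp [tri]
  | succ L ih =>
    obtain ⟨h0, hs, h1, h2⟩ := ih
    have e0 : tri W V (L + 1) 0 = V * tri W V L 0 + tri W V L 2 + W * tri W V L 1 := by
      simp [tri]
    have e1 : tri W V (L + 1) 1 = V * tri W V L 1 + tri W V L 0 + W * tri W V L 2 := by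
      simp [tri]
    have e2 : tri W V (L + 1) 2 = V * tri W V L 2 + tri W V L 1 + W * tri W V L 0 := by
      simp [tri]
    have a0 := h0 0
    have a1 := h0 1
    have a2 := h0 2
    set x := tri W V L 0
    set y := tri W V L 1
    set z := tri W V L 2
    set Q := V + 1 + W with hQ
    have hQ1 : 0 ≤ Q := by (clear * - hV hW; (clear * - hV hW; positivity))
    have hQL : 0 ≤ Q ^ L := by (clear * - hV hW; positivity)
    refine ⟨fun k => ?_, ?_, ?_, ?_⟩
    · fin_cases k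
      · change 0 ≤ tri W V (L + 1) 0; rw [e0]; (clear * - hV a0 a2 hW a1; positivity)
      · change 0 ≤ tri W V (L + 1) 1; rw [e1]; (clear * - hV a1 a0 hW a2; positivity)
      · change 0 ≤ tri W V (L + 1) 2; rw [e2]; (clear * - hV a2 a1 hW a0; positivity)
    · rw [e0, e1, e2, pow_succ, ← hs, hQ]; ring
    · rw [e1]
      have hb : V * y + x + W * z ≤ Q * y + (1 + W) * Q ^ L := by
        rw [← hs, hQ]
        nlinarith only [a1, a2, hW, a0]
      calc (V * y + x + W * z) * Q ≤ (Q * y + (1 + W) * Q ^ L) * Q :=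
            mul_le_mul_of_nonneg_right hb hQ1
        _ = Q * (y * Q) + (1 + W) * Q ^ (L + 1) := by ring
        _ ≤ Q * (L * (1 + W) * Q ^ L) + (1 + W) * Q ^ (L + 1) := by
            have := mul_le_mul_of_nonneg_left h1 hQ1
            linarith only [this]
        _ = _ := by push_cast; ring
    · rw [e2]
      have hb : V * z + y + W * x ≤ Q * z + y + W * Q ^ L := by
        rw [← hs, hQ]
        nlinarith only [a2, hW, a1]
      calc (V * z + y + W * x) * Q ^ 2 ≤ (Q * z + y + W * Q ^ L) * Q ^ 2 :=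
            mul_le_mul_of_nonneg_right hb (by (clear * - hV hW; positivity))
        _ = Q * (z * Q ^ 2) + (y * Q) * Q + W * Q ^ L * Q ^ 2 := by ring
        _ ≤ Q * (((1 + W) * (L * (L - 1) / 2) + L * W * Q) * Q ^ L) +
            (L * (1 + W) * Q ^ L) * Q + W * Q ^ L * Q ^ 2 := by
            have t1 := mul_le_mul_of_nonneg_left h2 hQ1
            have t2 := mul_le_mul_of_nonneg_right h1 hQ1
            linarith only [t1, t2]
        _ = _ := by push_cast; ring

theorem pow_ratio {W V : ℝ} {L : ℕ} (hW0 : 0 ≤ W) (hW : W ≤ 1 / 1000) (hV : 64 ≤ V)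
    (hL : (L : ℝ) ≤ V / 16) :
    ((V + 1 + W) ^ (L - 1)) ^ 4 ≤ (V ^ (L - 1)) ^ 4 * (135 / 100) := by
  have hq : V + 1 + W = V * (1 + (1 + W) / V) := by field_simp; ring
  have hexp : (1 + (1 + W) / V) ^ (4 * (L - 1)) ≤ 135 / 100 := by
    have hd : 0 ≤ (1 + W) / V := by (clear * - hW0 hV; positivity)
    calc (1 + (1 + W) / V) ^ (4 * (L - 1)) ≤ (1 + (1 + W) / V) ^ (4 * L) := by
          refine pow_le_pow_right₀ (by linarith only [hd]) (by omega)
      _ ≤ (Real.exp ((1 + W) / V)) ^ (4 * L) := by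
          refine pow_le_pow_left₀ (by linarith only [hd]) ?_ _
          rw [add_comm]; exact Real.add_one_le_exp _
      _ = Real.exp ((4 * L : ℕ) * ((1 + W) / V)) := by rw [← Real.exp_nat_mul]
      _ ≤ Real.exp (1001 / 4000) := by
          refine Real.exp_le_exp.mpr ?_
          push_cast
          rw [← mul_div_assoc, div_le_iff₀ (by linarith only [hV])]
          nlinarith only [hL, hW]
      _ ≤ 1 / (1 - 1001 / 4000) :=
          Real.exp_bound_div_one_sub_of_interval (by norm_num) (by norm_num)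
      _ ≤ _ := by norm_num
  rw [hq, mul_pow, mul_pow, ← pow_mul (1 + (1 + W) / V), mul_comm (L - 1) 4]
  exact mul_le_mul_of_nonneg_left hexp (by positivity)

theorem final_ineq {x y z W V Q P : ℝ} {ℓ : ℝ} (hW0 : 0 ≤ W) (hW : W ≤ 1 / 1000) (hV : 64 ≤ V)
    (hL2 : V / 32 ≤ ℓ) (hQ : Q = V + 1 + W) (hP : 0 < P)
    (a0 : 0 ≤ x) (a1 : 0 ≤ y) (a2 : 0 ≤ z) (hx : x ≤ P)
    (h1 : y * Q ≤ ℓ * (1 + W) * P)
    (h2 : z * Q ^ 2 ≤ ((1 + W) * (ℓ * (ℓ - 1) / 2) + ℓ * W * Q) * P) :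
    (y ^ 2 * z * x) * Q ^ 4 ≤ ℓ ^ 4 * (6 / 10) * P ^ 4 := by
  have hℓ : 1 ≤ ℓ := by linarith only [hV, hL2]
  have hQ1 : 0 < Q := by linarith only [hW0, hV, hQ]
  have hWL : ℓ * W * Q ≤ ℓ ^ 2 * (34 / 1000) := by
    have hQL' : Q ≤ 34 * ℓ := by linarith only [hW, hV, hL2, hQ]
    calc ℓ * W * Q ≤ ℓ * (1 / 1000) * (34 * ℓ) := by (clear * - hW hℓ hQL' hQ1; gcongr)
      _ = _ := by ring
  have hK : (1 + W) * (ℓ * (ℓ - 1) / 2) + ℓ * W * Q ≤ ℓ ^ 2 * (535 / 1000) := by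
    have h3 : (1 + W) * (ℓ * (ℓ - 1) / 2) ≤ (1 + 1 / 1000) * (ℓ ^ 2 / 2) := by
      refine mul_le_mul (by linarith only [hW]) (by nlinarith only [hV, hL2]) ?_ (by norm_num)
      have : 0 ≤ ℓ * (ℓ - 1) := mul_nonneg (by linarith only [hV, hL2]) (by linarith only [hV, hL2])
      linarith only [this]
    nlinarith only [hWL, h3]
  have hy : (y * Q) ^ 2 ≤ (ℓ * (1 + 1 / 1000) * P) ^ 2 := by
    refine pow_le_pow_left₀ (by positivity) (h1.trans ?_) 2
    refine mul_le_mul_of_nonneg_right ?_ hP.le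
    exact mul_le_mul_of_nonneg_left (by linarith only [hW]) (by linarith only [hV, hL2])
  have hz : z * Q ^ 2 ≤ ℓ ^ 2 * (535 / 1000) * P :=
    h2.trans (mul_le_mul_of_nonneg_right hK hP.le)
  have hyn : 0 ≤ (ℓ * (1 + 1 / 1000) * P) ^ 2 := by positivity
  calc (y ^ 2 * z * x) * Q ^ 4 = (y * Q) ^ 2 * (z * Q ^ 2) * x := by ring
    _ ≤ (ℓ * (1 + 1 / 1000) * P) ^ 2 * (ℓ ^ 2 * (535 / 1000) * P) * P := by
        refine mul_le_mul (mul_le_mul hy hz (by positivity) hyn) hx a0 (by positivity)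
    _ = ℓ ^ 4 * ((1 + 1 / 1000) ^ 2 * (535 / 1000)) * P ^ 4 := by ring
    _ ≤ _ := by
      refine mul_le_mul_of_nonneg_right ?_ (by positivity)
      refine mul_le_mul_of_nonneg_left ?_ (by positivity)
      norm_num

theorem exists_code (w U : ℝ) (hw0 : 0 ≤ w) (hw1 : w < 1) (hU : 1 < U) :
    ∃ N L : ℕ, 1 ≤ N ∧ 1 ≤ L ∧ (tri (w^N) (U^N) L 1)^2 * tri (w^N) (U^N) L 2 * tri (w^N) (U^N) L 0 <
      ((L:ℝ) * (U^N)^(L-1))^4 := by
  obtain ⟨N1, hN1⟩ := exists_pow_lt_of_lt_one (by norm_num : (0 : ℝ) < 1 / 1000) hw1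
  obtain ⟨N2, hN2⟩ := pow_unbounded_of_one_lt 64 hU
  have hVN : 64 ≤ U ^ (N1 + N2 + 1) := hN2.le.trans (pow_le_pow_right₀ hU.le (by omega))
  refine ⟨N1 + N2 + 1, ⌊U ^ (N1 + N2 + 1) / 16⌋₊, by omega, ?_, ?_⟩
  · rw [Nat.one_le_floor_iff]; linarith only [hVN]
  have hWW : w ^ (N1 + N2 + 1) ≤ 1 / 1000 :=
    (pow_le_pow_of_le_one hw0 hw1.le (by omega)).trans hN1.le
  have hWW0 : 0 ≤ w ^ (N1 + N2 + 1) := pow_nonneg hw0 _
  generalize w ^ (N1 + N2 + 1) = W at hWW hWW0 ⊢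
  generalize U ^ (N1 + N2 + 1) = V at hVN ⊢
  have hL1 : (⌊V / 16⌋₊ : ℝ) ≤ V / 16 := Nat.floor_le (by linarith only [hVN])
  have hL2 : V / 32 ≤ (⌊V / 16⌋₊ : ℝ) := by
    have := Nat.lt_floor_add_one (V / 16)
    linarith only [hVN, this]
  generalize ⌊V / 16⌋₊ = L at hL1 hL2 ⊢
  have hL0 : (1 : ℝ) ≤ L := by linarith only [hVN, hL2]
  have hL0' : 1 ≤ L := by exact_mod_cast hL0
  obtain ⟨h0, hs, h1, h2⟩ := tri_bounds hWW0 (by linarith only [hVN] : 0 ≤ V) L
  have a0 := h0 0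
  have a1 := h0 1
  have a2 := h0 2
  have hQ1 : 0 < V + 1 + W := by linarith only [hWW0, hVN]
  have hprod := final_ineq hWW0 hWW hVN hL2 rfl (pow_pos hQ1 L) a0 a1 a2 (by linarith only [hs, a1, a2]) h1 h2
  have hQV := pow_ratio hWW0 hWW hVN hL1
  have hsplit : ((V + 1 + W) ^ L) ^ 4 = ((V + 1 + W) ^ (L - 1)) ^ 4 * (V + 1 + W) ^ 4 := by
    rw [← mul_pow, ← pow_succ, Nat.sub_add_cancel hL0']
  rw [hsplit, ← mul_assoc] at hprod
  have hprod' := le_of_mul_le_mul_right hprod (by (clear * - hVN hWW0; positivity))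
  refine lt_of_le_of_lt (hprod'.trans (mul_le_mul_of_nonneg_left hQV (by (clear * - hL0'; positivity)))) ?_
  rw [mul_pow]
  have hV1 : 0 < (V ^ (L - 1)) ^ 4 := by positivity
  have hL4 : (0 : ℝ) < (L : ℝ) ^ 4 := by positivity
  have := mul_pos hL4 hV1
  linarith only [this]

end Vale.Agent.P372
end
end
end

section

section

section

open Matrix Filter Topology
open scoped ComplexOrder

namespace Vale.Agent.P372

/-- Two-party protocols with public classical communication. `K` is the set of keys; the last two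
type arguments are (index sets of orthonormal bases of) the present local systems of Alice and Bob.
* `output P Q`: Alice measures the POVM `P`, Bob measures `Q`; the outcomes are their keys.
* `alice A' M R V next`: Alice applies the instrument with Kraus operators `V m r` to her system,
  broadcasts the outcome `m` and keeps a system `A'`; the protocol goes on with `next m`.
* `bob`: the same with the roles exchanged. -/
inductive Protocol (K : Type) : Type → Type → Type 1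
  | output {A B : Type} (P : K → Matrix A A ℂ) (Q : K → Matrix B B ℂ) : Protocol K A B
  | alice {A B : Type} (A' M R : Type) (_ : Fintype A') (_ : Fintype M) (_ : Fintype R)
      (V : M → R → Matrix A' A ℂ) (next : M → Protocol K A' B) : Protocol K A B
  | bob {A B : Type} (B' M R : Type) (_ : Fintype B') (_ : Fintype M) (_ : Fintype R)
      (V : M → R → Matrix B' B ℂ) (next : M → Protocol K A B') : Protocol K A B

namespace Protocol

variable {K : Type}

open Classical in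
/-- The normalisation conditions: the outputs are POVMs and the instruments are complete. -/
def Valid [Fintype K] : {A B : Type} → Protocol K A B → Prop
  | _, _, .output P Q =>
      ((∀ k, (P k).PosSemidef) ∧ ∑ k, P k = 1) ∧ ((∀ k, (Q k).PosSemidef) ∧ ∑ k, Q k = 1)
  | _, _, .alice _ _ _ _ _ _ V next => (∑ m, ∑ r, (V m r)ᴴ * V m r = 1) ∧ ∀ m, (next m).Valid
  | _, _, .bob _ _ _ _ _ _ V next => (∑ m, ∑ r, (V m r)ᴴ * V m r = 1) ∧ ∀ m, (next m).Valid

/-- The complete public transcripts. -/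
def Transcript : {A B : Type} → Protocol K A B → Type
  | _, _, .output _ _ => Unit
  | _, _, .alice _ M _ _ _ _ _ next => (m : M) × (next m).Transcript
  | _, _, .bob _ M _ _ _ _ _ next => (m : M) × (next m).Transcript

/-- There are finitely many transcripts. -/
instance instFintypeTranscript : {A B : Type} → (π : Protocol K A B) → Fintype π.Transcript
  | _, _, .output _ _ => (inferInstance : Fintype Unit)
  | _, _, .alice _ _ _ _ iM _ _ next =>
      @Sigma.instFintype _ _ (fun m => instFintypeTranscript (next m)) iM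
  | _, _, .bob _ _ _ _ iM _ _ next =>
      @Sigma.instFintype _ _ (fun m => instFintypeTranscript (next m)) iM

/-- Heisenberg picture: the effect on Alice's initial system of the event that the transcript is
`t` and Alice's key is `k` (for given transcript the joint effect is a product operator). -/
def effA : {A B : Type} → (π : Protocol K A B) → π.Transcript → K → Matrix A A ℂ
  | _, _, .output P _, _, k => P k
  | _, _, .alice _ _ _ _ _ _ V next, t, k => ∑ r, (V t.1 r)ᴴ * (next t.1).effA t.2 k * V t.1 r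
  | _, _, .bob _ _ _ _ _ _ _ next, t, k => (next t.1).effA t.2 k

/-- The same for Bob. -/
def effB : {A B : Type} → (π : Protocol K A B) → π.Transcript → K → Matrix B B ℂ
  | _, _, .output _ Q, _, k => Q k
  | _, _, .alice _ _ _ _ _ _ _ next, t, k => (next t.1).effB t.2 k
  | _, _, .bob _ _ _ _ _ _ V next, t, k => ∑ r, (V t.1 r)ᴴ * (next t.1).effB t.2 k * V t.1 r

end Protocol

variable {A B E : Type} [Fintype A] [DecidableEq A] [Fintype B] [DecidableEq B] [Fintype E]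
  [DecidableEq E]

/-- The protocol `π`, run on the vector `Ψ`, has error at most `ε`: the final state of the two keys,
Eve's system and the transcript is `ε`-close in trace norm to a uniform shared key times `σ`. -/
def Protocol.ErrorLE {K : Type} [Fintype K] [DecidableEq K] (π : Protocol K A B)
    (Ψ : Matrix (A × B) E ℂ) (ε : ℝ) : Prop :=
  ∃ σ : π.Transcript → Matrix E E ℂ, (∀ t, (σ t).PosSemidef) ∧ ∑ t, (σ t).trace = 1 ∧
    ∑ t, ∑ k, ∑ l, traceNorm (eve Ψ (π.effA t k) (π.effB t l) -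
      if k = l then ((Fintype.card K : ℂ)⁻¹) • σ t else 0) ≤ ε

/-- The distillable key of the state of `AB` purified by `Ψ`, Eve holding `E`. -/
noncomputable def KD (Ψ : Matrix (A × B) E ℂ) : EReal :=
  sSup {R : EReal | ∃ (ℓ : ℕ → ℕ) (π : ∀ n, Protocol (Fin (ℓ n) → Bool) (Fin n → A) (Fin n → B))
    (ε : ℕ → ℝ), (∀ n, (π n).Valid) ∧ (∀ n, (π n).ErrorLE (copies n Ψ) (ε n)) ∧
      Tendsto ε atTop (𝓝 0) ∧
      R = liminf (fun n => (((ℓ n : ℝ) / (n : ℝ) : ℝ) : EReal)) atTop}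

end Vale.Agent.P372
end
end
end

section

section

section

/-! Trace norm of complex square matrices: variational characterisation and consequences. -/

open Matrix
open scoped ComplexOrder

namespace Vale.Agent.P372

section spectral

variable {n : Type} [Fintype n] [DecidableEq n]

/-- Spectral theorem with explicit unitary `hA.eigenvectorUnitary`. -/
theorem spectral_eq {A : Matrix n n ℂ} (hA : A.IsHermitian) :
    A = (hA.eigenvectorUnitary : Matrix n n ℂ) * diagonal (fun i => (hA.eigenvalues i : ℂ)) *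
      (hA.eigenvectorUnitary : Matrix n n ℂ)ᴴ := by
  have h := hA.spectral_theorem
  rw [Unitary.conjStarAlgAut_apply] at h
  exact h

theorem eigU_mul {A : Matrix n n ℂ} (hA : A.IsHermitian) :
    (hA.eigenvectorUnitary : Matrix n n ℂ) * (hA.eigenvectorUnitary : Matrix n n ℂ)ᴴ = 1 :=
  Unitary.coe_mul_star_self _

theorem eigU_mul' {A : Matrix n n ℂ} (hA : A.IsHermitian) :
    (hA.eigenvectorUnitary : Matrix n n ℂ)ᴴ * (hA.eigenvectorUnitary : Matrix n n ℂ) = 1 :=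
  Unitary.coe_star_mul_self _

end spectral

section hs

variable {m n k : Type} [Fintype m] [Fintype n] [Fintype k]

/-- Squared Hilbert-Schmidt norm. -/
noncomputable def hs (A : Matrix m n ℂ) : ℝ := ∑ i, ∑ j, ‖A i j‖ ^ 2

theorem hs_nonneg (A : Matrix m n ℂ) : 0 ≤ hs A :=
  Finset.sum_nonneg fun _ _ => Finset.sum_nonneg fun _ _ => by positivity

theorem trace_conjTranspose_mul_self (A : Matrix m n ℂ) : (Aᴴ * A).trace = (hs A : ℂ) := by
  simp only [hs, trace, diag, mul_apply, conjTranspose_apply, RCLike.star_def]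
  rw [Finset.sum_comm]
  push_cast
  refine Finset.sum_congr rfl fun i _ => Finset.sum_congr rfl fun j _ => ?_
  rw [Complex.conj_mul']

theorem hs_eq_re (A : Matrix m n ℂ) : hs A = (Aᴴ * A).trace.re := by
  rw [trace_conjTranspose_mul_self, Complex.ofReal_re]

theorem hs_conjTranspose (A : Matrix m n ℂ) : hs Aᴴ = hs A := by
  simp only [hs, conjTranspose_apply, norm_star]
  rw [Finset.sum_comm]

/-- Cauchy-Schwarz for the Hilbert-Schmidt inner product. -/
theorem norm_trace_conjTranspose_mul_le (A B : Matrix m n ℂ) :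
    ‖(Aᴴ * B).trace‖ ≤ √(hs A) * √(hs B) := by
  have h1 : (Aᴴ * B).trace = ∑ p : n × m, star (A p.2 p.1) * B p.2 p.1 := by
    rw [Fintype.sum_prod_type]
    simp only [trace, diag, mul_apply, conjTranspose_apply]
  have h2 : hs A = ∑ p : n × m, ‖A p.2 p.1‖ ^ 2 := by
    rw [Fintype.sum_prod_type, Finset.sum_comm]; rfl
  have h3 : hs B = ∑ p : n × m, ‖B p.2 p.1‖ ^ 2 := by
    rw [Fintype.sum_prod_type, Finset.sum_comm]; rfl
  rw [h1, h2, h3]
  refine (norm_sum_le _ _).trans ?_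
  simp only [norm_mul, norm_star]
  exact Real.sum_mul_le_sqrt_mul_sqrt _ _ _

theorem norm_trace_mul_le_hs (A : Matrix m n ℂ) (B : Matrix n m ℂ) :
    ‖(A * B).trace‖ ≤ √(hs A) * √(hs B) := by
  have := norm_trace_conjTranspose_mul_le Aᴴ B
  rwa [conjTranspose_conjTranspose, hs_conjTranspose] at this

theorem hs_mul_le_left [DecidableEq m] {W : Matrix k m ℂ} (hW : (1 - Wᴴ * W).PosSemidef)
    (A : Matrix m n ℂ) : hs (W * A) ≤ hs A := by
  have h := (hW.conjTranspose_mul_mul_same A).trace_nonneg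
  have h2 : (Aᴴ * (1 - Wᴴ * W) * A).trace = (hs A : ℂ) - (hs (W * A) : ℂ) := by
    rw [← trace_conjTranspose_mul_self, ← trace_conjTranspose_mul_self, ← trace_sub]
    congr 1
    rw [conjTranspose_mul, Matrix.mul_sub, Matrix.sub_mul, Matrix.mul_one]
    simp only [Matrix.mul_assoc]
  rw [h2] at h
  have h3 := (Complex.le_def.mp h).1
  simp only [Complex.zero_re, Complex.sub_re, Complex.ofReal_re, sub_nonneg] at h3
  exact h3

theorem hs_mul_le_right [DecidableEq m] {W : Matrix m k ℂ} (hW : (1 - W * Wᴴ).PosSemidef)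
    (A : Matrix n m ℂ) : hs (A * W) ≤ hs A := by
  rw [← hs_conjTranspose (A * W), conjTranspose_mul, ← hs_conjTranspose A]
  refine hs_mul_le_left ?_ _
  rwa [conjTranspose_conjTranspose]

end hs

variable {E : Type} [Fintype E] [DecidableEq E]

/-- `W` is a contraction. -/
def Contr (W : Matrix E E ℂ) : Prop := (1 - W * Wᴴ).PosSemidef ∧ (1 - Wᴴ * W).PosSemidef

theorem contr_one : Contr (1 : Matrix E E ℂ) := by
  constructor <;> simp [PosSemidef.zero]

theorem traceNorm_nonneg (X : Matrix E E ℂ) : 0 ≤ traceNorm X :=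
  Finset.sum_nonneg fun _ _ => Real.sqrt_nonneg _

/-- The trace norm is attained at a contraction. -/
theorem traceNorm_exists (X : Matrix E E ℂ) :
    ∃ W, Contr W ∧ (W * X).trace = (traceNorm X : ℂ) := by
  set hX := isHermitian_conjTranspose_mul_self X with hXdef
  set U : Matrix E E ℂ := (hX.eigenvectorUnitary : Matrix E E ℂ) with hU
  set l : E → ℝ := hX.eigenvalues with hl
  have hl0 : ∀ i, 0 ≤ l i := fun i => eigenvalues_conjTranspose_mul_self_nonneg X i
  have hsp : Xᴴ * X = U * diagonal (fun i => (l i : ℂ)) * Uᴴ := spectral_eq hX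
  have hU1 : U * Uᴴ = 1 := eigU_mul hX
  have hU2 : Uᴴ * U = 1 := eigU_mul' hX
  set Y : Matrix E E ℂ := X * U with hY
  have hYY : Yᴴ * Y = diagonal (fun i => (l i : ℂ)) := by
    rw [hY, conjTranspose_mul]
    calc Uᴴ * Xᴴ * (X * U) = Uᴴ * (Xᴴ * X) * U := by noncomm_ring
      _ = (Uᴴ * U) * diagonal (fun i => (l i : ℂ)) * (Uᴴ * U) := by rw [hsp]; noncomm_ring
      _ = _ := by rw [hU2, one_mul, mul_one]
  let s : E → ℝ := fun i => (√(l i))⁻¹
  let Ds : Matrix E E ℂ := diagonal (fun i => (s i : ℂ))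
  have hDs : Dsᴴ = Ds := by
    rw [diagonal_conjTranspose]
    congr 1
    funext i
    simp
  have hsl : ∀ i, s i * l i = √(l i) := by
    intro i
    by_cases h : l i = 0
    · simp [s, h]
    · have h' : √(l i) ≠ 0 := by
        rw [Ne, Real.sqrt_eq_zero (hl0 i)]; exact h
      simp only [s]
      rw [inv_mul_eq_iff_eq_mul₀ h']
      exact (Real.mul_self_sqrt (hl0 i)).symm
  have hsls : ∀ i, s i * l i * s i = if l i = 0 then 0 else 1 := by
    intro i
    rw [hsl]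
    by_cases h : l i = 0
    · simp [h]
    · have h' : √(l i) ≠ 0 := by
        rw [Ne, Real.sqrt_eq_zero (hl0 i)]; exact h
      simp [h, s, h']
  set W' : Matrix E E ℂ := Ds * Yᴴ with hW'
  have hW'Y : W' * Y = diagonal (fun i => ((√(l i) : ℝ) : ℂ)) := by
    rw [hW', Matrix.mul_assoc, hYY, diagonal_mul_diagonal]
    congr 1
    funext i
    rw [← Complex.ofReal_mul, hsl]
  have hWW : W' * W'ᴴ = diagonal (fun i => ((if l i = 0 then 0 else 1 : ℝ) : ℂ)) := by
    rw [hW', conjTranspose_mul Ds, conjTranspose_conjTranspose, hDs]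
    calc Ds * Yᴴ * (Y * Ds) = Ds * (Yᴴ * Y) * Ds := by noncomm_ring
      _ = _ := by
        rw [hYY, diagonal_mul_diagonal, diagonal_mul_diagonal]
        congr 1
        funext i
        rw [← Complex.ofReal_mul, ← Complex.ofReal_mul, hsls]
  have hWW2 : W'ᴴ * W' * (W'ᴴ * W') = W'ᴴ * W' := by
    calc W'ᴴ * W' * (W'ᴴ * W') = W'ᴴ * (W' * W'ᴴ) * W' := by noncomm_ring
      _ = W'ᴴ * W' := by
        rw [hWW, hW', conjTranspose_mul Ds, conjTranspose_conjTranspose, hDs]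
        have : Ds * (diagonal (fun i => ((if l i = 0 then 0 else 1 : ℝ) : ℂ))) = Ds := by
          rw [diagonal_mul_diagonal]
          congr 1
          funext i
          by_cases h : l i = 0
          · simp [h, s]
          · simp [h]
        calc Y * Ds * diagonal (fun i => ((if l i = 0 then 0 else 1 : ℝ) : ℂ)) * (Ds * Yᴴ)
            = Y * (Ds * diagonal (fun i => ((if l i = 0 then 0 else 1 : ℝ) : ℂ))) * (Ds * Yᴴ) := by
              noncomm_ring
          _ = _ := by rw [this]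
  have hWherm : (W'ᴴ * W')ᴴ = W'ᴴ * W' := by
    rw [conjTranspose_mul, conjTranspose_conjTranspose]
  refine ⟨U * W', ⟨?_, ?_⟩, ?_⟩
  · have h1 : (1 : Matrix E E ℂ) - U * W' * (U * W')ᴴ
        = U * diagonal (fun i => ((if l i = 0 then 1 else 0 : ℝ) : ℂ)) * Uᴴ := by
      have h2 : diagonal (fun i => ((if l i = 0 then 1 else 0 : ℝ) : ℂ))
          = 1 - W' * W'ᴴ := by
        rw [hWW, ← diagonal_one, diagonal_sub]
        congr 1
        funext i
        by_cases h : l i = 0 <;> simp [h]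
      rw [h2, conjTranspose_mul]
      have h3 : (1 : Matrix E E ℂ) = U * Uᴴ := hU1.symm
      calc (1 : Matrix E E ℂ) - U * W' * (W'ᴴ * Uᴴ) = U * Uᴴ - U * (W' * W'ᴴ) * Uᴴ := by
            rw [← h3]; noncomm_ring
        _ = U * (1 - W' * W'ᴴ) * Uᴴ := by noncomm_ring
    rw [h1]
    refine PosSemidef.mul_mul_conjTranspose_same ?_ U
    rw [posSemidef_diagonal_iff]
    intro i
    by_cases h : l i = 0 <;> simp [h]
  · have h1 : (1 : Matrix E E ℂ) - (U * W')ᴴ * (U * W')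
        = (1 - W'ᴴ * W')ᴴ * (1 - W'ᴴ * W') := by
      rw [conjTranspose_sub, conjTranspose_one, hWherm, conjTranspose_mul]
      calc (1 : Matrix E E ℂ) - W'ᴴ * Uᴴ * (U * W') = 1 - W'ᴴ * (Uᴴ * U) * W' := by noncomm_ring
        _ = 1 - W'ᴴ * W' := by rw [hU2, mul_one]
        _ = 1 - W'ᴴ * W' - W'ᴴ * W' + W'ᴴ * W' * (W'ᴴ * W') := by rw [hWW2]; noncomm_ring
        _ = _ := by noncomm_ring
    rw [h1]
    exact posSemidef_conjTranspose_mul_self _
  · have h1 : (U * W' * X).trace = (W' * Y).trace := by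
      rw [Matrix.mul_assoc, trace_mul_comm, hY, Matrix.mul_assoc]
    rw [h1, hW'Y, trace_diagonal]
    simp only [traceNorm]
    push_cast
    rfl

/-- `|tr (W X)| ≤ ‖X‖₁` for contractions `W`. -/
theorem norm_trace_mul_le {W : Matrix E E ℂ} (hW : Contr W) (X : Matrix E E ℂ) :
    ‖(W * X).trace‖ ≤ traceNorm X := by
  set hX := isHermitian_conjTranspose_mul_self X with hXdef
  set U : Matrix E E ℂ := (hX.eigenvectorUnitary : Matrix E E ℂ) with hU
  set l : E → ℝ := hX.eigenvalues with hl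
  have hl0 : ∀ i, 0 ≤ l i := fun i => eigenvalues_conjTranspose_mul_self_nonneg X i
  have hsp : Xᴴ * X = U * diagonal (fun i => (l i : ℂ)) * Uᴴ := spectral_eq hX
  have hU1 : U * Uᴴ = 1 := eigU_mul hX
  have hU2 : Uᴴ * U = 1 := eigU_mul' hX
  set Y : Matrix E E ℂ := X * U with hY
  have hYY : Yᴴ * Y = diagonal (fun i => (l i : ℂ)) := by
    rw [hY, conjTranspose_mul]
    calc Uᴴ * Xᴴ * (X * U) = Uᴴ * (Xᴴ * X) * U := by noncomm_ring
      _ = (Uᴴ * U) * diagonal (fun i => (l i : ℂ)) * (Uᴴ * U) := by rw [hsp]; noncomm_ring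
      _ = _ := by rw [hU2, one_mul, mul_one]
  set Z : Matrix E E ℂ := Uᴴ * W with hZ
  have h1 : (W * X).trace = ∑ i, ∑ j, Z i j * Y j i := by
    have : (W * X).trace = (Z * Y).trace := by
      rw [hZ, hY]
      calc (W * X).trace = ((W * X) * (U * Uᴴ)).trace := by rw [hU1, mul_one]
        _ = (Uᴴ * (W * X * U)).trace := by
            rw [← Matrix.mul_assoc, trace_mul_comm]
        _ = _ := by congr 1; noncomm_ring
    rw [this]
    simp only [trace, diag, mul_apply]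
  have hZZ : ∀ i, ∑ j, ‖Z i j‖ ^ 2 ≤ 1 := by
    intro i
    have h2 : (1 - Z * Zᴴ).PosSemidef := by
      have h3 : 1 - Z * Zᴴ = Uᴴ * (1 - W * Wᴴ) * U := by
        rw [hZ, conjTranspose_mul, conjTranspose_conjTranspose]
        calc (1 : Matrix E E ℂ) - Uᴴ * W * (Wᴴ * U) = Uᴴ * U - Uᴴ * (W * Wᴴ) * U := by
              rw [hU2]; noncomm_ring
          _ = _ := by noncomm_ring
      rw [h3]
      exact hW.1.conjTranspose_mul_mul_same U
    have h4 := h2.diag_nonneg (i := i)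
    have h5 : (1 - Z * Zᴴ) i i = ((1 - ∑ j, ‖Z i j‖ ^ 2 : ℝ) : ℂ) := by
      rw [Matrix.sub_apply, one_apply_eq, mul_apply]
      push_cast
      congr 1
      refine Finset.sum_congr rfl fun j _ => ?_
      rw [conjTranspose_apply, RCLike.star_def, Complex.mul_conj']
    rw [h5, Complex.zero_le_real] at h4
    linarith
  have hYn : ∀ i, ∑ j, ‖Y j i‖ ^ 2 = l i := by
    intro i
    have h7 : (Yᴴ * Y) i i = ((∑ j, ‖Y j i‖ ^ 2 : ℝ) : ℂ) := by
      rw [mul_apply]
      push_cast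
      refine Finset.sum_congr rfl fun j _ => ?_
      rw [conjTranspose_apply, RCLike.star_def, Complex.conj_mul']
    rw [hYY, diagonal_apply_eq] at h7
    exact_mod_cast h7.symm
  rw [h1]
  refine (norm_sum_le _ _).trans ?_
  simp only [traceNorm]
  refine Finset.sum_le_sum fun i _ => ?_
  refine (norm_sum_le _ _).trans ?_
  simp only [norm_mul]
  refine (Real.sum_mul_le_sqrt_mul_sqrt _ _ _).trans ?_
  rw [hYn i]
  calc √(∑ j, ‖Z i j‖ ^ 2) * √(l i) ≤ 1 * √(l i) := by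
        refine mul_le_mul_of_nonneg_right ?_ (Real.sqrt_nonneg _)
        exact Real.sqrt_le_iff.mpr ⟨zero_le_one, by simpa only [one_pow] using hZZ i⟩
    _ = _ := one_mul _

theorem traceNorm_le_of_forall {X : Matrix E E ℂ} {c : ℝ}
    (h : ∀ W, Contr W → ‖(W * X).trace‖ ≤ c) : traceNorm X ≤ c := by
  obtain ⟨W, hW, hWX⟩ := traceNorm_exists X
  have := h W hW
  rw [hWX, Complex.norm_real, Real.norm_of_nonneg (traceNorm_nonneg X)] at this
  exact this

@[simp] theorem traceNorm_zero : traceNorm (0 : Matrix E E ℂ) = 0 := by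
  refine le_antisymm ?_ (traceNorm_nonneg _)
  refine traceNorm_le_of_forall fun W _ => ?_
  simp only [mul_zero, trace_zero, norm_zero, Std.le_refl]

theorem traceNorm_add_le (X Y : Matrix E E ℂ) :
    traceNorm (X + Y) ≤ traceNorm X + traceNorm Y := by
  refine traceNorm_le_of_forall fun W hW => ?_
  rw [mul_add, trace_add]
  exact (norm_add_le _ _).trans (add_le_add (norm_trace_mul_le hW X) (norm_trace_mul_le hW Y))

theorem traceNorm_smul_le (c : ℂ) (X : Matrix E E ℂ) :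
    traceNorm (c • X) ≤ ‖c‖ * traceNorm X := by
  refine traceNorm_le_of_forall fun W hW => ?_
  rw [Matrix.mul_smul, trace_smul, smul_eq_mul, norm_mul]
  exact mul_le_mul_of_nonneg_left (norm_trace_mul_le hW X) (norm_nonneg _)

theorem traceNorm_smul (c : ℂ) (X : Matrix E E ℂ) :
    traceNorm (c • X) = ‖c‖ * traceNorm X := by
  refine le_antisymm (traceNorm_smul_le c X) ?_
  by_cases hc : c = 0
  · simp [hc]
  · have h := traceNorm_smul_le c⁻¹ (c • X)
    rw [smul_smul, inv_mul_cancel₀ hc, one_smul, norm_inv] at h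
    have hc' : 0 < ‖c‖ := norm_pos_iff.mpr hc
    calc ‖c‖ * traceNorm X ≤ ‖c‖ * (‖c‖⁻¹ * traceNorm (c • X)) :=
          mul_le_mul_of_nonneg_left h hc'.le
      _ = traceNorm (c • X) := by
          rw [← mul_assoc, mul_inv_cancel₀ hc'.ne', one_mul]

theorem traceNorm_neg (X : Matrix E E ℂ) : traceNorm (-X) = traceNorm X := by
  have := traceNorm_smul (-1) X
  simpa only [neg_smul, one_smul, norm_neg, norm_one, one_mul] using this

theorem traceNorm_sub_le (X Y : Matrix E E ℂ) :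
    traceNorm (X - Y) ≤ traceNorm X + traceNorm Y := by
  rw [sub_eq_add_neg, ← traceNorm_neg Y]
  exact traceNorm_add_le _ _

theorem traceNorm_sum_le {ι : Type*} (s : Finset ι) (f : ι → Matrix E E ℂ) :
    traceNorm (∑ i ∈ s, f i) ≤ ∑ i ∈ s, traceNorm (f i) := by
  refine traceNorm_le_of_forall fun W hW => ?_
  rw [Finset.mul_sum, trace_sum]
  exact (norm_sum_le _ _).trans (Finset.sum_le_sum fun i _ => norm_trace_mul_le hW (f i))

theorem norm_trace_le (X : Matrix E E ℂ) : ‖X.trace‖ ≤ traceNorm X := by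
  have := norm_trace_mul_le contr_one X
  rwa [one_mul] at this

/-! ### Square roots, fourth roots and pseudo-inverses of positive semidefinite matrices -/

/-- Functional calculus for a Hermitian matrix via its spectral decomposition. -/
noncomputable def fcalc {A : Matrix E E ℂ} (hA : A.IsHermitian) (f : ℝ → ℝ) : Matrix E E ℂ :=
  (hA.eigenvectorUnitary : Matrix E E ℂ) * diagonal (fun i => (f (hA.eigenvalues i) : ℂ)) *
      (hA.eigenvectorUnitary : Matrix E E ℂ)ᴴ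

theorem fcalc_id {A : Matrix E E ℂ} (hA : A.IsHermitian) : fcalc hA (fun x => x) = A :=
  (spectral_eq hA).symm

theorem fcalc_mul {A : Matrix E E ℂ} (hA : A.IsHermitian) (f g : ℝ → ℝ) :
    fcalc hA f * fcalc hA g = fcalc hA (fun x => f x * g x) := by
  unfold fcalc
  set U : Matrix E E ℂ := (hA.eigenvectorUnitary : Matrix E E ℂ) with hU
  have hU2 : Uᴴ * U = 1 := eigU_mul' hA
  calc U * diagonal (fun i => (f (hA.eigenvalues i) : ℂ)) * Uᴴ *
        (U * diagonal (fun i => (g (hA.eigenvalues i) : ℂ)) * Uᴴ)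
      = U * diagonal (fun i => (f (hA.eigenvalues i) : ℂ)) * (Uᴴ * U) *
        diagonal (fun i => (g (hA.eigenvalues i) : ℂ)) * Uᴴ := by noncomm_ring
    _ = U * (diagonal (fun i => (f (hA.eigenvalues i) : ℂ)) *
        diagonal (fun i => (g (hA.eigenvalues i) : ℂ))) * Uᴴ := by
        rw [hU2, mul_one]; noncomm_ring
    _ = _ := by
        rw [diagonal_mul_diagonal]
        push_cast
        rfl

theorem fcalc_congr {A : Matrix E E ℂ} (hA : A.IsHermitian) {f g : ℝ → ℝ}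
    (h : ∀ i, f (hA.eigenvalues i) = g (hA.eigenvalues i)) : fcalc hA f = fcalc hA g := by
  unfold fcalc
  congr 2
  congr 1
  funext i
  rw [h]

theorem fcalc_posSemidef {A : Matrix E E ℂ} (hA : A.IsHermitian) {f : ℝ → ℝ}
    (h : ∀ i, 0 ≤ f (hA.eigenvalues i)) : (fcalc hA f).PosSemidef := by
  refine PosSemidef.mul_mul_conjTranspose_same ?_ _
  rw [posSemidef_diagonal_iff]
  intro i
  exact_mod_cast h i

theorem fcalc_isHermitian {A : Matrix E E ℂ} (hA : A.IsHermitian) (f : ℝ → ℝ) :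
    (fcalc hA f).IsHermitian := by
  unfold fcalc
  rw [IsHermitian, conjTranspose_mul, conjTranspose_mul, conjTranspose_conjTranspose,
    diagonal_conjTranspose, Matrix.mul_assoc]
  congr 2
  congr 1
  funext i
  simp

theorem fcalc_mul_self {A : Matrix E E ℂ} (hA : A.IsHermitian) (f : ℝ → ℝ) :
    fcalc hA f * A = fcalc hA (fun x => f x * x) := by
  calc fcalc hA f * A = fcalc hA f * fcalc hA (fun x => x) := by rw [fcalc_id]
    _ = _ := fcalc_mul hA _ _

theorem self_mul_fcalc {A : Matrix E E ℂ} (hA : A.IsHermitian) (f : ℝ → ℝ) :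
    A * fcalc hA f = fcalc hA (fun x => x * f x) := by
  calc A * fcalc hA f = fcalc hA (fun x => x) * fcalc hA f := by rw [fcalc_id]
    _ = _ := fcalc_mul hA _ _

theorem fcalc_eq_self {A : Matrix E E ℂ} (hA : A.IsHermitian) {f : ℝ → ℝ}
    (h : ∀ i, f (hA.eigenvalues i) = hA.eigenvalues i) : fcalc hA f = A :=
  (fcalc_congr hA h).trans (fcalc_id hA)

theorem fcalc_one {A : Matrix E E ℂ} (hA : A.IsHermitian) : fcalc hA (fun _ => 1) = 1 := by
  unfold fcalc
  have : (diagonal (fun _ : E => ((1 : ℝ) : ℂ))) = (1 : Matrix E E ℂ) := by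
    rw [Complex.ofReal_one]; rfl
  rw [this, mul_one, eigU_mul]

theorem fcalc_sub {A : Matrix E E ℂ} (hA : A.IsHermitian) (f g : ℝ → ℝ) :
    fcalc hA f - fcalc hA g = fcalc hA (fun x => f x - g x) := by
  unfold fcalc
  rw [← Matrix.sub_mul, ← Matrix.mul_sub, diagonal_sub]
  push_cast
  rfl

/-- Square root of a positive semidefinite matrix. -/
theorem exists_sqrt {X : Matrix E E ℂ} (hX : X.PosSemidef) :
    ∃ P : Matrix E E ℂ, P.PosSemidef ∧ P * P = X := by
  refine ⟨fcalc hX.1 (fun x => √x), fcalc_posSemidef _ fun i => Real.sqrt_nonneg _, ?_⟩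
  rw [fcalc_mul]
  exact fcalc_eq_self _ fun i => Real.mul_self_sqrt (hX.eigenvalues_nonneg i)

/-- Fourth root of a positive semidefinite matrix. -/
theorem exists_fourth_root {X : Matrix E E ℂ} (hX : X.PosSemidef) :
    ∃ P : Matrix E E ℂ, P.PosSemidef ∧ (P * P) * (P * P) = X := by
  obtain ⟨Q, hQ, hQX⟩ := exists_sqrt hX
  obtain ⟨P, hP, hPQ⟩ := exists_sqrt hQ
  exact ⟨P, hP, by rw [hPQ, hQX]⟩

/-- Fourth root `P` of a positive semidefinite matrix `X` with its pseudo-inverse `P'`: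
`P * P' = P' * P = S` is an orthogonal projection with `S * X = X` . -/
theorem exists_fourth_root_pinv {X : Matrix E E ℂ} (hX : X.PosSemidef) :
    ∃ P P' S : Matrix E E ℂ, P.PosSemidef ∧ P'.PosSemidef ∧ S.PosSemidef ∧
      (P * P) * (P * P) = X ∧ P * P' = S ∧ P' * P = S ∧ S * S = S ∧ S * X = X ∧ X * S = X ∧
      (∀ v : E → ℂ, X *ᵥ v = 0 → S *ᵥ v = 0) := by
  have h0 := hX.eigenvalues_nonneg
  set r : ℝ → ℝ := fun x => √√x with hr
  refine ⟨fcalc hX.1 r, fcalc hX.1 (fun x => (r x)⁻¹),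
    fcalc hX.1 (fun x => if x = 0 then 0 else 1),
    fcalc_posSemidef _ fun i => Real.sqrt_nonneg _,
    fcalc_posSemidef _ fun i => inv_nonneg.mpr (Real.sqrt_nonneg _),
    fcalc_posSemidef _ fun i => by split_ifs <;> norm_num, ?_, ?_, ?_, ?_, ?_, ?_, ?_⟩
  · rw [fcalc_mul, fcalc_mul]
    refine fcalc_eq_self _ fun i => ?_
    simp only [hr]
    rw [Real.mul_self_sqrt (Real.sqrt_nonneg _), Real.mul_self_sqrt (h0 i)]
  · rw [fcalc_mul]
    refine fcalc_congr _ fun i => ?_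
    by_cases h : hX.1.eigenvalues i = 0
    · simp [h, hr]
    · have : r (hX.1.eigenvalues i) ≠ 0 := by
        simp only [hr]
        rw [Ne, Real.sqrt_eq_zero (Real.sqrt_nonneg _), Real.sqrt_eq_zero (h0 i)]
        exact h
      simp [h, mul_inv_cancel₀ this]
  · rw [fcalc_mul]
    refine fcalc_congr _ fun i => ?_
    by_cases h : hX.1.eigenvalues i = 0
    · simp [h, hr]
    · have : r (hX.1.eigenvalues i) ≠ 0 := by
        simp only [hr]
        rw [Ne, Real.sqrt_eq_zero (Real.sqrt_nonneg _), Real.sqrt_eq_zero (h0 i)]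
        exact h
      simp [h, inv_mul_cancel₀ this]
  · rw [fcalc_mul]
    refine fcalc_congr _ fun i => ?_
    by_cases h : hX.1.eigenvalues i = 0 <;> simp [h]
  · rw [fcalc_mul_self]
    refine fcalc_eq_self _ fun i => ?_
    by_cases h : hX.1.eigenvalues i = 0 <;> simp [h]
  · rw [self_mul_fcalc]
    refine fcalc_eq_self _ fun i => ?_
    by_cases h : hX.1.eigenvalues i = 0 <;> simp [h]
  · intro v hv
    have h1 : fcalc hX.1 (fun x => if x = 0 then 0 else 1) = fcalc hX.1 (fun x => x⁻¹) * X := by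
      rw [fcalc_mul_self]
      refine fcalc_congr _ fun i => ?_
      by_cases h : hX.1.eigenvalues i = 0
      · simp [h]
      · simp [h]
    rw [h1, ← mulVec_mulVec, hv, mulVec_zero]

/-- The trace norm of a positive semidefinite matrix is its trace. -/
theorem traceNorm_of_posSemidef {X : Matrix E E ℂ} (h : X.PosSemidef) :
    traceNorm X = X.trace.re := by
  refine le_antisymm ?_ ?_
  · obtain ⟨S, hS, hSX⟩ := exists_sqrt h
    refine traceNorm_le_of_forall fun W hW => ?_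
    have h1 : (W * X).trace = (Sᴴ * (W * S)).trace := by
      rw [← hSX, hS.1.eq, ← Matrix.mul_assoc, trace_mul_comm]
    have h2 : hs S = X.trace.re := by rw [hs_eq_re, hS.1.eq, hSX]
    rw [h1]
    refine (norm_trace_conjTranspose_mul_le _ _).trans ?_
    calc √(hs S) * √(hs (W * S)) ≤ √(hs S) * √(hs S) :=
          mul_le_mul_of_nonneg_left (Real.sqrt_le_sqrt (hs_mul_le_left hW.2 S))
            (Real.sqrt_nonneg _)
      _ = X.trace.re := by rw [Real.mul_self_sqrt (hs_nonneg _), h2]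
  · exact (Complex.re_le_norm _).trans (norm_trace_le X)

/-- `‖P D P‖₁ ≤ √tr P⁴ · √tr D*D`. -/
theorem traceNorm_conj_le {P : Matrix E E ℂ} (hP : P.PosSemidef) (D : Matrix E E ℂ) :
    traceNorm (P * D * P) ≤ √(((P * P) * (P * P)).trace.re) * √((Dᴴ * D).trace.re) := by
  refine traceNorm_le_of_forall fun W hW => ?_
  have h1 : (W * (P * D * P)).trace = (P * W * P * D).trace := by
    calc (W * (P * D * P)).trace = ((W * P * D) * P).trace := by congr 1; noncomm_ring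
      _ = _ := by rw [trace_mul_comm]; congr 1; noncomm_ring
  have h2 : hs (P * W * P) ≤ ((P * P) * (P * P)).trace.re := by
    have h3 : (hs (P * W * P) : ℂ) = ((P * P) * (Wᴴ * (P * P) * W)).trace := by
      rw [← trace_conjTranspose_mul_self, conjTranspose_mul, conjTranspose_mul, hP.1.eq]
      calc (P * (Wᴴ * P) * (P * W * P)).trace = (P * (Wᴴ * P * P * W * P)).trace := by
            congr 1; noncomm_ring
        _ = (Wᴴ * P * P * W * P * P).trace := by rw [trace_mul_comm]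
        _ = ((Wᴴ * (P * P) * W) * (P * P)).trace := by congr 1; noncomm_ring
        _ = _ := by rw [trace_mul_comm]
    have h4 : hs (P * W * P) ≤ √(hs (P * P)) * √(hs (Wᴴ * (P * P) * W)) := by
      calc hs (P * W * P) = ‖(hs (P * W * P) : ℂ)‖ := by
            rw [Complex.norm_real, Real.norm_of_nonneg (hs_nonneg _)]
        _ ≤ _ := by rw [h3]; exact norm_trace_mul_le_hs _ _
    have h5 : hs (Wᴴ * (P * P) * W) ≤ hs (P * P) :=
      (hs_mul_le_right hW.1 _).trans (hs_mul_le_left (by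
        rw [conjTranspose_conjTranspose]; exact hW.1) _)
    have h6 : hs (P * P) = ((P * P) * (P * P)).trace.re := by
      rw [hs_eq_re, conjTranspose_mul, hP.1.eq]
    calc hs (P * W * P) ≤ √(hs (P * P)) * √(hs (P * P)) :=
          h4.trans (mul_le_mul_of_nonneg_left (Real.sqrt_le_sqrt h5) (Real.sqrt_nonneg _))
      _ = _ := by rw [Real.mul_self_sqrt (hs_nonneg _), h6]
  rw [h1]
  refine (norm_trace_mul_le_hs _ _).trans ?_
  rw [← hs_eq_re D]
  exact mul_le_mul_of_nonneg_right (Real.sqrt_le_sqrt h2) (Real.sqrt_nonneg _)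

end Vale.Agent.P372
end
end
end

section

section

section

open Matrix
open scoped ComplexOrder MatrixOrder

set_option linter.unusedSectionVars false

namespace Vale.Agent.P372

section avg

variable {X U : Type} [Fintype X] [DecidableEq X] [Fintype U] [DecidableEq U]

theorem sum_prod_fun (g : X → U → ℝ) : ∑ u : X → U, ∏ x, g x (u x) = ∏ x, ∑ v, g x v := by
  rw [Finset.prod_univ_sum]
  simp only [Fintype.piFinset_univ]

/-- the uniform average over all functions -/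
noncomputable def avg (F : (X → U) → ℝ) : ℝ := ∑ u : X → U, (∏ _x : X, (Fintype.card U : ℝ)⁻¹) * F u

theorem avg_two [Nonempty U] {x x' : X} (hx : x ≠ x') (G H : U → ℝ) :
    avg (fun u : X → U => G (u x) * H (u x')) =
      ((Fintype.card U : ℝ)⁻¹ * ∑ v, G v) * ((Fintype.card U : ℝ)⁻¹ * ∑ v, H v) := by
  have h1 : ∀ u : X → U, (∏ _x : X, (Fintype.card U : ℝ)⁻¹) * (G (u x) * H (u x')) =
      ∏ z, ((Fintype.card U : ℝ)⁻¹ * (if z = x then G (u z) else if z = x' then H (u z) else 1)) := by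
    intro u
    rw [Finset.prod_mul_distrib]
    congr 1
    rw [Finset.prod_eq_mul x x' hx]
    · simp [hx.symm]
    · intro c _ hc
      simp [hc.1, hc.2]
    · intro h
      exact absurd (Finset.mem_univ _) h
    · intro h
      exact absurd (Finset.mem_univ _) h
  unfold avg
  simp only [h1]
  rw [sum_prod_fun (fun z v => (Fintype.card U : ℝ)⁻¹ *
    (if z = x then G v else if z = x' then H v else 1))]
  have hc : (Fintype.card U : ℝ) ≠ 0 := by
    exact_mod_cast Fintype.card_ne_zero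
  rw [Finset.prod_eq_mul x x' hx]
  · simp only [↓reduceIte, hx.symm, Finset.mul_sum]
  · intro c _ hc'
    simp only [hc'.1, ↓reduceIte, hc'.2, mul_one, Finset.sum_const, Finset.card_univ, nsmul_eq_mul, ne_eq, hc, not_false_eq_true, mul_inv_cancel₀]
  · intro h
    exact absurd (Finset.mem_univ _) h
  · intro h
    exact absurd (Finset.mem_univ _) h

theorem avg_const [Nonempty U] (a : ℝ) : avg (fun _ : X → U => a) = a := by
  have hc : (Fintype.card U : ℝ) ≠ 0 := by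
    exact_mod_cast Fintype.card_ne_zero
  unfold avg
  rw [← Finset.sum_mul, sum_prod_fun (fun _ _ => (Fintype.card U : ℝ)⁻¹)]
  simp only [Finset.sum_const, Finset.card_univ, nsmul_eq_mul, ne_eq, hc, not_false_eq_true, mul_inv_cancel₀, Finset.prod_const_one, one_mul]

theorem avg_mono {F G : (X → U) → ℝ} (h : ∀ u, F u ≤ G u) : avg F ≤ avg G := by
  unfold avg
  refine Finset.sum_le_sum fun u _ => mul_le_mul_of_nonneg_left (h u) ?_
  exact Finset.prod_nonneg fun _ _ => by (clear * -; positivity)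

theorem avg_add (F G : (X → U) → ℝ) : avg (fun u => F u + G u) = avg F + avg G := by
  unfold avg
  simp only [mul_add, Finset.sum_add_distrib]

theorem avg_mul_left (a : ℝ) (F : (X → U) → ℝ) : avg (fun u => a * F u) = a * avg F := by
  unfold avg
  rw [Finset.mul_sum]
  exact Finset.sum_congr rfl fun u _ => by ring

theorem avg_sum {ι : Type} (s : Finset ι) (F : ι → (X → U) → ℝ) :
    avg (fun u => ∑ i ∈ s, F i u) = ∑ i ∈ s, avg (F i) := by
  unfold avg
  rw [Finset.sum_comm]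
  simp only [Finset.mul_sum]

theorem exists_le_avg [Nonempty U] (F : (X → U) → ℝ) : ∃ u, F u ≤ avg F := by
  by_contra hcon
  push Not at hcon
  have h0 : ∀ u : X → U, 0 < (∏ _x : X, (Fintype.card U : ℝ)⁻¹) := by
    intro u
    refine Finset.prod_pos fun _ _ => ?_
    have : 0 < (Fintype.card U : ℝ) := by exact_mod_cast Fintype.card_pos
    positivity
  have h1 : avg (fun _ : X → U => avg F) < avg F := by
    conv_rhs => unfold avg
    conv_lhs => unfold avg
    refine Finset.sum_lt_sum_of_nonempty ⟨fun _ => Classical.arbitrary U, Finset.mem_univ _⟩ ?_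
    intro u _
    exact mul_lt_mul_of_pos_left (hcon u) (h0 u)
  rw [avg_const] at h1
  exact lt_irrefl _ h1

theorem avg_sqrt_le [Nonempty U] {F : (X → U) → ℝ} (hF : ∀ u, 0 ≤ F u) :
    avg (fun u => √(F u)) ≤ √(avg F) := by
  have h0 : 0 ≤ (∏ _x : X, (Fintype.card U : ℝ)⁻¹) := Finset.prod_nonneg fun _ _ => by positivity
  have h := Real.sum_sqrt_mul_sqrt_le (Finset.univ : Finset (X → U))
    (f := fun _ => ∏ _x : X, (Fintype.card U : ℝ)⁻¹)
    (g := fun u => (∏ _x : X, (Fintype.card U : ℝ)⁻¹) * F u)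
    (fun _ => h0) (fun u => mul_nonneg h0 (hF u))
  have h1 : ∑ u : X → U, √(∏ _x : X, (Fintype.card U : ℝ)⁻¹) *
      √((∏ _x : X, (Fintype.card U : ℝ)⁻¹) * F u) = avg (fun u => √(F u)) := by
    unfold avg
    refine Finset.sum_congr rfl fun u _ => ?_
    rw [Real.sqrt_mul h0, ← mul_assoc, Real.mul_self_sqrt h0]
  have h2 : ∑ _u : X → U, (∏ _x : X, (Fintype.card U : ℝ)⁻¹) = 1 := by
    have := avg_const (X := X) (U := U) 1
    unfold avg at this
    simp only [mul_one] at this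
    exact this
  rw [h1, h2, Real.sqrt_one, one_mul] at h
  exact h

end avg

section hash

variable {X Y K E : Type} [Fintype X] [DecidableEq X] [Fintype Y] [DecidableEq Y] [Fintype K]
  [DecidableEq K] [Fintype E] [DecidableEq E]

theorem exists_decoder [Nonempty X] {S : ℕ} (P : X → Y → ℝ) (hP : ∀ x y, 0 ≤ P x y)
    (h : X → Fin S) :
    ∃ dec : Y → Fin S → X, ∀ x y, (if dec y (h x) ≠ x then P x y else 0) ≤
      ∑ x' ∈ Finset.univ.erase x, if h x = h x' then √(P x y) * √(P x' y) else 0 := by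
  have key : ∀ y c, ∃ z, ∀ x, h x = c → (h z = c ∧ P x y ≤ P z y) := by
    intro y c
    by_cases hne : (Finset.univ.filter fun x => h x = c).Nonempty
    · obtain ⟨z, hz, hmax⟩ := Finset.exists_max_image _ (fun x => P x y) hne
      refine ⟨z, fun x hx => ⟨(Finset.mem_filter.mp hz).2, hmax x ?_⟩⟩
      exact Finset.mem_filter.mpr ⟨Finset.mem_univ _, hx⟩
    · refine ⟨Classical.arbitrary X, fun x hx => ?_⟩
      exact absurd ⟨x, Finset.mem_filter.mpr ⟨Finset.mem_univ _, hx⟩⟩ hne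
  choose dec hdec using key
  refine ⟨dec, fun x y => ?_⟩
  have hnn : ∀ x' ∈ Finset.univ.erase x,
      0 ≤ if h x = h x' then √(P x y) * √(P x' y) else 0 := by
    intro x' _
    split_ifs
    · (clear * -; positivity)
    · exact le_refl _
  by_cases hx : dec y (h x) ≠ x
  · rw [if_pos hx]
    obtain ⟨h1, h2⟩ := hdec y (h x) x rfl
    have hmem : dec y (h x) ∈ Finset.univ.erase x := Finset.mem_erase.mpr ⟨hx, Finset.mem_univ _⟩
    refine le_trans ?_ (Finset.single_le_sum hnn hmem)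
    rw [if_pos h1.symm]
    calc P x y = √(P x y) * √(P x y) := (Real.mul_self_sqrt (hP x y)).symm
      _ ≤ √(P x y) * √(P (dec y (h x)) y) :=
        mul_le_mul_of_nonneg_left (Real.sqrt_le_sqrt h2) (Real.sqrt_nonneg _)
  · rw [if_neg hx]
    exact Finset.sum_nonneg hnn

/-- the centred indicator -/
noncomputable def cf {S : ℕ} (c : Fin S) (κ : K) (v : Fin S × K) : ℝ :=
  if v.1 = c then (if v.2 = κ then 1 else 0) - (Fintype.card K : ℝ)⁻¹ else 0

theorem cf_sum [Nonempty K] {S : ℕ} (c : Fin S) (κ : K) : ∑ v, cf c κ v = 0 := by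
  have hc : (Fintype.card K : ℝ) ≠ 0 := by
    exact_mod_cast Fintype.card_ne_zero
  rw [Fintype.sum_prod_type]
  rw [Finset.sum_eq_single c]
  · simp only [cf, if_true, Finset.sum_sub_distrib]
    simp only [Finset.sum_ite_eq', Finset.mem_univ, ↓reduceIte, Finset.sum_const, Finset.card_univ, nsmul_eq_mul, ne_eq, hc, not_false_eq_true, mul_inv_cancel₀, sub_self]
  · intro b _ hb
    simp [cf, hb]
  · simp only [Finset.mem_univ, not_true_eq_false, IsEmpty.forall_iff]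

theorem cf_sq_sum [Nonempty K] {S : ℕ} (v : Fin S × K) : ∑ c, ∑ κ, cf c κ v * cf c κ v ≤ 1 := by
  have hc : (Fintype.card K : ℝ) ≠ 0 := by
    exact_mod_cast Fintype.card_ne_zero
  rw [Finset.sum_eq_single v.1]
  · have : ∀ κ, cf v.1 κ v * cf v.1 κ v = (if v.2 = κ then 1 - 2 * (Fintype.card K : ℝ)⁻¹ else 0) +
        (Fintype.card K : ℝ)⁻¹ * (Fintype.card K : ℝ)⁻¹ := by
      intro κ
      by_cases h : v.2 = κ
      · simp only [cf, ↓reduceIte, h]
        ring
      · simp only [cf, ↓reduceIte, h, zero_sub, mul_neg, neg_mul, neg_neg, zero_add]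
    simp only [this, Finset.sum_add_distrib, Finset.sum_ite_eq, Finset.mem_univ, if_true, Finset.sum_const, Finset.card_univ, nsmul_eq_mul]
    have h2 : (Fintype.card K : ℝ) * ((Fintype.card K : ℝ)⁻¹ * (Fintype.card K : ℝ)⁻¹) =
      (Fintype.card K : ℝ)⁻¹ := by field_simp
    rw [h2]
    have : 0 < (Fintype.card K : ℝ)⁻¹ := by
      have : 0 < (Fintype.card K : ℝ) := by exact_mod_cast Fintype.card_pos
      positivity
    linarith only [this]
  · intro b _ hb
    simp [cf, hb.symm]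
  · simp only [Finset.mem_univ, not_true_eq_false, IsEmpty.forall_iff]

theorem trace_quad (a : X → ℝ) (D : X → Matrix E E ℂ) :
    ((∑ x, (a x : ℂ) • D x)ᴴ * (∑ x, (a x : ℂ) • D x)).trace.re =
      ∑ x, ∑ x', a x * a x' * ((D x)ᴴ * D x').trace.re := by
  rw [conjTranspose_sum, Finset.sum_mul, trace_sum, Complex.re_sum]
  refine Finset.sum_congr rfl fun x _ => ?_
  rw [Finset.mul_sum, trace_sum, Complex.re_sum]
  refine Finset.sum_congr rfl fun x' _ => ?_
  rw [conjTranspose_smul, Matrix.smul_mul, Matrix.mul_smul, trace_smul, trace_smul]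
  simp only [RCLike.star_def, Complex.conj_ofReal, smul_eq_mul, Complex.mul_re, Complex.ofReal_re, Complex.ofReal_im, zero_mul, sub_zero, Complex.mul_im, add_zero, mul_assoc]

theorem avg_quad_le [Nonempty K] {S : ℕ} [NeZero S] (T : X → X → ℝ) (hT : ∀ x, 0 ≤ T x x) :
    avg (fun u : X → Fin S × K => ∑ c, ∑ κ, ∑ x, ∑ x', cf c κ (u x) * cf c κ (u x') * T x x') ≤
      ∑ x, T x x := by
  have h2 : ∀ (c : Fin S) (κ : K) (x : X),
      avg (fun u : X → Fin S × K => ∑ x', cf c κ (u x) * cf c κ (u x') * T x x') =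
        T x x * avg (fun u : X → Fin S × K => cf c κ (u x) * cf c κ (u x)) := by
    intro c κ x
    rw [avg_sum, Finset.sum_eq_single x]
    · rw [← avg_mul_left]
      congr 1
      funext u
      ring
    · intro x' _ hx'
      have : avg (fun u : X → Fin S × K => cf c κ (u x) * cf c κ (u x') * T x x') =
          T x x' * avg (fun u : X → Fin S × K => cf c κ (u x) * cf c κ (u x')) := by
        rw [← avg_mul_left]
        congr 1
        funext u
        ring
      rw [this, avg_two hx'.symm, cf_sum]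
      simp only [Fintype.card_prod, Fintype.card_fin, Nat.cast_mul, _root_.mul_inv_rev, mul_zero]
    · simp only [Finset.mem_univ, not_true_eq_false, IsEmpty.forall_iff]
  have h1 : avg (fun u : X → Fin S × K =>
      ∑ c, ∑ κ, ∑ x, ∑ x', cf c κ (u x) * cf c κ (u x') * T x x') =
      ∑ x, T x x * avg (fun u : X → Fin S × K => ∑ c, ∑ κ, cf c κ (u x) * cf c κ (u x)) := by
    rw [avg_sum]
    have h3 : ∀ c : Fin S, avg (fun u : X → Fin S × K =>
        ∑ κ, ∑ x, ∑ x', cf c κ (u x) * cf c κ (u x') * T x x') =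
        ∑ x, ∑ κ, T x x * avg (fun u : X → Fin S × K => cf c κ (u x) * cf c κ (u x)) := by
      intro c
      rw [avg_sum]
      have h4 : ∀ κ : K, avg (fun u : X → Fin S × K =>
        ∑ x, ∑ x', cf c κ (u x) * cf c κ (u x') * T x x') =
        ∑ x, T x x * avg (fun u : X → Fin S × K => cf c κ (u x) * cf c κ (u x)) := by
        intro κ
        rw [avg_sum]
        exact Finset.sum_congr rfl fun x _ => h2 c κ x
      rw [Finset.sum_congr rfl fun κ _ => h4 κ, Finset.sum_comm]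
    rw [Finset.sum_congr rfl fun c _ => h3 c, Finset.sum_comm]
    refine Finset.sum_congr rfl fun x _ => ?_
    rw [avg_sum, Finset.mul_sum]
    refine Finset.sum_congr rfl fun c _ => ?_
    rw [avg_sum, Finset.mul_sum]
  rw [h1]
  refine Finset.sum_le_sum fun x _ => ?_
  have h5 : avg (fun u : X → Fin S × K => ∑ c, ∑ κ, cf c κ (u x) * cf c κ (u x)) ≤
      avg (fun _ : X → Fin S × K => 1) := avg_mono fun u => cf_sq_sum (u x)
  rw [avg_const] at h5
  calc _ ≤ T x x * 1 := mul_le_mul_of_nonneg_left h5 (hT x)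
    _ = T x x := mul_one _

theorem avg_coll [Nonempty K] {S : ℕ} [NeZero S] {x x' : X} (hx : x ≠ x') :
    avg (fun u : X → Fin S × K => if (u x).1 = (u x').1 then (1 : ℝ) else 0) = (S : ℝ)⁻¹ := by
  have hc : (Fintype.card K : ℝ) ≠ 0 := by
    exact_mod_cast Fintype.card_ne_zero
  have hS : (S : ℝ) ≠ 0 := by
    exact_mod_cast NeZero.ne S
  have h1 : ∀ u : X → Fin S × K, (if (u x).1 = (u x').1 then (1 : ℝ) else 0) =
      ∑ c : Fin S, (if (u x).1 = c then (1 : ℝ) else 0) * (if (u x').1 = c then (1 : ℝ) else 0) := by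
    intro u
    simp [eq_comm]
  simp only [h1]
  rw [avg_sum]
  have h2 : ∀ c : Fin S, avg (fun u : X → Fin S × K => (if (u x).1 = c then (1 : ℝ) else 0) *
      (if (u x').1 = c then (1 : ℝ) else 0)) = (S : ℝ)⁻¹ * (S : ℝ)⁻¹ := by
    intro c
    rw [avg_two hx (fun v : Fin S × K => if v.1 = c then (1 : ℝ) else 0)
      (fun v : Fin S × K => if v.1 = c then (1 : ℝ) else 0)]
    have h3 : ∑ v : Fin S × K, (if v.1 = c then (1 : ℝ) else 0) = Fintype.card K := by
      rw [Fintype.sum_prod_type, Finset.sum_eq_single c]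
      · simp only [↓reduceIte, Finset.sum_const, Finset.card_univ, nsmul_eq_mul, mul_one]
      · intro b _ hb
        simp [hb]
      · simp only [Finset.mem_univ, not_true_eq_false, ↓reduceIte, Finset.sum_const, Finset.card_univ, nsmul_eq_mul, mul_one, Nat.cast_eq_zero, Fintype.card_ne_zero, imp_self]
    rw [h3, Fintype.card_prod, Fintype.card_fin]
    push_cast
    field_simp
  rw [Finset.sum_congr rfl fun c _ => h2 c]
  simp only [Finset.sum_const, Finset.card_univ, Fintype.card_fin, nsmul_eq_mul, ne_eq, hS, not_false_eq_true, mul_inv_cancel_left₀]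

theorem traceNorm_smul_psd (c : ℝ) {X : Matrix E E ℂ} (hX : X.PosSemidef) :
    traceNorm ((c : ℂ) • X) ≤ |c| * X.trace.re := by
  obtain ⟨W, hW, h⟩ := traceNorm_exists ((c : ℂ) • X)
  have h1 := norm_trace_mul_le hW X
  rw [traceNorm_of_posSemidef hX] at h1
  rw [Matrix.mul_smul, trace_smul] at h
  have h2 : traceNorm ((c : ℂ) • X) = ‖(traceNorm ((c : ℂ) • X) : ℂ)‖ := by
    rw [Complex.norm_real, Real.norm_of_nonneg (traceNorm_nonneg _)]
  rw [h2, ← h, norm_smul, Complex.norm_real, Real.norm_eq_abs]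
  exact mul_le_mul_of_nonneg_left h1 (abs_nonneg _)

/-- error part -/
theorem err_part {S : ℕ} (Ω : X → Y → Matrix E E ℂ) (hΩ : ∀ x y, (Ω x y).PosSemidef)
    (h : X → Fin S) (k : X → K) (dec : Y → Fin S → X) :
    ∑ c, ∑ κ, ∑ l, traceNorm ((∑ x, ∑ y, if h x = c ∧ k x = κ ∧ k (dec y c) = l then Ω x y else 0) -
      if κ = l then (∑ x, ∑ y, if h x = c ∧ k x = κ then Ω x y else 0) else 0) ≤
      2 * ∑ x, ∑ y, if dec y (h x) ≠ x then (Ω x y).trace.re else 0 := by
  have hnn : ∀ x y, 0 ≤ (Ω x y).trace.re := fun x y =>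
    (Complex.le_def.mp (hΩ x y).trace_nonneg).1
  have h1 : ∀ c κ l, ((∑ x, ∑ y, if h x = c ∧ k x = κ ∧ k (dec y c) = l then Ω x y else 0) -
      if κ = l then (∑ x, ∑ y, if h x = c ∧ k x = κ then Ω x y else 0) else 0) =
      ∑ x, ∑ y, (((if h x = c ∧ k x = κ then
        ((if k (dec y c) = l then (1 : ℝ) else 0) - (if κ = l then 1 else 0)) else 0 : ℝ)) : ℂ) •
        Ω x y := by
    intro c κ l
    by_cases hl : κ = l
    · simp only [hl, if_true]
      rw [← Finset.sum_sub_distrib]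
      refine Finset.sum_congr rfl fun x _ => ?_
      rw [← Finset.sum_sub_distrib]
      refine Finset.sum_congr rfl fun y _ => ?_
      by_cases h2 : h x = c <;> by_cases h3 : k x = l <;> by_cases h4 : k (dec y c) = l <;>
        simp [h2, h3, h4]
    · simp only [hl, if_false, sub_zero]
      refine Finset.sum_congr rfl fun x _ => ?_
      refine Finset.sum_congr rfl fun y _ => ?_
      by_cases h2 : h x = c <;> by_cases h3 : k x = κ <;> by_cases h4 : k (dec y c) = l <;>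
        simp [h2, h3, h4]
  have h2 : ∀ c κ l, traceNorm ((∑ x, ∑ y, if h x = c ∧ k x = κ ∧ k (dec y c) = l then Ω x y else 0) -
      if κ = l then (∑ x, ∑ y, if h x = c ∧ k x = κ then Ω x y else 0) else 0) ≤
      ∑ x, ∑ y, |(if h x = c ∧ k x = κ then
        ((if k (dec y c) = l then (1 : ℝ) else 0) - (if κ = l then 1 else 0)) else 0 : ℝ)| *
        (Ω x y).trace.re := by
    intro c κ l
    rw [h1]
    refine le_trans (traceNorm_sum_le _ _) (Finset.sum_le_sum fun x _ => ?_)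
    refine le_trans (traceNorm_sum_le _ _) (Finset.sum_le_sum fun y _ => ?_)
    exact traceNorm_smul_psd _ (hΩ x y)
  have h3 : ∀ x y, ∑ c, ∑ κ, ∑ l, |(if h x = c ∧ k x = κ then
        ((if k (dec y c) = l then (1 : ℝ) else 0) - (if κ = l then 1 else 0)) else 0 : ℝ)| ≤
        2 * (if dec y (h x) ≠ x then 1 else 0) := by
    intro x y
    rw [Finset.sum_eq_single (h x), Finset.sum_eq_single (k x)]
    · simp only [and_self, if_true]
      by_cases hd : dec y (h x) = x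
      · simp only [hd, sub_self, abs_zero, Finset.sum_const_zero, ne_eq, not_true_eq_false, ↓reduceIte, mul_zero, Std.le_refl]
      · rw [if_pos hd, mul_one]
        calc _ ≤ ∑ l, ((if k (dec y (h x)) = l then (1 : ℝ) else 0) + (if k x = l then 1 else 0)) := by
              refine Finset.sum_le_sum fun l _ => ?_
              refine le_trans (abs_sub _ _) ?_
              apply le_of_eq
              congr 1 <;> split_ifs <;> simp
          _ = 2 := by
            rw [Finset.sum_add_distrib]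
            simp only [Finset.sum_ite_eq, Finset.mem_univ, ↓reduceIte]
            norm_num
    · intro κ _ hκ
      simp only [hκ.symm, and_false, ↓reduceIte, abs_zero, Finset.sum_const_zero]
    · simp only [Finset.mem_univ, not_true_eq_false, and_self, ↓reduceIte, IsEmpty.forall_iff]
    · intro c _ hc
      simp only [hc.symm, false_and, ↓reduceIte, abs_zero, Finset.sum_const_zero]
    · simp only [Finset.mem_univ, not_true_eq_false, true_and, IsEmpty.forall_iff]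
  calc _ ≤ ∑ c, ∑ κ, ∑ l, ∑ x, ∑ y, |(if h x = c ∧ k x = κ then
        ((if k (dec y c) = l then (1 : ℝ) else 0) - (if κ = l then 1 else 0)) else 0 : ℝ)| *
        (Ω x y).trace.re := by
        refine Finset.sum_le_sum fun c _ => Finset.sum_le_sum fun κ _ => Finset.sum_le_sum fun l _ => h2 c κ l
    _ = ∑ x, ∑ y, (∑ c, ∑ κ, ∑ l, |(if h x = c ∧ k x = κ then
        ((if k (dec y c) = l then (1 : ℝ) else 0) - (if κ = l then 1 else 0)) else 0 : ℝ)|) *
        (Ω x y).trace.re := by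
        simp only [Finset.sum_mul]
        have e1 : ∀ (F : Fin S → K → K → X → Y → ℝ), ∑ c, ∑ κ, ∑ l, ∑ x, ∑ y, F c κ l x y =
            ∑ x, ∑ y, ∑ c, ∑ κ, ∑ l, F c κ l x y := by
          intro F
          have : ∀ (G : Fin S × K × K → X × Y → ℝ), ∑ p, ∑ q, G p q = ∑ q, ∑ p, G p q :=
            fun G => Finset.sum_comm
          have := this (fun p q => F p.1 p.2.1 p.2.2 q.1 q.2)
          simpa only [Fintype.sum_prod_type] using this
        exact e1 _
    _ ≤ ∑ x, ∑ y, (2 * (if dec y (h x) ≠ x then 1 else 0)) * (Ω x y).trace.re := by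
        refine Finset.sum_le_sum fun x _ => Finset.sum_le_sum fun y _ => ?_
        exact mul_le_mul_of_nonneg_right (h3 x y) (hnn x y)
    _ = _ := by
        simp only [Finset.mul_sum]
        refine Finset.sum_congr rfl fun x _ => Finset.sum_congr rfl fun y _ => ?_
        split_ifs <;> simp

theorem sec_term (P : Matrix E E ℂ) (hP : P.PosSemidef)
    (D : X → Matrix E E ℂ) (a : X → ℝ) :
    traceNorm (∑ x, (a x : ℂ) • (P * D x * P)) ≤
      √(((P*P)*(P*P)).trace.re) *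
      √(∑ x, ∑ x', a x * a x' * ((D x)ᴴ * D x').trace.re) := by
  have : (∑ x, (a x : ℂ) • (P * D x * P)) = P * (∑ x, (a x : ℂ) • D x) * P := by
    rw [Matrix.mul_sum, Matrix.sum_mul]
    refine Finset.sum_congr rfl fun x _ => ?_
    rw [Matrix.mul_smul, Matrix.smul_mul]
  rw [this, ← trace_quad]
  exact traceNorm_conj_le hP _

theorem quad_nonneg (D : X → Matrix E E ℂ) (a : X → ℝ) :
    0 ≤ ∑ x, ∑ x', a x * a x' * ((D x)ᴴ * D x').trace.re := by
  rw [← trace_quad]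
  exact (Complex.le_def.mp (posSemidef_conjTranspose_mul_self _).trace_nonneg).1

theorem sum_sqrt_le {I : Type} [Fintype I] (Z : I → ℝ) (hZ : ∀ i, 0 ≤ Z i) :
    ∑ i, √(Z i) ≤ √(Fintype.card I) * √(∑ i, Z i) := by
  have h := Real.sum_sqrt_mul_sqrt_le (Finset.univ : Finset I) (f := fun _ => 1)
    (g := Z) (fun _ => zero_le_one) hZ
  simpa only [ge_iff_le, Real.sqrt_one, one_mul, Finset.sum_const, Finset.card_univ, nsmul_eq_mul,     mul_one] using h

/-- secrecy part -/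
theorem sec_part [Nonempty K] {S : ℕ} (P : Matrix E E ℂ) (hP : P.PosSemidef)
    (D : X → Matrix E E ℂ) (u : X → Fin S × K) :
    ∑ c : Fin S, ∑ κ : K, traceNorm (∑ x, ((cf c κ (u x) : ℝ) : ℂ) • (P * D x * P)) ≤
      √(((P*P)*(P*P)).trace.re) * (√(S * Fintype.card K) *
      √(∑ c : Fin S, ∑ κ : K, ∑ x, ∑ x',
        cf c κ (u x) * cf c κ (u x') * ((D x)ᴴ * D x').trace.re)) := by
  refine le_trans (Finset.sum_le_sum fun c _ => Finset.sum_le_sum fun κ _ =>
    sec_term P hP D (fun x => cf c κ (u x))) ?_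
  simp only [← Finset.mul_sum]
  refine mul_le_mul_of_nonneg_left ?_ (Real.sqrt_nonneg _)
  have h := sum_sqrt_le (I := Fin S × K)
    (fun p => ∑ x, ∑ x', cf p.1 p.2 (u x) * cf p.1 p.2 (u x') * ((D x)ᴴ * D x').trace.re)
    (fun p => quad_nonneg D (fun x => cf p.1 p.2 (u x)))
  rw [Fintype.sum_prod_type, Fintype.sum_prod_type, Fintype.card_prod, Fintype.card_fin] at h
  push_cast at h
  exact h

theorem avg_err [Nonempty K] {S : ℕ} [NeZero S] (q : X → Y → ℝ) :
    avg (fun u : X → Fin S × K => ∑ x, ∑ y, ∑ x' ∈ Finset.univ.erase x,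
      if (u x).1 = (u x').1 then √(q x y) * √(q x' y) else 0) ≤
      (S : ℝ)⁻¹ * ∑ y, (∑ x, √(q x y)) ^ 2 := by
  have h1 : avg (fun u : X → Fin S × K => ∑ x, ∑ y, ∑ x' ∈ Finset.univ.erase x,
      if (u x).1 = (u x').1 then √(q x y) * √(q x' y) else 0) =
      ∑ x, ∑ y, ∑ x' ∈ Finset.univ.erase x, (√(q x y) * √(q x' y)) * (S : ℝ)⁻¹ := by
    rw [avg_sum]
    refine Finset.sum_congr rfl fun x _ => ?_
    rw [avg_sum]
    refine Finset.sum_congr rfl fun y _ => ?_
    rw [avg_sum]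
    refine Finset.sum_congr rfl fun x' hx' => ?_
    rw [← avg_coll (K := K) (Finset.ne_of_mem_erase hx').symm, ← avg_mul_left]
    congr 1
    funext u
    split_ifs <;> simp
  rw [h1]
  calc _ ≤ ∑ x, ∑ y, ∑ x', (√(q x y) * √(q x' y)) * (S : ℝ)⁻¹ := by
        refine Finset.sum_le_sum fun x _ => Finset.sum_le_sum fun y _ => ?_
        refine Finset.sum_le_sum_of_subset_of_nonneg (Finset.subset_univ _) fun x' _ _ => ?_
        (clear * -; (clear * -; positivity))
    _ = _ := by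
        rw [Finset.sum_comm, Finset.mul_sum]
        refine Finset.sum_congr rfl fun y _ => ?_
        rw [sq, Finset.sum_mul_sum, Finset.mul_sum]
        refine Finset.sum_congr rfl fun x _ => ?_
        rw [Finset.mul_sum]
        refine Finset.sum_congr rfl fun x' _ => ?_
        ring

theorem hash_exists [Nonempty X] [Nonempty K] (S : ℕ) (hS : 0 < S)
    (Ω : X → Y → Matrix E E ℂ) (hΩ : ∀ x y, (Ω x y).PosSemidef)
    (P : Matrix E E ℂ) (hP : P.PosSemidef) (D : X → Matrix E E ℂ)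
    (hD : ∀ x, ∑ y, Ω x y = P * D x * P) :
    ∃ (h : X → Fin S) (k : X → K) (dec : Y → Fin S → X),
      ∑ c, ∑ κ, ∑ l, traceNorm ((∑ x, ∑ y, if h x = c ∧ k x = κ ∧ k (dec y c) = l then Ω x y else 0)
        - if κ = l then ((Fintype.card K : ℂ)⁻¹) • ∑ x, ∑ y, (if h x = c then Ω x y else 0) else 0)
      ≤ 2 * ((S : ℝ)⁻¹ * ∑ y, (∑ x, √((Ω x y).trace.re)) ^ 2) +
        √(((P*P)*(P*P)).trace.re) * (√(S * Fintype.card K) *
        √(∑ x, ((D x)ᴴ * D x).trace.re)) := by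
  haveI : NeZero S := ⟨hS.ne'⟩
  have hnn : ∀ x y, 0 ≤ (Ω x y).trace.re := fun x y =>
    (Complex.le_def.mp (hΩ x y).trace_nonneg).1
  obtain ⟨u, hu⟩ := exists_le_avg (fun u : X → Fin S × K =>
    2 * (∑ x, ∑ y, ∑ x' ∈ Finset.univ.erase x,
      if (u x).1 = (u x').1 then √((Ω x y).trace.re) * √((Ω x' y).trace.re) else 0) +
    √(((P*P)*(P*P)).trace.re) * (√(S * Fintype.card K) *
      √(∑ c : Fin S, ∑ κ : K, ∑ x, ∑ x',
        cf c κ (u x) * cf c κ (u x') * ((D x)ᴴ * D x').trace.re)))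
  obtain ⟨dec, hdec⟩ := exists_decoder (fun x y => (Ω x y).trace.re) hnn (fun x => (u x).1)
  refine ⟨fun x => (u x).1, fun x => (u x).2, dec, ?_⟩
  have hA : avg (fun u : X → Fin S × K =>
    2 * (∑ x, ∑ y, ∑ x' ∈ Finset.univ.erase x,
      if (u x).1 = (u x').1 then √((Ω x y).trace.re) * √((Ω x' y).trace.re) else 0) +
    √(((P*P)*(P*P)).trace.re) * (√(S * Fintype.card K) *
      √(∑ c : Fin S, ∑ κ : K, ∑ x, ∑ x',
        cf c κ (u x) * cf c κ (u x') * ((D x)ᴴ * D x').trace.re))) ≤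
      2 * ((S : ℝ)⁻¹ * ∑ y, (∑ x, √((Ω x y).trace.re)) ^ 2) +
        √(((P*P)*(P*P)).trace.re) * (√(S * Fintype.card K) *
        √(∑ x, ((D x)ᴴ * D x).trace.re)) := by
    rw [avg_add, avg_mul_left, avg_mul_left, avg_mul_left]
    refine add_le_add (mul_le_mul_of_nonneg_left (avg_err _) (by norm_num)) ?_
    refine mul_le_mul_of_nonneg_left (mul_le_mul_of_nonneg_left ?_ (Real.sqrt_nonneg _))
      (Real.sqrt_nonneg _)
    refine le_trans (avg_sqrt_le fun u => ?_) (Real.sqrt_le_sqrt (avg_quad_le _ fun x => ?_))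
    · exact Finset.sum_nonneg fun c _ => Finset.sum_nonneg fun κ _ => quad_nonneg D _
    · exact (Complex.le_def.mp (posSemidef_conjTranspose_mul_self _).trace_nonneg).1
  refine le_trans ?_ (le_trans hu hA)
  have hErr := err_part Ω hΩ (fun x => (u x).1) (fun x => (u x).2) dec
  have hSec := sec_part P hP D u
  have hErr2 : ∑ x, ∑ y, (if dec y (u x).1 ≠ x then (Ω x y).trace.re else 0) ≤
      ∑ x, ∑ y, ∑ x' ∈ Finset.univ.erase x,
      if (u x).1 = (u x').1 then √((Ω x y).trace.re) * √((Ω x' y).trace.re) else 0 :=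
    Finset.sum_le_sum fun x _ => Finset.sum_le_sum fun y _ => hdec x y
  have hsplit : ∀ (c : Fin S) (κ l : K), traceNorm ((∑ x, ∑ y,
        if (u x).1 = c ∧ (u x).2 = κ ∧ (u (dec y c)).2 = l then Ω x y else 0)
        - if κ = l then ((Fintype.card K : ℂ)⁻¹) • ∑ x, ∑ y, (if (u x).1 = c then Ω x y else 0)
          else 0) ≤
      traceNorm ((∑ x, ∑ y, if (u x).1 = c ∧ (u x).2 = κ ∧ (u (dec y c)).2 = l then Ω x y else 0) -
      if κ = l then (∑ x, ∑ y, if (u x).1 = c ∧ (u x).2 = κ then Ω x y else 0) else 0) +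
      if κ = l then traceNorm (∑ x, ((cf c κ (u x) : ℝ) : ℂ) • (P * D x * P)) else 0 := by
    intro c κ l
    by_cases hl : κ = l
    · simp only [hl, if_true]
      have e1 : (∑ x, ((cf c l (u x) : ℝ) : ℂ) • (P * D x * P)) =
          (∑ x, ∑ y, if (u x).1 = c ∧ (u x).2 = l then Ω x y else 0) -
          ((Fintype.card K : ℂ)⁻¹) • ∑ x, ∑ y, (if (u x).1 = c then Ω x y else 0) := by
        rw [Finset.smul_sum, ← Finset.sum_sub_distrib]
        refine Finset.sum_congr rfl fun x _ => ?_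
        rw [← hD x, Finset.smul_sum, Finset.smul_sum, ← Finset.sum_sub_distrib]
        refine Finset.sum_congr rfl fun y _ => ?_
        by_cases h2 : (u x).1 = c <;> by_cases h3 : (u x).2 = l <;> simp [cf, h2, h3, sub_smul]
      rw [e1]
      refine le_trans (le_of_eq ?_) (traceNorm_add_le _ _)
      congr 1
      abel
    · simp only [hl, if_false, sub_zero, add_zero]
      exact le_refl _
  refine le_trans (Finset.sum_le_sum fun c _ => Finset.sum_le_sum fun κ _ =>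
    Finset.sum_le_sum fun l _ => hsplit c κ l) ?_
  simp only [Finset.sum_add_distrib, Finset.sum_ite_eq, Finset.mem_univ, if_true]
  refine add_le_add (le_trans hErr (mul_le_mul_of_nonneg_left hErr2 (by norm_num))) hSec

end hash

end Vale.Agent.P372
end
end
end

section

section

section

open Matrix
open scoped ComplexOrder MatrixOrder

set_option linter.unusedSectionVars false

namespace Vale.Agent.P372

variable {A B : Type} [Fintype A] [DecidableEq A] [Fintype B] [DecidableEq B]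

/-- Kraus operators which write the outcome of a measurement into a register. -/
def wr {α M : Type} [DecidableEq M] (L : α → Matrix A A ℂ) (f : α → M) (m : M) (j : A) :
    Matrix α A ℂ := fun a i => if f a = m then L a j i else 0

theorem wr_conj {α M : Type} [Fintype α] [DecidableEq α] [DecidableEq M] (L : α → Matrix A A ℂ)
    (f : α → M) (m : M) (x : α → ℂ) :
    ∑ j, (wr L f m j)ᴴ * diagonal x * wr L f m j =
      ∑ a, if f a = m then x a • ((L a)ᴴ * L a) else 0 := by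
  ext i i'
  have h1 : ∀ j, ((wr L f m j)ᴴ * diagonal x * wr L f m j) i i' =
      ∑ a, star (wr L f m j a i) * x a * wr L f m j a i' := by
    intro j
    rw [Matrix.mul_apply]
    refine Finset.sum_congr rfl fun a _ => ?_
    rw [Matrix.mul_diagonal, conjTranspose_apply]
  simp only [Matrix.sum_apply, h1]
  rw [Finset.sum_comm]
  refine Finset.sum_congr rfl fun a _ => ?_
  by_cases h : f a = m
  · simp only [wr, h, if_true, Matrix.smul_apply, Matrix.mul_apply, conjTranspose_apply, smul_eq_mul, Finset.mul_sum]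
    refine Finset.sum_congr rfl fun j _ => ?_
    ring
  · simp only [wr, h, ↓reduceIte, star_zero, zero_mul, mul_zero, Finset.sum_const_zero, Matrix.zero_apply]

/-- The three-message protocol: Alice measures `E`, announces `m₁`; Bob measures `F`, announces
`m₂`; Alice announces `m₃`; keys `kA`, `kB`. -/
def threeMsg {K α β M₁ M₂ M₃ : Type} [DecidableEq K] [Fintype α] [DecidableEq α] [Fintype β]
    [DecidableEq β] [Fintype M₁] [DecidableEq M₁] [Fintype M₂] [DecidableEq M₂] [Fintype M₃]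
    [DecidableEq M₃] (L : α → Matrix A A ℂ) (L' : β → Matrix B B ℂ)
    (m₁ : α → M₁) (m₂ : β → M₂) (m₃ : α → M₂ → M₃) (kA : α → M₂ → K) (kB : β → M₁ → M₃ → K) :
    Protocol K A B :=
  .alice α M₁ A inferInstance inferInstance inferInstance (wr L m₁) fun f =>
    .bob β M₂ B inferInstance inferInstance inferInstance (wr L' m₂) fun g =>
      .alice α M₃ Unit inferInstance inferInstance inferInstance
        (fun c _ => diagonal fun a => if m₃ a g = c then 1 else 0) fun c =>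
          .output (fun k => diagonal fun a => if kA a g = k then 1 else 0)
            (fun l => diagonal fun b => if kB b f c = l then 1 else 0)

section

variable {K α β M₁ M₂ M₃ : Type} [Fintype K] [DecidableEq K] [Fintype α] [DecidableEq α]
  [Fintype β]
  [DecidableEq β] [Fintype M₁] [DecidableEq M₁] [Fintype M₂] [DecidableEq M₂] [Fintype M₃]
  [DecidableEq M₃] (L : α → Matrix A A ℂ) (L' : β → Matrix B B ℂ)
  (m₁ : α → M₁) (m₂ : β → M₂) (m₃ : α → M₂ → M₃) (kA : α → M₂ → K) (kB : β → M₁ → M₃ → K)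

/-- The transcripts of the three-message protocol. -/
def threeMsgEquiv : (threeMsg L L' m₁ m₂ m₃ kA kB).Transcript ≃ M₁ × M₂ × M₃ where
  toFun t := (t.1, t.2.1, t.2.2.1)
  invFun p := ⟨p.1, p.2.1, p.2.2, ()⟩
  left_inv _ := rfl
  right_inv _ := rfl

theorem sum_wr {α M : Type} [Fintype α] [DecidableEq α] [Fintype M] [DecidableEq M]
    (L : α → Matrix A A ℂ) (f : α → M) :
    ∑ m, ∑ j, (wr L f m j)ᴴ * wr L f m j = ∑ a, (L a)ᴴ * L a := by
  have h : ∀ m, ∑ j, (wr L f m j)ᴴ * wr L f m j = ∑ a, if f a = m then ((L a)ᴴ * L a) else 0 := by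
    intro m
    have := wr_conj L f m (fun _ => 1)
    simpa only [diagonal_one, Matrix.mul_one, one_smul] using this
  simp only [h]
  rw [Finset.sum_comm]
  simp only [Finset.sum_ite_eq, Finset.mem_univ, ↓reduceIte]

theorem sum_diag_ite {α M : Type} [Fintype α] [DecidableEq α] [Fintype M] [DecidableEq M]
    (f : α → M) : ∑ m, (diagonal fun a => if f a = m then (1 : ℂ) else 0) = 1 := by
  ext a b
  simp only [Matrix.sum_apply, diagonal_apply, Matrix.one_apply]
  by_cases h : a = b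
  · simp only [h, ↓reduceIte, Finset.sum_ite_eq, Finset.mem_univ]
  · simp only [h, ↓reduceIte, Finset.sum_const_zero]

/-- The identity matrices for two decidability instances agree. -/
theorem one_congr {γ : Type} (i j : DecidableEq γ) :
    (@OfNat.ofNat (Matrix γ γ ℂ) 1 (@One.toOfNat1 _ (@Matrix.one γ ℂ i _ _))) =
      (@OfNat.ofNat (Matrix γ γ ℂ) 1 (@One.toOfNat1 _ (@Matrix.one γ ℂ j _ _))) := by
  rw [Subsingleton.elim i j]

theorem threeMsg_valid (hL : ∑ a, (L a)ᴴ * L a = 1) (hL' : ∑ a, (L' a)ᴴ * L' a = 1) :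
    (threeMsg L L' m₁ m₂ m₃ kA kB).Valid := by
  refine ⟨?_, fun f => ⟨?_, fun g => ⟨?_, fun c => ⟨⟨?_, ?_⟩, ⟨?_, ?_⟩⟩⟩⟩⟩
  · rw [sum_wr, hL]
    exact one_congr _ _
  · rw [sum_wr, hL']
    exact one_congr _ _
  · have : ∀ c, ∑ _r : Unit, (diagonal fun a => if m₃ a g = c then (1 : ℂ) else 0)ᴴ *
        (diagonal fun a => if m₃ a g = c then (1 : ℂ) else 0) =
        (diagonal fun a => if m₃ a g = c then (1 : ℂ) else 0) := by
      intro c
      simp only [Finset.univ_unique, Finset.sum_const, Finset.card_singleton, one_smul,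
        diagonal_conjTranspose, diagonal_mul_diagonal]
      congr 1
      funext a
      by_cases h : m₃ a g = c <;> simp [h]
    simp only [this]
    rw [sum_diag_ite]
    exact one_congr _ _
  · intro k
    refine PosSemidef.diagonal fun a => ?_
    by_cases h : kA a g = k <;> simp [h]
  · rw [sum_diag_ite]
    exact one_congr _ _
  · intro k
    refine PosSemidef.diagonal fun a => ?_
    by_cases h : kB a f c = k <;> simp [h]
  · rw [sum_diag_ite]
    exact one_congr _ _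

theorem threeMsg_effA (t) (k : K) : (threeMsg L L' m₁ m₂ m₃ kA kB).effA t k =
    ∑ a, if m₁ a = (threeMsgEquiv L L' m₁ m₂ m₃ kA kB t).1 ∧
      m₃ a (threeMsgEquiv L L' m₁ m₂ m₃ kA kB t).2.1 = (threeMsgEquiv L L' m₁ m₂ m₃ kA kB t).2.2 ∧
      kA a (threeMsgEquiv L L' m₁ m₂ m₃ kA kB t).2.1 = k then (L a)ᴴ * L a else 0 := by
  obtain ⟨f, g, c, u⟩ := t
  change ∑ j, (wr L m₁ f j)ᴴ * (∑ _r : Unit,
    (diagonal fun a => if m₃ a g = c then (1 : ℂ) else 0)ᴴ *
    (diagonal fun a => if kA a g = k then (1 : ℂ) else 0) *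
    (diagonal fun a => if m₃ a g = c then (1 : ℂ) else 0)) * wr L m₁ f j = 
    ∑ a, if m₁ a = f ∧ m₃ a g = c ∧ kA a g = k then (L a)ᴴ * L a else 0
  simp only [Finset.univ_unique, Finset.sum_const, Finset.card_singleton, one_smul,
    diagonal_conjTranspose, diagonal_mul_diagonal]
  rw [wr_conj]
  refine Finset.sum_congr rfl fun a _ => ?_
  by_cases h1 : m₁ a = f <;> by_cases h2 : m₃ a g = c <;> by_cases h3 : kA a g = k <;>
    simp [h1, h2, h3]

theorem threeMsg_effB (t) (k : K) : (threeMsg L L' m₁ m₂ m₃ kA kB).effB t k =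
    ∑ b, if m₂ b = (threeMsgEquiv L L' m₁ m₂ m₃ kA kB t).2.1 ∧
      kB b (threeMsgEquiv L L' m₁ m₂ m₃ kA kB t).1 (threeMsgEquiv L L' m₁ m₂ m₃ kA kB t).2.2 = k
      then (L' b)ᴴ * L' b else 0 := by
  obtain ⟨f, g, c, u⟩ := t
  change ∑ j, (wr L' m₂ g j)ᴴ *
    (diagonal fun b => if kB b f c = k then (1 : ℂ) else 0) * wr L' m₂ g j = 
    ∑ b, if m₂ b = g ∧ kB b f c = k then (L' b)ᴴ * L' b else 0
  rw [wr_conj]
  refine Finset.sum_congr rfl fun a _ => ?_
  by_cases h1 : m₂ a = g <;> by_cases h3 : kB a f c = k <;> simp [h1, h3]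

end

end Vale.Agent.P372
end
end
end

section

section

section

open Matrix
open scoped ComplexOrder MatrixOrder

set_option linter.unusedSectionVars false

namespace Vale.Agent.P372

variable {A B E : Type} [Fintype A] [DecidableEq A] [Fintype B] [DecidableEq B] [Fintype E]
  [DecidableEq E]

theorem sum3_comm {ι : Type} (s : Finset ι) (F : (A × B) → (A × B) → ι → ℂ) :
    ∑ p, ∑ q, ∑ i ∈ s, F p q i = ∑ i ∈ s, ∑ p, ∑ q, F p q i := by
  rw [Finset.sum_congr rfl fun p _ => Finset.sum_comm, Finset.sum_comm]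

theorem eve_sum_left {ι : Type} (s : Finset ι) (Ψ : Matrix (A × B) E ℂ) (M : ι → Matrix A A ℂ)
    (N : Matrix B B ℂ) : eve Ψ (∑ i ∈ s, M i) N = ∑ i ∈ s, eve Ψ (M i) N := by
  ext e e'
  simp only [eve, Matrix.sum_apply, Finset.sum_mul]
  exact sum3_comm s _

theorem eve_sum_right {ι : Type} (s : Finset ι) (Ψ : Matrix (A × B) E ℂ) (M : Matrix A A ℂ)
    (N : ι → Matrix B B ℂ) : eve Ψ M (∑ i ∈ s, N i) = ∑ i ∈ s, eve Ψ M (N i) := by
  ext e e'
  simp only [eve, Matrix.sum_apply, Finset.sum_mul, Finset.mul_sum]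
  exact sum3_comm s _

theorem eve_zero_left (Ψ : Matrix (A × B) E ℂ) (N : Matrix B B ℂ) : eve Ψ 0 N = 0 := by
  ext e e'
  simp only [eve, Matrix.zero_apply, zero_mul, RCLike.star_def, Finset.sum_const_zero]

theorem eve_zero_right (Ψ : Matrix (A × B) E ℂ) (M : Matrix A A ℂ) : eve Ψ M 0 = 0 := by
  ext e e'
  simp only [eve, Matrix.zero_apply, mul_zero, RCLike.star_def, zero_mul, Finset.sum_const_zero]

theorem eve_posSemidef (Ψ : Matrix (A × B) E ℂ) {M : Matrix A A ℂ} {N : Matrix B B ℂ}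
    (hM : M.PosSemidef) (hN : N.PosSemidef) : (eve Ψ M N).PosSemidef := by
  obtain ⟨C, rfl⟩ := exists_eq_conjTranspose_mul_self hM
  obtain ⟨D, rfl⟩ := exists_eq_conjTranspose_mul_self hN
  have : eve Ψ (Cᴴ * C) (Dᴴ * D) =
      (Matrix.of fun (r : A × B) (e : E) => star (∑ p : A × B, C r.1 p.1 * D r.2 p.2 * Ψ p e))ᴴ *
      (Matrix.of fun (r : A × B) (e : E) => star (∑ p : A × B, C r.1 p.1 * D r.2 p.2 * Ψ p e)) := by
    ext e e'
    simp only [eve, Matrix.mul_apply, conjTranspose_apply, of_apply, star_star]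
    have h1 : ∀ p q : A × B, (∑ r, star (C r q.1) * C r p.1) * (∑ r, star (D r q.2) * D r p.2) *
        (Ψ p e * star (Ψ q e')) = ∑ r : A × B, (C r.1 p.1 * D r.2 p.2 * Ψ p e) *
          star (C r.1 q.1 * D r.2 q.2 * Ψ q e') := by
      intro p q
      rw [Finset.sum_mul_sum, Fintype.sum_prod_type, Finset.sum_mul]
      refine Finset.sum_congr rfl fun r _ => ?_
      rw [Finset.sum_mul]
      refine Finset.sum_congr rfl fun r' _ => ?_
      simp only [star_mul']
      ring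
    calc _ = ∑ p, ∑ q, ∑ r ∈ (Finset.univ : Finset (A × B)), (C r.1 p.1 * D r.2 p.2 * Ψ p e) *
          star (C r.1 q.1 * D r.2 q.2 * Ψ q e') :=
        Finset.sum_congr rfl fun p _ => Finset.sum_congr rfl fun q _ => h1 p q
      _ = ∑ r ∈ (Finset.univ : Finset (A × B)), ∑ p, ∑ q, (C r.1 p.1 * D r.2 p.2 * Ψ p e) *
          star (C r.1 q.1 * D r.2 q.2 * Ψ q e') := sum3_comm _ _
      _ = _ := by
        refine Finset.sum_congr rfl fun r _ => ?_
        rw [star_sum, Finset.sum_mul_sum]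
  rw [this]
  exact posSemidef_conjTranspose_mul_self _

theorem trace_eve_one (Ψ : Matrix (A × B) E ℂ) : (eve Ψ 1 1).trace = (Ψ * Ψᴴ).trace := by
  simp only [trace, diag, eve, Matrix.mul_apply, conjTranspose_apply]
  rw [Finset.sum_comm]
  refine Finset.sum_congr rfl fun p _ => ?_
  refine Finset.sum_congr rfl fun e _ => ?_
  rw [Finset.sum_eq_single p]
  · simp
  · intro q _ hq
    by_cases h : q.1 = p.1
    · have : q.2 ≠ p.2 := fun h' => hq (Prod.ext h h')
      simp [Matrix.one_apply, this]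
    · simp only [ne_eq, h, not_false_eq_true, one_apply_ne, Matrix.one_apply, mul_ite, mul_one, mul_zero, ite_self, RCLike.star_def, zero_mul]
  · simp only [Finset.mem_univ, not_true_eq_false, one_apply_eq, mul_one, RCLike.star_def, one_mul, mul_eq_zero, map_eq_zero, or_self, IsEmpty.forall_iff]

theorem eve_piT (n : ℕ) (Ψ : Matrix (A × B) E ℂ) (M : Fin n → Matrix A A ℂ)
    (N : Fin n → Matrix B B ℂ) :
    eve (copies n Ψ) (piT M) (piT N) = piT (fun i => eve Ψ (M i) (N i)) := by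
  ext e e'
  simp only [eve, piT, copies, Fintype.sum_prod_type, Finset.prod_univ_sum,
    Fintype.piFinset_univ, star_prod, Finset.prod_mul_distrib]

end Vale.Agent.P372
end
end
end

section

section

section

open Matrix
open scoped ComplexOrder MatrixOrder

set_option linter.unusedSectionVars false

namespace Vale.Agent.P372

theorem hash_exists' {X Y K M E : Type} [Fintype X] [DecidableEq X] [Fintype Y] [DecidableEq Y]
    [Fintype K] [DecidableEq K] [Fintype M] [DecidableEq M] [Fintype E] [DecidableEq E]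
    [Nonempty X] [Nonempty K] (S : ℕ) (hS : 0 < S) (ι : Fin S → M) (hι : Function.Injective ι)
    (Ω : X → Y → Matrix E E ℂ) (hΩ : ∀ x y, (Ω x y).PosSemidef)
    (P : Matrix E E ℂ) (hP : P.PosSemidef) (D : X → Matrix E E ℂ)
    (hD : ∀ x, ∑ y, Ω x y = P * D x * P) :
    ∃ (h : X → M) (k : X → K) (dec : Y → M → X),
      ∑ c, ∑ κ, ∑ l, traceNorm ((∑ x, ∑ y, if h x = c ∧ k x = κ ∧ k (dec y c) = l then Ω x y else 0)
        - if κ = l then ((Fintype.card K : ℂ)⁻¹) • ∑ x, ∑ y, (if h x = c then Ω x y else 0) else 0)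
      ≤ 2 * ((S : ℝ)⁻¹ * ∑ y, (∑ x, √((Ω x y).trace.re)) ^ 2) +
        √(((P*P)*(P*P)).trace.re) * (√(S * Fintype.card K) *
        √(∑ x, ((D x)ᴴ * D x).trace.re)) := by
  obtain ⟨h, k, dec, hb⟩ := hash_exists (K := K) S hS Ω hΩ P hP D hD
  have : Nonempty (Fin S) := ⟨⟨0, hS⟩⟩
  refine ⟨fun x => ι (h x), k, fun y c => dec y (Function.invFun ι c), le_trans (le_of_eq ?_) hb⟩
  symm
  refine Fintype.sum_of_injective ι hι _ _ ?_ ?_
  · intro c hc
    have h1 : ∀ x, ι (h x) ≠ c := fun x hx => hc ⟨h x, hx⟩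
    refine Finset.sum_eq_zero fun κ _ => Finset.sum_eq_zero fun l _ => ?_
    simp only [h1, false_and, ↓reduceIte, Finset.sum_const_zero, smul_zero, ite_self, sub_self, traceNorm_zero]
  · intro c
    simp only [hι.eq_iff, Function.leftInverse_invFun hι c]

section proto

variable {A B E : Type} [Fintype A] [DecidableEq A] [Fintype B] [DecidableEq B] [Fintype E]
  [DecidableEq E]
variable {α β M₁ M₂ M₃ K X : Type} [Fintype α] [DecidableEq α] [Fintype β] [DecidableEq β]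
  [Fintype M₁] [DecidableEq M₁] [Fintype M₂] [DecidableEq M₂] [Fintype M₃] [DecidableEq M₃]
  [Fintype K] [DecidableEq K] [Fintype X] [DecidableEq X]

/-- Eve's operator, given both announcements, the raw string and Bob's outcome. -/
def omega (Ψ : Matrix (A × B) E ℂ) (EA : α → Matrix A A ℂ) (FB : β → Matrix B B ℂ)
    (m₁ : α → M₁) (m₂ : β → M₂) (xs : α → M₂ → X) (f : M₁) (g : M₂) (x : X) (y : β) :
    Matrix E E ℂ :=
  ∑ a, if m₁ a = f ∧ xs a g = x ∧ m₂ y = g then eve Ψ (EA a) (FB y) else 0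

theorem omega_posSemidef (Ψ : Matrix (A × B) E ℂ) {EA : α → Matrix A A ℂ}
    {FB : β → Matrix B B ℂ} (hEA : ∀ a, (EA a).PosSemidef) (hFB : ∀ a, (FB a).PosSemidef)
    (m₁ : α → M₁) (m₂ : β → M₂) (xs : α → M₂ → X) (f : M₁) (g : M₂) (x : X) (y : β) :
    (omega Ψ EA FB m₁ m₂ xs f g x y).PosSemidef := by
  refine posSemidef_sum _ fun a _ => ?_
  split_ifs
  · exact eve_posSemidef Ψ (hEA a) (hFB y)
  · exact PosSemidef.zero

theorem sum_omega (Ψ : Matrix (A × B) E ℂ) (EA : α → Matrix A A ℂ) (FB : β → Matrix B B ℂ)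
    (m₁ : α → M₁) (m₂ : β → M₂) (xs : α → M₂ → X) :
    ∑ f, ∑ g, ∑ x, ∑ y, omega Ψ EA FB m₁ m₂ xs f g x y = eve Ψ (∑ a, EA a) (∑ b, FB b) := by
  rw [eve_sum_left]
  simp only [omega, eve_sum_right]
  have h1 : ∀ (F : M₁ × M₂ × X → β × α → Matrix E E ℂ), ∑ p, ∑ q, F p q = ∑ q, ∑ p, F p q :=
    fun F => Finset.sum_comm
  have h2 := h1 (fun p q => if m₁ q.2 = p.1 ∧ xs q.2 p.2.1 = p.2.2 ∧ m₂ q.1 = p.2.1 then
    eve Ψ (EA q.2) (FB q.1) else 0)
  simp only [Fintype.sum_prod_type] at h2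
  rw [h2, Finset.sum_comm]
  refine Finset.sum_congr rfl fun a _ => Finset.sum_congr rfl fun b _ => ?_
  rw [Finset.sum_eq_single (m₁ a), Finset.sum_eq_single (m₂ b), Finset.sum_eq_single (xs a (m₂ b))]
  · simp
  · intro x _ hx
    simp [hx.symm]
  · simp only [Finset.mem_univ, not_true_eq_false, and_self, ↓reduceIte, IsEmpty.forall_iff]
  · intro g _ hg
    simp only [hg.symm, and_false, ↓reduceIte, Finset.sum_const_zero]
  · simp only [Finset.mem_univ, not_true_eq_false, and_true, true_and, Finset.sum_ite_eq, ↓reduceIte, IsEmpty.forall_iff]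
  · intro f _ hf
    simp only [hf.symm, false_and, ↓reduceIte, Finset.sum_const_zero]
  · simp only [Finset.mem_univ, not_true_eq_false, true_and, IsEmpty.forall_iff]

theorem exists_protocol_of_hash (Ψ : Matrix (A × B) E ℂ) (hΨ : (Ψ * Ψᴴ).trace = 1)
    (EA : α → Matrix A A ℂ) (hEA : ∀ a, (EA a).PosSemidef) (hEA1 : ∑ a, EA a = 1)
    (FB : β → Matrix B B ℂ) (hFB : ∀ a, (FB a).PosSemidef) (hFB1 : ∑ b, FB b = 1)
    (m₁ : α → M₁) (m₂ : β → M₂) (xs : α → M₂ → X) (h : M₁ → M₂ → X → M₃)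
    (k : M₁ → M₂ → X → K) (dec : M₁ → M₂ → β → M₃ → X) (ε : ℝ)
    (hε : ∑ f, ∑ g, ∑ c, ∑ κ, ∑ l, traceNorm ((∑ x, ∑ y,
        if h f g x = c ∧ k f g x = κ ∧ k f g (dec f g y c) = l then
          omega Ψ EA FB m₁ m₂ xs f g x y else 0)
        - if κ = l then ((Fintype.card K : ℂ)⁻¹) • ∑ x, ∑ y, (if h f g x = c then
          omega Ψ EA FB m₁ m₂ xs f g x y else 0) else 0) ≤ ε) :
    ∃ π : Protocol K A B, π.Valid ∧ π.ErrorLE Ψ ε := by
  choose L hL using fun a => exists_eq_conjTranspose_mul_self (hEA a)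
  choose L' hL' using fun a => exists_eq_conjTranspose_mul_self (hFB a)
  refine ⟨threeMsg L L' m₁ m₂ (fun a g => h (m₁ a) g (xs a g)) (fun a g => k (m₁ a) g (xs a g))
    (fun b f c => k f (m₂ b) (dec f (m₂ b) b c)), ?_, ?_⟩
  · refine threeMsg_valid _ _ _ _ _ _ _ ?_ ?_
    · rw [← hEA1]
      exact Finset.sum_congr rfl fun a _ => (hL a).symm
    · rw [← hFB1]
      exact Finset.sum_congr rfl fun a _ => (hL' a).symm
  · refine ⟨fun t => ∑ x, ∑ y, if h (threeMsgEquiv _ _ _ _ _ _ _ t).1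
      (threeMsgEquiv _ _ _ _ _ _ _ t).2.1 x = (threeMsgEquiv _ _ _ _ _ _ _ t).2.2 then
      omega Ψ EA FB m₁ m₂ xs (threeMsgEquiv _ _ _ _ _ _ _ t).1
      (threeMsgEquiv _ _ _ _ _ _ _ t).2.1 x y else 0, ?_, ?_, ?_⟩
    · intro t
      refine posSemidef_sum _ fun x _ => posSemidef_sum _ fun y _ => ?_
      split_ifs
      · exact omega_posSemidef Ψ hEA hFB _ _ _ _ _ _ _
      · exact PosSemidef.zero
    · rw [Fintype.sum_equiv (threeMsgEquiv L L' m₁ m₂ _ _ _) _ (fun p : M₁ × M₂ × M₃ =>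
        (∑ x, ∑ y, if h p.1 p.2.1 x = p.2.2 then
        omega Ψ EA FB m₁ m₂ xs p.1 p.2.1 x y else 0).trace) (fun t => rfl)]
      simp only [Fintype.sum_prod_type]
      have h1 : ∀ f g, ∑ c, (∑ x, ∑ y, if h f g x = c then
          omega Ψ EA FB m₁ m₂ xs f g x y else 0).trace =
          (∑ x, ∑ y, omega Ψ EA FB m₁ m₂ xs f g x y).trace := by
        intro f g
        rw [← trace_sum]
        congr 1
        rw [Finset.sum_comm]
        refine Finset.sum_congr rfl fun x _ => ?_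
        rw [Finset.sum_comm]
        refine Finset.sum_congr rfl fun y _ => ?_
        simp only [Finset.sum_ite_eq, Finset.mem_univ, ↓reduceIte]
      simp only [h1]
      simp only [← trace_sum]
      rw [sum_omega, hEA1, hFB1, trace_eve_one, hΨ]
    · refine le_trans (le_of_eq ?_) hε
      rw [Fintype.sum_equiv (threeMsgEquiv L L' m₁ m₂ _ _ _) _ (fun p : M₁ × M₂ × M₃ =>
        ∑ κ, ∑ l, traceNorm ((∑ x, ∑ y,
        if h p.1 p.2.1 x = p.2.2 ∧ k p.1 p.2.1 x = κ ∧ k p.1 p.2.1 (dec p.1 p.2.1 y p.2.2) = l then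
          omega Ψ EA FB m₁ m₂ xs p.1 p.2.1 x y else 0)
        - if κ = l then ((Fintype.card K : ℂ)⁻¹) • ∑ x, ∑ y, (if h p.1 p.2.1 x = p.2.2 then
          omega Ψ EA FB m₁ m₂ xs p.1 p.2.1 x y else 0) else 0)) ?_]
      · simp only [Fintype.sum_prod_type]
      · intro t
        refine Finset.sum_congr rfl fun κ _ => Finset.sum_congr rfl fun l _ => ?_
        congr 2
        rw [threeMsg_effA, threeMsg_effB, eve_sum_left]
        simp only [eve_sum_right]
        generalize threeMsgEquiv L L' m₁ m₂ _ _ _ t = p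
        obtain ⟨f, g, c⟩ := p
        simp only [omega]
        have e1 : ∀ a b, eve Ψ (if m₁ a = f ∧ h (m₁ a) g (xs a g) = c ∧ k (m₁ a) g (xs a g) = κ
            then (L a)ᴴ * L a else 0) (if m₂ b = g ∧ k f (m₂ b) (dec f (m₂ b) b c) = l
            then (L' b)ᴴ * L' b else 0) = ∑ x, if (h f g x = c ∧ k f g x = κ ∧
              k f g (dec f g b c) = l) ∧ (m₁ a = f ∧ xs a g = x ∧ m₂ b = g) then
              eve Ψ (EA a) (FB b) else 0 := by
          intro a b
          rw [← hL, ← hL']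
          rw [Finset.sum_eq_single (xs a g)]
          · by_cases h1 : m₁ a = f
            · subst h1
              by_cases h2 : m₂ b = g
              · subst h2
                by_cases h3 : h (m₁ a) (m₂ b) (xs a (m₂ b)) = c <;>
                by_cases h4 : k (m₁ a) (m₂ b) (xs a (m₂ b)) = κ <;>
                by_cases h5 : k (m₁ a) (m₂ b) (dec (m₁ a) (m₂ b) b c) = l <;>
                simp [h3, h4, h5, eve_zero_left, eve_zero_right]
              · simp [h2, eve_zero_right]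
            · simp [h1, eve_zero_left]
          · intro x _ hx
            simp [hx.symm]
          · simp only [Finset.mem_univ, not_true_eq_false, true_and, ite_eq_right_iff, and_imp, IsEmpty.forall_iff]
        simp only [e1]
        have e2 : ∀ (F : α → β → X → Matrix E E ℂ), ∑ a, ∑ b, ∑ x, F a b x =
            ∑ x, ∑ b, ∑ a, F a b x := by
          intro F
          rw [Finset.sum_congr rfl fun a _ => Finset.sum_comm, Finset.sum_comm]
          exact Finset.sum_congr rfl fun x _ => Finset.sum_comm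
        rw [e2]
        refine Finset.sum_congr rfl fun x _ => Finset.sum_congr rfl fun b _ => ?_
        by_cases h1 : h f g x = c ∧ k f g x = κ ∧ k f g (dec f g b c) = l
        · simp only [h1, and_self, true_and, if_true]
        · simp only [h1, false_and, if_false, Finset.sum_const_zero]

end proto

end Vale.Agent.P372
end
end
end

section

section

section

open Matrix Filter Topology
open scoped ComplexOrder MatrixOrder

set_option linter.unusedSectionVars false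

namespace Vale.Agent.P372

variable {A B E : Type} [Fintype A] [DecidableEq A] [Fintype B] [DecidableEq B] [Fintype E]
  [DecidableEq E]

theorem piT_ite {N : ℕ} (c : Fin N → Prop) [∀ i, Decidable (c i)] (X : Fin N → Matrix E E ℂ) :
    piT (fun i => if c i then X i else 0) = if ∀ i, c i then piT X else 0 := by
  by_cases h : ∀ i, c i
  · rw [if_pos h]
    simp only [h, if_true]
  · rw [if_neg h]
    push Not at h
    obtain ⟨i, hi⟩ := h
    ext e f
    rw [piT_apply]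
    exact Finset.prod_eq_zero (Finset.mem_univ i) (by simp [hi])

theorem re_trace_piT {N : ℕ} {Y : Fin N → Matrix E E ℂ} (h : ∀ i, (Y i).PosSemidef) :
    (piT Y).trace.re = ∏ i, (Y i).trace.re := by
  have h1 : ∀ i, (Y i).trace = (((Y i).trace.re : ℝ) : ℂ) := by
    intro i
    have := (Complex.le_def.mp (h i).trace_nonneg).2
    apply Complex.ext
    · simp only [Complex.ofReal_re]
    · simpa only [Complex.ofReal_im, Complex.zero_im] using this.symm
  have h2 : (piT Y).trace = ((∏ i, (Y i).trace.re : ℝ) : ℂ) := by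
    rw [piT_trace, Complex.ofReal_prod]
    exact Finset.prod_congr rfl fun i _ => h1 i
  rw [h2, Complex.ofReal_re]

theorem sum_prod_pattern {N : ℕ} {M₁ M₂ : Type} [Fintype M₁] [DecidableEq M₁] [Fintype M₂]
    [DecidableEq M₂] (c : M₁ → M₂ → ℝ) :
    ∑ f : Fin N → M₁, ∑ g : Fin N → M₂, ∏ i, c (f i) (g i) = (∑ f, ∑ g, c f g) ^ N := by
  have h1 : ∀ f : Fin N → M₁, ∑ g : Fin N → M₂, ∏ i, c (f i) (g i) = ∏ i, ∑ g, c (f i) g := by
    intro f
    rw [Finset.prod_univ_sum]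
    simp only [Fintype.piFinset_univ]
  simp only [h1]
  have h2 := Finset.prod_univ_sum (fun _ : Fin N => (Finset.univ : Finset M₁))
    (fun _ f => ∑ g, c f g)
  simp only [Fintype.piFinset_univ] at h2
  rw [← h2]
  simp only [Finset.prod_const, Finset.card_univ, Fintype.card_fin]

theorem trace_copies (N : ℕ) (Ψ : Matrix (A × B) E ℂ) (hΨ : (Ψ * Ψᴴ).trace = 1) :
    (copies N Ψ * (copies N Ψ)ᴴ).trace = 1 := by
  rw [← trace_eve_one, ← piT_one, ← piT_one, eve_piT, piT_trace]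
  simp only [trace_eve_one, hΨ, Finset.prod_const_one]

theorem sum_prod_fin {N : ℕ} {X : Type} [Fintype X] [DecidableEq X] (c : Fin N → X → ℝ) :
    ∑ x : Fin N → X, ∏ i, c i (x i) = ∏ i, ∑ x, c i x := by
  rw [Finset.prod_univ_sum]
  simp only [Fintype.piFinset_univ]

theorem sqrt_prod {N : ℕ} {c : Fin N → ℝ} (hc : ∀ i, 0 ≤ c i) : √(∏ i, c i) = ∏ i, √(c i) := by
  have h : ∏ i, c i = (∏ i, √(c i)) ^ 2 := by
    rw [← Finset.prod_pow]
    exact Finset.prod_congr rfl fun i _ => (Real.sq_sqrt (hc i)).symm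
  rw [h, Real.sqrt_sq (Finset.prod_nonneg fun i _ => Real.sqrt_nonneg _)]

theorem re_trace_nonneg {X : Matrix E E ℂ} (h : X.PosSemidef) : 0 ≤ X.trace.re :=
  (Complex.le_def.mp h.trace_nonneg).1

/-- the bound for one pattern of announcements -/
theorem pattern_bound {N : ℕ} {X β : Type} [Fintype X] [DecidableEq X] [Fintype β] [DecidableEq β]
    (w : Fin N → X → β → Matrix E E ℂ) (hw : ∀ i x y, (w i x y).PosSemidef)
    (P : Fin N → Matrix E E ℂ) (hP : ∀ i, (P i).PosSemidef) (D : Fin N → X → Matrix E E ℂ)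
    (τ : Fin N → ℝ) (hτ : ∀ i, 1 ≤ τ i) (C : ℝ) (hC : 0 ≤ C) :
    2 * (((⌈∏ i, τ i⌉₊ : ℕ) : ℝ)⁻¹ * ∑ b : Fin N → β,
        (∑ x : Fin N → X, √((piT (fun i => w i (x i) (b i))).trace.re)) ^ 2) +
      √(((piT P * piT P) * (piT P * piT P)).trace.re) * (√(((⌈∏ i, τ i⌉₊ : ℕ) : ℝ) * C) *
        √(∑ x : Fin N → X, ((piT (fun i => D i (x i)))ᴴ * piT (fun i => D i (x i))).trace.re)) ≤
    2 * (∏ i, ((τ i)⁻¹ * ∑ y, (∑ x, √((w i x y).trace.re)) ^ 2)) +
      √(2 * C) * ∏ i, √(τ i * (((P i * P i) * (P i * P i)).trace.re *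
        ∑ x, ((D i x)ᴴ * D i x).trace.re)) := by
  have hτ0 : ∀ i, 0 < τ i := fun i => lt_of_lt_of_le one_pos (hτ i)
  have hprod1 : 1 ≤ ∏ i, τ i := by
    have := Finset.prod_le_prod (s := Finset.univ) (f := fun _ => (1 : ℝ))
      (g := fun i => τ i) (fun _ _ => zero_le_one) (fun i _ => hτ _)
    simpa only [ge_iff_le, Finset.prod_const_one] using this
  have hprod0 : 0 < ∏ i, τ i := lt_of_lt_of_le one_pos hprod1
  have hceil1 : ∏ i, τ i ≤ ((⌈∏ i, τ i⌉₊ : ℕ) : ℝ) := Nat.le_ceil _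
  have hceil2 : ((⌈∏ i, τ i⌉₊ : ℕ) : ℝ) ≤ 2 * ∏ i, τ i := by
    have := Nat.ceil_lt_add_one hprod0.le
    linarith
  refine add_le_add ?_ ?_
  · refine mul_le_mul_of_nonneg_left ?_ (by norm_num)
    have h1 : ∑ b : Fin N → β, (∑ x : Fin N → X, √((piT (fun i => w i (x i) (b i))).trace.re)) ^ 2
        = ∏ i, ∑ y, (∑ x, √((w i x y).trace.re)) ^ 2 := by
      rw [← sum_prod_fin (fun i y => (∑ x, √((w i x y).trace.re)) ^ 2)]
      refine Finset.sum_congr rfl fun b _ => ?_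
      rw [Finset.prod_pow, ← sum_prod_fin (fun i x => √((w i x (b i)).trace.re))]
      congr 1
      refine Finset.sum_congr rfl fun x _ => ?_
      rw [re_trace_piT fun i => hw _ _ _, sqrt_prod fun i => re_trace_nonneg (hw _ _ _)]
    rw [h1, Finset.prod_mul_distrib, Finset.prod_inv_distrib]
    refine mul_le_mul_of_nonneg_right ?_ (Finset.prod_nonneg fun i _ =>
      Finset.sum_nonneg fun y _ => sq_nonneg _)
    exact inv_anti₀ hprod0 hceil1
  · have h4 : ((piT P * piT P) * (piT P * piT P)).trace.re =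
        ∏ i, ((P i * P i) * (P i * P i)).trace.re := by
      rw [← piT_mul, ← piT_mul, re_trace_piT]
      intro i
      have : P i * P i * (P i * P i) = (P i * P i)ᴴ * (P i * P i) := by
        rw [conjTranspose_mul, (hP i).isHermitian.eq]
      rw [this]
      exact posSemidef_conjTranspose_mul_self _
    have h5 : ∑ x : Fin N → X, ((piT (fun i => D i (x i)))ᴴ *
        piT (fun i => D i (x i))).trace.re = ∏ i, ∑ x, ((D i x)ᴴ * D i x).trace.re := by
      rw [← sum_prod_fin]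
      refine Finset.sum_congr rfl fun x _ => ?_
      rw [piT_conjTranspose, ← piT_mul, re_trace_piT]
      intro i
      exact posSemidef_conjTranspose_mul_self _
    have hP4 : ∀ i, 0 ≤ ((P i * P i) * (P i * P i)).trace.re := by
      intro i
      have : P i * P i * (P i * P i) = (P i * P i)ᴴ * (P i * P i) := by
        rw [conjTranspose_mul, (hP i).isHermitian.eq]
      rw [this]
      exact re_trace_nonneg (posSemidef_conjTranspose_mul_self _)
    have hD2 : ∀ i, 0 ≤ ∑ x, ((D i x)ᴴ * D i x).trace.re := fun i =>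
      Finset.sum_nonneg fun x _ => re_trace_nonneg (posSemidef_conjTranspose_mul_self _)
    rw [h4, h5]
    have h6 : √(((⌈∏ i, τ i⌉₊ : ℕ) : ℝ) * C) ≤ √(2 * C) * ∏ i, √(τ i) := by
      rw [← sqrt_prod fun i => (hτ0 i).le, ← Real.sqrt_mul (by (clear * - hC; positivity))]
      refine Real.sqrt_le_sqrt ?_
      nlinarith only [hC, hceil2]
    calc √(∏ i, ((P i * P i) * (P i * P i)).trace.re) * (√(((⌈∏ i, τ i⌉₊ : ℕ) : ℝ) * C) *
          √(∏ i, ∑ x, ((D i x)ᴴ * D i x).trace.re))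
        ≤ √(∏ i, ((P i * P i) * (P i * P i)).trace.re) * ((√(2 * C) * ∏ i, √(τ i)) *
          √(∏ i, ∑ x, ((D i x)ᴴ * D i x).trace.re)) := by
          refine mul_le_mul_of_nonneg_left ?_ (Real.sqrt_nonneg _)
          exact mul_le_mul_of_nonneg_right h6 (Real.sqrt_nonneg _)
      _ = _ := by
          rw [sqrt_prod hP4, sqrt_prod hD2]
          have : ∏ i, √(τ i * (((P i * P i) * (P i * P i)).trace.re *
              ∑ x, ((D i x)ᴴ * D i x).trace.re)) = (∏ i, √(τ i)) *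
              ((∏ i, √((((P i * P i) * (P i * P i)).trace.re))) *
              ∏ i, √(∑ x, ((D i x)ᴴ * D i x).trace.re)) := by
            rw [← Finset.prod_mul_distrib, ← Finset.prod_mul_distrib]
            refine Finset.prod_congr rfl fun i _ => ?_
            rw [Real.sqrt_mul (hτ0 i).le, Real.sqrt_mul (hP4 i)]
          rw [this]
          ring

section

variable {α β M₁ M₂ K X : Type} [Fintype α] [DecidableEq α] [Fintype β] [DecidableEq β]
  [Fintype M₁] [DecidableEq M₁] [Fintype M₂] [DecidableEq M₂]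
  [Fintype K] [DecidableEq K] [Fintype X] [DecidableEq X]

theorem omega_copies (N : ℕ) (Ψ : Matrix (A × B) E ℂ) (EA : α → Matrix A A ℂ)
    (FB : β → Matrix B B ℂ) (m₁ : α → M₁) (m₂ : β → M₂) (xs : α → M₂ → X)
    (f : Fin N → M₁) (g : Fin N → M₂) (x : Fin N → X) (b : Fin N → β) :
    omega (copies N Ψ) (fun a : Fin N → α => piT (fun i => EA (a i)))
      (fun b : Fin N → β => piT (fun i => FB (b i))) (fun a i => m₁ (a i)) (fun b i => m₂ (b i))
      (fun a g i => xs (a i) (g i)) f g x b =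
    piT (fun i => omega Ψ EA FB m₁ m₂ xs (f i) (g i) (x i) (b i)) := by
  simp only [omega]
  rw [piT_sum]
  refine Finset.sum_congr rfl fun a _ => ?_
  rw [piT_ite, eve_piT]
  refine if_congr ?_ rfl rfl
  simp only [funext_iff, forall_and]

/-- one block length -/
theorem block_error [Nonempty K] [Nonempty X] (N : ℕ) (Ψ : Matrix (A × B) E ℂ)
    (hΨ : (Ψ * Ψᴴ).trace = 1)
    (EA : α → Matrix A A ℂ) (hEA : ∀ a, (EA a).PosSemidef) (hEA1 : ∑ a, EA a = 1)
    (FB : β → Matrix B B ℂ) (hFB : ∀ a, (FB a).PosSemidef) (hFB1 : ∑ b, FB b = 1)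
    (m₁ : α → M₁) (m₂ : β → M₂) (xs : α → M₂ → X)
    (P : M₁ → M₂ → Matrix E E ℂ) (hP : ∀ f g, (P f g).PosSemidef)
    (D : M₁ → M₂ → X → Matrix E E ℂ)
    (hD : ∀ f g x, ∑ y, omega Ψ EA FB m₁ m₂ xs f g x y = P f g * D f g x * P f g)
    (τ : M₁ → M₂ → ℝ) (hτ : ∀ f g, 1 ≤ τ f g) :
    ∃ π : Protocol K (Fin N → A) (Fin N → B), π.Valid ∧ π.ErrorLE (copies N Ψ)
      (2 * (∑ f, ∑ g, (τ f g)⁻¹ *
        ∑ y, (∑ x, √((omega Ψ EA FB m₁ m₂ xs f g x y).trace.re)) ^ 2) ^ N +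
      √(2 * Fintype.card K) * (∑ f, ∑ g, √(τ f g * (((P f g * P f g) * (P f g * P f g)).trace.re *
        ∑ x, ((D f g x)ᴴ * D f g x).trace.re))) ^ N) := by
  classical
  set Ω := omega (copies N Ψ) (fun a : Fin N → α => piT (fun i => EA (a i)))
      (fun b : Fin N → β => piT (fun i => FB (b i))) (fun a i => m₁ (a i)) (fun b i => m₂ (b i))
      (fun a g i => xs (a i) (g i)) with hΩdef
  have hΩ : ∀ f g x b, Ω f g x b = piT (fun i => omega Ψ EA FB m₁ m₂ xs (f i) (g i) (x i) (b i)) :=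
    fun f g x b => omega_copies N Ψ EA FB m₁ m₂ xs f g x b
  have hΩp : ∀ f g x b, (Ω f g x b).PosSemidef := by
    intro f g x b
    rw [hΩ]
    exact piT_posSemidef fun i => omega_posSemidef Ψ hEA hFB _ _ _ _ _ _ _
  let S : (Fin N → M₁) → (Fin N → M₂) → ℕ := fun f g => ⌈∏ i, τ (f i) (g i)⌉₊
  have hprod1 : ∀ (f : Fin N → M₁) (g : Fin N → M₂), 1 ≤ ∏ i, τ (f i) (g i) := by
    intro f g
    have := Finset.prod_le_prod (s := Finset.univ) (f := fun _ => (1 : ℝ))
      (g := fun i => τ (f i) (g i)) (fun _ _ => zero_le_one) (fun i _ => hτ _ _)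
    simpa only [ge_iff_le, Finset.prod_const_one] using this
  have hS0 : ∀ f g, 0 < S f g := fun f g =>
    Nat.ceil_pos.mpr (lt_of_lt_of_le one_pos (hprod1 f g))
  let T : ℕ := ∑ f, ∑ g, S f g
  have hST : ∀ f g, S f g ≤ T := fun f g =>
    le_trans (Finset.single_le_sum (f := fun g => S f g) (fun _ _ => Nat.zero_le _)
      (Finset.mem_univ g))
      (Finset.single_le_sum (f := fun f => ∑ g, S f g) (fun _ _ => Nat.zero_le _)
      (Finset.mem_univ f))
  have hDN : ∀ (f : Fin N → M₁) (g : Fin N → M₂) (x : Fin N → X), ∑ b, Ω f g x b =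
      piT (fun i => P (f i) (g i)) * piT (fun i => D (f i) (g i) (x i)) *
        piT (fun i => P (f i) (g i)) := by
    intro f g x
    simp only [hΩ]
    rw [← piT_sum (fun i β => omega Ψ EA FB m₁ m₂ xs (f i) (g i) (x i) β)]
    simp only [hD]
    rw [← piT_mul, ← piT_mul]
  have hex := fun (f : Fin N → M₁) (g : Fin N → M₂) =>
    hash_exists' (K := K) (S f g) (hS0 f g) (Fin.castLE (hST f g)) (Fin.castLE_injective _)
    (Ω f g) (hΩp f g) (piT (fun i => P (f i) (g i))) (piT_posSemidef fun i => hP _ _)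
    (fun x => piT (fun i => D (f i) (g i) (x i))) (hDN f g)
  choose h k dec hb using hex
  refine exists_protocol_of_hash (copies N Ψ) (trace_copies N Ψ hΨ)
    (fun a : Fin N → α => piT (fun i => EA (a i))) (fun a => piT_posSemidef fun i => hEA _) ?_
    (fun b : Fin N → β => piT (fun i => FB (b i))) (fun a => piT_posSemidef fun i => hFB _) ?_
    (fun a i => m₁ (a i)) (fun b i => m₂ (b i))
    (fun a g i => xs (a i) (g i)) h k dec _ ?_
  · rw [← piT_sum (fun _ a => EA a)]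
    simp only [hEA1]
    exact piT_one
  · rw [← piT_sum (fun _ a => FB a)]
    simp only [hFB1]
    exact piT_one
  · refine le_trans (Finset.sum_le_sum fun f _ => Finset.sum_le_sum fun g _ => hb f g) ?_
    rw [← sum_prod_pattern, ← sum_prod_pattern]
    simp only [Finset.mul_sum]
    simp only [← Finset.sum_add_distrib]
    refine Finset.sum_le_sum fun f _ => Finset.sum_le_sum fun g _ => ?_
    have := pattern_bound (fun i x y => omega Ψ EA FB m₁ m₂ xs (f i) (g i) x y)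
      (fun i x y => omega_posSemidef Ψ hEA hFB _ _ _ _ _ _ _)
      (fun i => P (f i) (g i)) (fun i => hP _ _) (fun i x => D (f i) (g i) x)
      (fun i => τ (f i) (g i)) (fun i => hτ _ _) (Fintype.card K : ℝ) (Nat.cast_nonneg _)
    simp only [hΩ]
    simpa only [Finset.mul_sum] using this

end

end Vale.Agent.P372
end
end
end

section

section

section

open Matrix Filter Topology
open scoped ComplexOrder MatrixOrder

set_option linter.unusedSectionVars false

namespace Vale.Agent.P372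

variable {A B E : Type} [Fintype A] [DecidableEq A] [Fintype B] [DecidableEq B] [Fintype E]
  [DecidableEq E]

theorem exists_root_lt {q : ℝ} (h0 : 0 ≤ q) (h1 : q < 1) :
    ∃ c : ℝ, 1 < c ∧ c * q < 1 ∧ ∃ m : ℕ, 0 < m ∧ 2 ≤ c ^ (2 * m) := by
  obtain ⟨c, hc1, hc2⟩ : ∃ c : ℝ, 1 < c ∧ c * q < 1 := by
    refine ⟨2 / (1 + q), ?_, ?_⟩
    · rw [lt_div_iff₀ (by linarith)]
      linarith only [h1]
    · rw [div_mul_eq_mul_div, div_lt_one (by linarith)]
      linarith
  refine ⟨c, hc1, hc2, ?_⟩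
  obtain ⟨m, hm⟩ := pow_unbounded_of_one_lt 2 hc1
  refine ⟨m + 1, Nat.succ_pos _, ?_⟩
  refine le_trans hm.le (pow_le_pow_right₀ hc1.le ?_)
  omega

theorem kd_pos_of_rate (Ψ : Matrix (A × B) E ℂ) {q₁ q₂ : ℝ} (h₁ : 0 ≤ q₁) (h₁' : q₁ < 1)
    (h₂ : 0 ≤ q₂) (h₂' : q₂ < 1)
    (H : ∀ N ℓ : ℕ, ∃ π : Protocol (Fin ℓ → Bool) (Fin N → A) (Fin N → B), π.Valid ∧
      π.ErrorLE (copies N Ψ) (2 * q₁ ^ N + √(2 * Fintype.card (Fin ℓ → Bool)) * q₂ ^ N)) :
    0 < KD Ψ := by
  obtain ⟨c, hc1, hc2, m, hm, hcm⟩ := exists_root_lt h₂ h₂'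
  choose π hπ hπ' using fun N : ℕ => H N (N / m)
  have hc0 : 0 ≤ c := by linarith only [hc1]
  have hlim : Tendsto (fun N : ℕ => 2 * q₁ ^ N +
      √(2 * Fintype.card (Fin (N / m) → Bool)) * q₂ ^ N) atTop (𝓝 0) := by
    have hl1 : Tendsto (fun N : ℕ => 2 * q₁ ^ N + √2 * (c * q₂) ^ N) atTop (𝓝 0) := by
      have e1 := (tendsto_pow_atTop_nhds_zero_of_lt_one h₁ h₁').const_mul 2
      have e2 := (tendsto_pow_atTop_nhds_zero_of_lt_one (mul_nonneg hc0 h₂) hc2).const_mul (√2)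
      simpa only [mul_zero, add_zero] using e1.add e2
    refine squeeze_zero (fun N => ?_) (fun N => ?_) hl1
    · (clear * - h₁ h₂; (clear * - h₁ h₂; positivity))
    · refine add_le_add le_rfl ?_
      rw [mul_pow, ← mul_assoc]
      refine mul_le_mul_of_nonneg_right ?_ (pow_nonneg h₂ _)
      rw [← Real.sqrt_sq (pow_nonneg hc0 N), ← Real.sqrt_mul (by norm_num)]
      refine Real.sqrt_le_sqrt ?_
      refine mul_le_mul_of_nonneg_left ?_ (by norm_num)
      simp only [Fintype.card_pi, Fintype.card_bool, Finset.prod_const, Finset.card_univ,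
        Fintype.card_fin]
      push_cast
      calc (2 : ℝ) ^ (N / m) ≤ (c ^ (2 * m)) ^ (N / m) :=
            pow_le_pow_left₀ (by norm_num) hcm _
        _ = c ^ (2 * m * (N / m)) := (pow_mul _ _ _).symm
        _ ≤ c ^ (2 * N) := by
            refine pow_le_pow_right₀ hc1.le ?_
            have := Nat.mul_div_le N m
            calc 2 * m * (N / m) = 2 * (m * (N / m)) := by ring
              _ ≤ 2 * N := Nat.mul_le_mul_left _ this
        _ = (c ^ N) ^ 2 := by ring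
  have hrate : ((1 / (2 * m) : ℝ) : EReal) ≤
      liminf (fun n : ℕ => ((((n / m : ℕ) : ℝ) / (n : ℝ) : ℝ) : EReal)) atTop := by
    refine le_liminf_of_le (by isBoundedDefault) ?_
    filter_upwards [eventually_ge_atTop m] with n hn
    rw [EReal.coe_le_coe_iff]
    have hm' : (0 : ℝ) < m := by exact_mod_cast hm
    have hn' : (0 : ℝ) < n := by exact_mod_cast lt_of_lt_of_le hm hn
    rw [div_le_div_iff₀ (by (clear * - hm; positivity)) hn']
    have h3 : n < 2 * m * (n / m) + 1 := by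
      have h4 := Nat.div_add_mod n m
      have h5 := Nat.mod_lt n hm
      have h6 : 1 ≤ n / m := (Nat.one_le_div_iff hm).mpr hn
      nlinarith only [h4, h5, h6]
    have h7 : n ≤ (n / m) * (2 * m) := by
      have : 2 * m * (n / m) = (n / m) * (2 * m) := by ring
      omega
    rw [one_mul]
    exact_mod_cast h7
  refine lt_of_lt_of_le ?_ (le_trans hrate (le_sSup ⟨fun n => n / m, π, _, hπ, hπ', hlim, rfl⟩))
  have hm' : (0 : ℝ) < m := by exact_mod_cast hm
  have : (0 : ℝ) < 1 / (2 * m) := by positivity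
  exact_mod_cast this

end Vale.Agent.P372
end
end
end

section

section

section

open Matrix Filter Topology
open scoped ComplexOrder MatrixOrder

set_option linter.unusedSectionVars false

namespace Vale.Agent.P372

variable {A B E : Type} [Fintype A] [DecidableEq A] [Fintype B] [DecidableEq B] [Fintype E]
  [DecidableEq E]

section

variable {Y : Type} [Fintype Y] [DecidableEq Y] (Ψ : Matrix (A × B) E ℂ)
  (EA : Option Bool → Matrix A A ℂ) (FB : Option Y → Matrix B B ℂ)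

/-- Eve's operators for the protocol with success flags. -/
def om (f g : Bool) (x : Bool) (y : Option Y) : Matrix E E ℂ :=
  omega Ψ EA FB Option.isSome Option.isSome (fun a g => a.getD false && g) f g x y

theorem om_tt_some (x : Bool) (y : Y) :
    om Ψ EA FB true true x (some y) = eve Ψ (EA (some x)) (FB (some y)) := by
  simp only [om, omega, Fintype.sum_option, Fintype.sum_bool]
  cases x <;> simp

theorem om_tt_none (x : Bool) : om Ψ EA FB true true x none = 0 := by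
  simp [om, omega]

theorem om_true {f g : Bool} (h : ¬ (f = true ∧ g = true)) (y : Option Y) :
    om Ψ EA FB f g true y = 0 := by
  simp only [om, omega, Fintype.sum_option, Fintype.sum_bool]
  cases f <;> cases g <;> simp_all

theorem om_posSemidef (hEA : ∀ a, (EA a).PosSemidef) (hFB : ∀ a, (FB a).PosSemidef)
    (f g : Bool) (x : Bool) (y : Option Y) : (om Ψ EA FB f g x y).PosSemidef :=
  omega_posSemidef Ψ hEA hFB _ _ _ _ _ _ _

theorem sum_om (hEA1 : ∑ α, EA α = 1) (hFB1 : ∑ β, FB β = 1) :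
    ∑ f, ∑ g, ∑ x, ∑ y, om Ψ EA FB f g x y = eve Ψ 1 1 := by
  have := sum_omega Ψ EA FB Option.isSome Option.isSome (fun a g => a.getD false && g)
  rw [hEA1, hFB1] at this
  exact this

end

theorem block_pos {Y : Type} [Fintype Y] [DecidableEq Y] (Ψ : Matrix (A × B) E ℂ)
    (hΨ : (Ψ * Ψᴴ).trace = 1)
    (EA : Option Bool → Matrix A A ℂ) (hEA : ∀ α, (EA α).PosSemidef) (hEA1 : ∑ α, EA α = 1)
    (FB : Option Y → Matrix B B ℂ) (hFB : ∀ β, (FB β).PosSemidef) (hFB1 : ∑ β, FB β = 1)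
    (P : Matrix E E ℂ) (hP : P.PosSemidef) (D : Bool → Matrix E E ℂ)
    (hD : ∀ x, eve Ψ (EA (some x)) (∑ y, FB (some y)) = P * D x * P)
    (p V2 Bh : ℝ) (hp : p = ∑ x, ∑ y, (eve Ψ (EA (some x)) (FB (some y))).trace.re)
    (hV : V2 = ((P * P) * (P * P)).trace.re * ∑ x, ((D x)ᴴ * D x).trace.re)
    (hB : Bh = ∑ y, (∑ x, √((eve Ψ (EA (some x)) (FB (some y))).trace.re)) ^ 2)
    (hlt : V2 * Bh < p ^ 3) : 0 < KD Ψ := by
  classical
  have hpos := om_posSemidef Ψ EA FB hEA hFB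
  have hP4 : 0 ≤ ((P * P) * (P * P)).trace.re := by
    have : P * P * (P * P) = (P * P)ᴴ * (P * P) := by
      rw [conjTranspose_mul, hP.isHermitian.eq]
    rw [this]
    exact re_trace_nonneg (posSemidef_conjTranspose_mul_self _)
  have hV0 : 0 ≤ V2 := by
    rw [hV]
    exact mul_nonneg hP4 (Finset.sum_nonneg fun x _ =>
      re_trace_nonneg (posSemidef_conjTranspose_mul_self _))
  have hterm : ∀ x y, 0 ≤ (eve Ψ (EA (some x)) (FB (some y))).trace.re := fun x y =>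
    re_trace_nonneg (eve_posSemidef Ψ (hEA _) (hFB _))
  have hp0 : 0 ≤ p := by
    rw [hp]
    exact Finset.sum_nonneg fun x _ => Finset.sum_nonneg fun y _ => hterm x y
  have hB0 : 0 ≤ Bh := by
    rw [hB]
    exact Finset.sum_nonneg fun y _ => sq_nonneg _
  have hpp : 0 < p := by
    rcases hp0.lt_or_eq with h | h
    · exact h
    · exfalso
      rw [← h] at hlt
      have := mul_nonneg hV0 hB0
      linarith only [hlt, this]
  have hBp : p ≤ Bh := by
    rw [hp, hB, Finset.sum_comm]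
    refine Finset.sum_le_sum fun y _ => ?_
    calc ∑ x, (eve Ψ (EA (some x)) (FB (some y))).trace.re =
        ∑ x, √((eve Ψ (EA (some x)) (FB (some y))).trace.re) ^ 2 :=
          Finset.sum_congr rfl fun x _ => (Real.sq_sqrt (hterm x y)).symm
      _ ≤ _ := Finset.sum_sq_le_sq_sum_of_nonneg fun x _ => Real.sqrt_nonneg _
  -- choice of the threshold
  obtain ⟨θ, hθ1, hθB, hθV⟩ : ∃ θ : ℝ, 1 ≤ θ ∧ Bh < θ * p ∧ θ * V2 < p ^ 2 := by
    have hgap : 0 < p ^ 3 - V2 * Bh := by linarith only [hlt]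
    refine ⟨Bh / p + (p ^ 3 - V2 * Bh) / (p * (V2 + 1)), ?_, ?_, ?_⟩
    · have h1 : 1 ≤ Bh / p := (one_le_div hpp).mpr hBp
      have h2 : 0 ≤ (p ^ 3 - V2 * Bh) / (p * (V2 + 1)) := by (clear * - hlt hpp hV0; (clear * - hlt hpp hV0; positivity))
      linarith only [h1, h2]
    · have h2 : 0 < (p ^ 3 - V2 * Bh) / (p * (V2 + 1)) := by (clear * - hlt hpp hV0; positivity)
      have h3 : Bh / p * p = Bh := div_mul_cancel₀ _ hpp.ne'
      nlinarith only [h3, hpp, h2]
    · have h3 : (Bh / p + (p ^ 3 - V2 * Bh) / (p * (V2 + 1))) * V2 =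
          (Bh * V2 * (V2 + 1) + (p ^ 3 - V2 * Bh) * V2) / (p * (V2 + 1)) := by
        (clear * - hV0 hpp; field_simp)
      rw [h3, div_lt_iff₀ (by (clear * - hpp hV0; (clear * - hpp hV0; positivity)))]
      nlinarith only [hlt]
  -- site data
  let W : Bool → Bool → Matrix E E ℂ := fun f g => ∑ x, ∑ y, om Ψ EA FB f g x y
  have hW : ∀ f g, (W f g).PosSemidef := fun f g =>
    posSemidef_sum _ fun x _ => posSemidef_sum _ fun y _ => hpos f g x y
  choose Q hQ hQ4 using fun f g => exists_fourth_root (hW f g)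
  let PP : Bool → Bool → Matrix E E ℂ := fun f g => if f = true ∧ g = true then P else Q f g
  let DD : Bool → Bool → Bool → Matrix E E ℂ := fun f g x =>
    if f = true ∧ g = true then D x else if x = true then 0 else Q f g * Q f g
  let τ : Bool → Bool → ℝ := fun f g => if f = true ∧ g = true then θ else 1
  have hPP : ∀ f g, (PP f g).PosSemidef := by
    intro f g
    by_cases h : f = true ∧ g = true
    · simp only [PP, h, and_self, if_true]
      exact hP
    · simp only [PP, h, if_false]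
      exact hQ f g
  have hsumtt : ∀ x, ∑ y, om Ψ EA FB true true x y =
      eve Ψ (EA (some x)) (∑ y, FB (some y)) := by
    intro x
    rw [Fintype.sum_option, om_tt_none, zero_add, eve_sum_right]
    exact Finset.sum_congr rfl fun y _ => om_tt_some Ψ EA FB x y
  have hWn : ∀ f g, ¬ (f = true ∧ g = true) → W f g = ∑ y, om Ψ EA FB f g false y := by
    intro f g h
    simp only [W, Fintype.sum_bool]
    simp only [om_true Ψ EA FB h, Finset.sum_const_zero, zero_add]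
  have hDD : ∀ f g x, ∑ y, om Ψ EA FB f g x y = PP f g * DD f g x * PP f g := by
    intro f g x
    by_cases h : f = true ∧ g = true
    · obtain ⟨rfl, rfl⟩ := h
      simp only [PP, DD, and_self, if_true]
      rw [hsumtt, hD]
    · simp only [PP, DD, h, if_false]
      cases x
      · rw [← hWn f g h, ← hQ4 f g]
        simp [Matrix.mul_assoc]
      · simp only [om_true Ψ EA FB h, Finset.sum_const_zero, if_true]
        simp
  have hτ : ∀ f g, 1 ≤ τ f g := by
    intro f g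
    by_cases h : f = true ∧ g = true
    · simp only [τ, h, and_self, if_true]
      exact hθ1
    · simp only [τ, h, if_false]
      exact le_refl _
  have hWt : (W true true).trace.re = p := by
    simp only [W, hsumtt, eve_sum_right, trace_sum, Complex.re_sum]
    exact hp.symm
  have hWsum : ∑ f, ∑ g, (W f g).trace.re = 1 := by
    have h := sum_om Ψ EA FB hEA1 hFB1
    have h2 := congrArg (fun M => (Matrix.trace M).re) h
    simp only [trace_eve_one, hΨ, Complex.one_re] at h2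
    simp only [trace_sum, Complex.re_sum] at h2
    simp only [W, trace_sum, Complex.re_sum]
    exact h2
  have hBn : ∀ f g, ¬ (f = true ∧ g = true) →
      (τ f g)⁻¹ * ∑ y, (∑ x, √((om Ψ EA FB f g x y).trace.re)) ^ 2 = (W f g).trace.re := by
    intro f g h
    have h1 : τ f g = 1 := by simp only [τ, h, if_false]
    rw [h1, inv_one, one_mul, hWn f g h, trace_sum, Complex.re_sum]
    refine Finset.sum_congr rfl fun y _ => ?_
    rw [Fintype.sum_bool, om_true Ψ EA FB h]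
    simp only [trace_zero, Complex.zero_re, Real.sqrt_zero, zero_add]
    exact Real.sq_sqrt (re_trace_nonneg (hpos _ _ _ _))
  have hBt : (τ true true)⁻¹ * ∑ y, (∑ x, √((om Ψ EA FB true true x y).trace.re)) ^ 2 =
      θ⁻¹ * Bh := by
    have h1 : τ true true = θ := by simp only [τ, and_self, if_true]
    rw [h1, hB, Fintype.sum_option]
    congr 1
    simp only [om_tt_none, om_tt_some, trace_zero, Complex.zero_re, Real.sqrt_zero,
      Finset.sum_const_zero]
    simp only [ne_eq, OfNat.ofNat_ne_zero, not_false_eq_true, zero_pow, Fintype.univ_bool, Finset.mem_singleton, Bool.true_eq_false, Finset.sum_insert, Finset.sum_singleton, zero_add]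
  have hVn : ∀ f g, ¬ (f = true ∧ g = true) →
      √(τ f g * (((PP f g * PP f g) * (PP f g * PP f g)).trace.re *
        ∑ x, ((DD f g x)ᴴ * DD f g x).trace.re)) = (W f g).trace.re := by
    intro f g h
    have h1 : τ f g = 1 := by simp only [τ, h, if_false]
    have h2 : PP f g = Q f g := by simp only [PP, h, if_false]
    have h3 : DD f g true = 0 := by simp only [DD, h, if_false, if_true]
    have h4 : DD f g false = Q f g * Q f g := by simp [DD, h]
    rw [h1, h2, Fintype.sum_bool, h3, h4, hQ4, conjTranspose_mul, (hQ f g).isHermitian.eq, hQ4]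
    simp only [mul_zero, trace_zero, Complex.zero_re, zero_add, one_mul]
    exact Real.sqrt_mul_self (re_trace_nonneg (hW f g))
  have hVt : √(τ true true * (((PP true true * PP true true) *
      (PP true true * PP true true)).trace.re *
        ∑ x, ((DD true true x)ᴴ * DD true true x).trace.re)) = √(θ * V2) := by
    have h1 : τ true true = θ := by simp only [τ, and_self, if_true]
    have h2 : PP true true = P := by simp only [PP, and_self, if_true]
    have h3 : ∀ x, DD true true x = D x := fun x => by simp only [DD, and_self, if_true]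
    simp only [h1, h2, h3, hV]
  simp only [Fintype.sum_bool, hWt] at hWsum
  have hft : ¬ (true = true ∧ false = true) := by simp
  have htf : ¬ (false = true ∧ true = true) := by simp
  have hff : ¬ (false = true ∧ false = true) := by simp
  have n1 := re_trace_nonneg (hW true false)
  have n2 := re_trace_nonneg (hW false true)
  have n3 := re_trace_nonneg (hW false false)
  have hθ0 : 0 < θ := by linarith only [hθ1]
  have hBθ : θ⁻¹ * Bh < p := by
    rw [inv_mul_lt_iff₀ hθ0]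
    exact hθB
  have hVθ : √(θ * V2) < p := by
    rw [Real.sqrt_lt' hpp]
    exact hθV
  have e4 : ∀ F : Bool → Bool → ℝ, ∑ f, ∑ g, F f g =
      F true true + F true false + (F false true + F false false) := by
    intro F
    simp only [Fintype.sum_bool]
  refine kd_pos_of_rate Ψ (q₁ := ∑ f, ∑ g, (τ f g)⁻¹ *
      ∑ y, (∑ x, √((om Ψ EA FB f g x y).trace.re)) ^ 2)
    (q₂ := ∑ f, ∑ g, √(τ f g * (((PP f g * PP f g) * (PP f g * PP f g)).trace.re *
        ∑ x, ((DD f g x)ᴴ * DD f g x).trace.re))) ?_ ?_ ?_ ?_ ?_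
  · refine Finset.sum_nonneg fun f _ => Finset.sum_nonneg fun g _ => ?_
    have := hτ f g
    (clear * - hθ1; (clear * - hθ1; positivity))
  · rw [e4]
    rw [hBt, hBn true false hft, hBn false true htf, hBn false false hff]
    linarith only [hWsum, hBθ]
  · exact Finset.sum_nonneg fun f _ => Finset.sum_nonneg fun g _ => Real.sqrt_nonneg _
  · rw [e4]
    rw [hVt, hVn true false hft, hVn false true htf, hVn false false hff]
    linarith only [hWsum, hVθ]
  · intro N ℓ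
    exact block_error N Ψ hΨ EA hEA hEA1 FB hFB hFB1 Option.isSome Option.isSome
      (fun a g => a.getD false && g) PP hPP DD hDD τ hτ

end Vale.Agent.P372
end
end
end

section

section

section

open Matrix Filter Topology
open scoped ComplexOrder MatrixOrder

set_option linter.unusedSectionVars false

namespace Vale.Agent.P372

section tn

variable {E F : Type} [Fintype E] [DecidableEq E] [Fintype F] [DecidableEq F]

theorem Contr.coiso {W : Matrix E E ℂ} (hW : Contr W) {T : Matrix F E ℂ} (hT : T * Tᴴ = 1) :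
    Contr (T * W * Tᴴ) := by
  have hproj : (1 - Tᴴ * T).PosSemidef := by
    have h1 : 1 - Tᴴ * T = (1 - Tᴴ * T)ᴴ * (1 - Tᴴ * T) := by
      rw [conjTranspose_sub, conjTranspose_one, conjTranspose_mul, conjTranspose_conjTranspose]
      have h2 : Tᴴ * T * (Tᴴ * T) = Tᴴ * T := by
        calc Tᴴ * T * (Tᴴ * T) = Tᴴ * (T * Tᴴ) * T := by simp only [Matrix.mul_assoc]
          _ = Tᴴ * T := by rw [hT, Matrix.mul_one]
      rw [Matrix.sub_mul, Matrix.mul_sub, Matrix.mul_sub, h2]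
      simp
    rw [h1]
    exact posSemidef_conjTranspose_mul_self _
  have key : ∀ V : Matrix E E ℂ, (1 - V * Vᴴ).PosSemidef →
      (1 - (T * V * Tᴴ) * (T * V * Tᴴ)ᴴ).PosSemidef := by
    intro V hV
    have h1 : 1 - (T * V * Tᴴ) * (T * V * Tᴴ)ᴴ =
        T * (1 - V * Vᴴ) * Tᴴ + (T * V) * (1 - Tᴴ * T) * (T * V)ᴴ := by
      rw [conjTranspose_mul, conjTranspose_conjTranspose, conjTranspose_mul]
      rw [Matrix.mul_sub, Matrix.mul_sub, Matrix.sub_mul, Matrix.sub_mul, Matrix.mul_one,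
        Matrix.mul_one, hT]
      simp only [Matrix.mul_assoc]
      abel
    rw [h1]
    exact (hV.mul_mul_conjTranspose_same T).add (hproj.mul_mul_conjTranspose_same (T * V))
  refine ⟨key W hW.1, ?_⟩
  have h2 := key Wᴴ (by rw [conjTranspose_conjTranspose]; exact hW.2)
  have h3 : (T * W * Tᴴ)ᴴ * (T * W * Tᴴ) = (T * Wᴴ * Tᴴ) * (T * Wᴴ * Tᴴ)ᴴ := by
    simp only [conjTranspose_mul, conjTranspose_conjTranspose, Matrix.mul_assoc]
  rw [h3]
  exact h2

/-- the trace norm of a tensor product with a positive matrix -/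
theorem traceNorm_tensor_le {E₁ E₂ : Type} [Fintype E₁] [DecidableEq E₁] [Fintype E₂]
    [DecidableEq E₂] (e : E ≃ E₁ × E₂) (X : Matrix E₁ E₁ ℂ) {R : Matrix E₂ E₂ ℂ}
    (hR : R.PosSemidef) :
    traceNorm (Matrix.of fun x y => X (e x).1 (e y).1 * R (e x).2 (e y).2 : Matrix E E ℂ) ≤
      traceNorm X * R.trace.re := by
  obtain ⟨C, rfl⟩ := exists_eq_conjTranspose_mul_self hR
  refine traceNorm_le_of_forall fun W hW => ?_
  let J : E₂ → Matrix E₁ E ℂ := fun k => Matrix.of fun a x => if (e x).1 = a then C k (e x).2 else 0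
  have hJa : ∀ k a x, J k a x = if (e x).1 = a then C k (e x).2 else 0 := fun _ _ _ => rfl
  have hJ : ∀ k, J k * (J k)ᴴ = ((∑ z, ‖C k z‖ ^ 2 : ℝ) : ℂ) • 1 := by
    intro k
    ext a b
    rw [Matrix.mul_apply, Matrix.smul_apply]
    simp only [conjTranspose_apply, hJa]
    rw [Fintype.sum_equiv e _ (fun p : E₁ × E₂ => (if p.1 = a then C k p.2 else 0) *
      star (if p.1 = b then C k p.2 else 0)) (fun x => rfl), Fintype.sum_prod_type]
    rw [Finset.sum_eq_single a]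
    · by_cases hab : a = b
      · subst hab
        simp only [if_true, Matrix.one_apply_eq, smul_eq_mul, mul_one]
        push_cast
        refine Finset.sum_congr rfl fun z _ => ?_
        rw [RCLike.star_def, Complex.mul_conj']
      · simp only [↓reduceIte, hab, star_zero, mul_zero, Finset.sum_const_zero, Complex.ofReal_sum, Complex.ofReal_pow, ne_eq, not_false_eq_true, one_apply_ne, smul_eq_mul]
    · intro c _ hc
      simp only [hc, ↓reduceIte, RCLike.star_def, zero_mul, Finset.sum_const_zero]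
    · simp only [Finset.mem_univ, not_true_eq_false, ↓reduceIte, RCLike.star_def, IsEmpty.forall_iff]
  have hY : (Matrix.of fun x y => X (e x).1 (e y).1 * (Cᴴ * C) (e x).2 (e y).2 : Matrix E E ℂ) =
      ∑ k, (J k)ᴴ * X * J k := by
    ext x y
    rw [Matrix.sum_apply]
    change X (e x).1 (e y).1 * (Cᴴ * C) (e x).2 (e y).2 = _
    rw [Matrix.mul_apply, Finset.mul_sum]
    refine Finset.sum_congr rfl fun k _ => ?_
    rw [Matrix.mul_apply, Finset.sum_eq_single (e y).1]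
    · rw [Matrix.mul_apply, Finset.sum_eq_single (e x).1]
      · simp only [conjTranspose_apply, hJa, if_true]
        ring
      · intro c _ hc
        simp only [conjTranspose_apply, hJa, hc.symm, ↓reduceIte, star_zero, zero_mul]
      · simp only [Finset.mem_univ, not_true_eq_false, conjTranspose_apply, RCLike.star_def, mul_eq_zero, map_eq_zero, IsEmpty.forall_iff]
    · intro c _ hc
      simp [hJa, hc.symm]
    · simp only [Finset.mem_univ, not_true_eq_false, mul_eq_zero, IsEmpty.forall_iff]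
  have hone : ∀ k, ‖(J k * W * (J k)ᴴ * X).trace‖ ≤ (∑ z, ‖C k z‖ ^ 2) * traceNorm X := by
    intro k
    have hc0 : 0 ≤ ∑ z, ‖C k z‖ ^ 2 := Finset.sum_nonneg fun z _ => sq_nonneg _
    rcases hc0.eq_or_lt with hc | hc
    · have hC : ∀ z, C k z = 0 := by
        intro z
        have := (Finset.sum_eq_zero_iff_of_nonneg (fun z _ => sq_nonneg ‖C k z‖)).mp hc.symm z
          (Finset.mem_univ _)
        simpa using this
      have hJ0 : J k = 0 := by
        ext a x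
        simp [hJa, hC]
      rw [hJ0, ← hc]
      simp only [Matrix.zero_mul, conjTranspose_zero, Matrix.mul_zero, zero_mul, trace_zero, norm_zero, Std.le_refl]
    · set c : ℝ := ∑ z, ‖C k z‖ ^ 2 with hcdef
      let T : Matrix E₁ E ℂ := (((√c)⁻¹ : ℝ) : ℂ) • J k
      have hsc : (√c)⁻¹ * (√c)⁻¹ = c⁻¹ := by
        rw [← mul_inv, Real.mul_self_sqrt hc.le]
      have hTT : T * Tᴴ = 1 := by
        simp only [conjTranspose_smul, RCLike.star_def, Complex.conj_ofReal, Matrix.mul_smul, smul_mul, hJ, smul_smul, T]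
        rw [← Complex.ofReal_mul, ← Complex.ofReal_mul, ← mul_assoc, hsc,
          inv_mul_cancel₀ hc.ne', Complex.ofReal_one, one_smul]
      have h1 := norm_trace_mul_le (hW.coiso hTT) X
      have h2 : T * W * Tᴴ = ((c⁻¹ : ℝ) : ℂ) • (J k * W * (J k)ᴴ) := by
        simp only [T, conjTranspose_smul, Matrix.smul_mul, Matrix.mul_smul, smul_smul,
          RCLike.star_def, Complex.conj_ofReal]
        rw [← Complex.ofReal_mul, hsc]
      rw [h2, Matrix.smul_mul, trace_smul, norm_smul, Complex.norm_real,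
        Real.norm_of_nonneg (inv_nonneg.mpr hc.le), inv_mul_le_iff₀ hc] at h1
      exact h1
  have htr : (W * ∑ k, (J k)ᴴ * X * J k).trace = ∑ k, (J k * W * (J k)ᴴ * X).trace := by
    rw [Matrix.mul_sum, trace_sum]
    refine Finset.sum_congr rfl fun k _ => ?_
    rw [trace_mul_comm, Matrix.mul_assoc, trace_mul_comm]
    simp only [Matrix.mul_assoc]
  rw [hY, htr]
  refine (norm_sum_le _ _).trans ((Finset.sum_le_sum fun k _ => hone k).trans (le_of_eq ?_))
  rw [← Finset.sum_mul, mul_comm]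
  congr 1
  have h3 : (Cᴴ * C).trace = ((∑ k, ∑ z, ‖C k z‖ ^ 2 : ℝ) : ℂ) := by
    simp only [Matrix.trace, Matrix.diag, Matrix.mul_apply, conjTranspose_apply]
    rw [Finset.sum_comm]
    push_cast
    refine Finset.sum_congr rfl fun k _ => Finset.sum_congr rfl fun z _ => ?_
    rw [RCLike.star_def, Complex.conj_mul']
  rw [h3, Complex.ofReal_re]

end tn

section lift

variable {A B E A₁ B₁ E₁ A₂ B₂ E₂ : Type} [Fintype A] [DecidableEq A] [Fintype B] [DecidableEq B]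
  [Fintype E] [DecidableEq E] [Fintype A₁] [DecidableEq A₁] [Fintype B₁] [DecidableEq B₁]
  [Fintype E₁] [DecidableEq E₁] [Fintype A₂] [DecidableEq A₂] [Fintype B₂] [DecidableEq B₂]
  [Fintype E₂] [DecidableEq E₂]

/-- Kraus operators of the partial trace over the second tensor factor. -/
def ptr (e : A ≃ A₁ × A₂) (r : A₂) : Matrix A₁ A ℂ :=
  Matrix.of fun a x => if e x = (a, r) then 1 else 0

theorem ptr_apply (e : A ≃ A₁ × A₂) (r : A₂) (a : A₁) (x : A) :
    ptr e r a x = if e x = (a, r) then 1 else 0 := rfl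

theorem ptr_conj (e : A ≃ A₁ × A₂) (M : Matrix A₁ A₁ ℂ) :
    ∑ r, (ptr e r)ᴴ * M * ptr e r =
      Matrix.of fun x y => if (e x).2 = (e y).2 then M (e x).1 (e y).1 else 0 := by
  ext x y
  rw [Matrix.sum_apply]
  change _ = if (e x).2 = (e y).2 then M (e x).1 (e y).1 else 0
  have h1 : ∀ r, ((ptr e r)ᴴ * M * ptr e r) x y =
      if (e x).2 = r ∧ (e y).2 = r then M (e x).1 (e y).1 else 0 := by
    intro r
    rw [Matrix.mul_apply, Finset.sum_eq_single (e y).1]
    · rw [Matrix.mul_apply, Finset.sum_eq_single (e x).1]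
      · simp only [conjTranspose_apply, ptr_apply, Prod.ext_iff, true_and]
        by_cases h2 : (e x).2 = r <;> by_cases h3 : (e y).2 = r <;> simp [h2, h3]
      · intro c _ hc
        simp [ptr_apply, Prod.ext_iff, hc.symm]
      · simp only [Finset.mem_univ, not_true_eq_false, conjTranspose_apply, RCLike.star_def, mul_eq_zero, map_eq_zero, IsEmpty.forall_iff]
    · intro c _ hc
      simp only [ptr_apply, Prod.ext_iff, hc.symm, false_and, ↓reduceIte, mul_zero]
    · simp only [Finset.mem_univ, not_true_eq_false, mul_eq_zero, IsEmpty.forall_iff]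
  simp only [h1]
  by_cases h : (e x).2 = (e y).2
  · simp only [h, and_self, Finset.sum_ite_eq, Finset.mem_univ, ↓reduceIte]
  · rw [if_neg h]
    refine Finset.sum_eq_zero fun r _ => if_neg ?_
    rintro ⟨h2, h3⟩
    exact h (h2.trans h3.symm)

theorem ptr_one (e : A ≃ A₁ × A₂) : ∑ r, (ptr e r)ᴴ * ptr e r = 1 := by
  have h := ptr_conj e (1 : Matrix A₁ A₁ ℂ)
  simp only [Matrix.mul_one] at h
  rw [h]
  ext x y
  change (if (e x).2 = (e y).2 then (1 : Matrix A₁ A₁ ℂ) (e x).1 (e y).1 else 0) = _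
  rw [Matrix.one_apply, Matrix.one_apply]
  by_cases hxy : x = y
  · simp [hxy]
  · rw [if_neg hxy]
    have : ¬ ((e x).1 = (e y).1 ∧ (e x).2 = (e y).2) := fun h => hxy (e.injective (Prod.ext h.1 h.2))
    by_cases h2 : (e x).2 = (e y).2 <;> by_cases h1 : (e x).1 = (e y).1 <;> simp_all

theorem eve_apply' (Ψ : Matrix (A × B) E ℂ) (M : Matrix A A ℂ) (N : Matrix B B ℂ) (x y : E) :
    eve Ψ M N x y =
      ∑ p : A × B, ∑ q : A × B, M q.1 p.1 * N q.2 p.2 * (Ψ p x * star (Ψ q y)) := rfl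

/-- Eve's operator for lifted effects. -/
theorem eve_lift (eA : A ≃ A₁ × A₂) (eB : B ≃ B₁ × B₂) (eE : E ≃ E₁ × E₂)
    (Ψ : Matrix (A × B) E ℂ) (Ψ₁ : Matrix (A₁ × B₁) E₁ ℂ) (Ψ₂ : Matrix (A₂ × B₂) E₂ ℂ)
    (hΨ : ∀ a b x, Ψ (a, b) x = Ψ₁ ((eA a).1, (eB b).1) (eE x).1 * Ψ₂ ((eA a).2, (eB b).2) (eE x).2)
    (M : Matrix A₁ A₁ ℂ) (N : Matrix B₁ B₁ ℂ) (x y : E) :
    eve Ψ (∑ r, (ptr eA r)ᴴ * M * ptr eA r) (∑ r, (ptr eB r)ᴴ * N * ptr eB r) x y =
      eve Ψ₁ M N (eE x).1 (eE y).1 * eve Ψ₂ 1 1 (eE x).2 (eE y).2 := by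
  rw [ptr_conj, ptr_conj, eve_apply', eve_apply', eve_apply']
  let eAB : A × B ≃ (A₁ × B₁) × (A₂ × B₂) :=
    (Equiv.prodCongr eA eB).trans (Equiv.prodProdProdComm A₁ A₂ B₁ B₂)
  rw [Fintype.sum_equiv eAB _ (fun p : (A₁ × B₁) × (A₂ × B₂) =>
    ∑ q : (A₁ × B₁) × (A₂ × B₂), (if q.2.1 = p.2.1 then M q.1.1 p.1.1 else 0) *
      (if q.2.2 = p.2.2 then N q.1.2 p.1.2 else 0) *
      ((Ψ₁ p.1 (eE x).1 * Ψ₂ p.2 (eE x).2) * star (Ψ₁ q.1 (eE y).1 * Ψ₂ q.2 (eE y).2)))]
  · rw [Fintype.sum_prod_type, Finset.sum_mul]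
    refine Finset.sum_congr rfl fun p₁ _ => ?_
    rw [Finset.sum_mul]
    have h1 : ∀ p₂ : A₂ × B₂, ∑ q : (A₁ × B₁) × (A₂ × B₂),
        (if q.2.1 = p₂.1 then M q.1.1 p₁.1 else 0) *
        (if q.2.2 = p₂.2 then N q.1.2 p₁.2 else 0) *
        ((Ψ₁ p₁ (eE x).1 * Ψ₂ p₂ (eE x).2) * star (Ψ₁ q.1 (eE y).1 * Ψ₂ q.2 (eE y).2)) =
        ∑ q₁ : A₁ × B₁, ∑ q₂ : A₂ × B₂, (M q₁.1 p₁.1 * N q₁.2 p₁.2 *
          (Ψ₁ p₁ (eE x).1 * star (Ψ₁ q₁ (eE y).1))) *
          ((1 : Matrix A₂ A₂ ℂ) q₂.1 p₂.1 * (1 : Matrix B₂ B₂ ℂ) q₂.2 p₂.2 *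
          (Ψ₂ p₂ (eE x).2 * star (Ψ₂ q₂ (eE y).2))) := by
      intro p₂
      rw [Fintype.sum_prod_type]
      refine Finset.sum_congr rfl fun q₁ _ => Finset.sum_congr rfl fun q₂ _ => ?_
      rw [Matrix.one_apply, Matrix.one_apply, star_mul']
      by_cases h2 : q₂.1 = p₂.1 <;> by_cases h3 : q₂.2 = p₂.2 <;> simp [h2, h3]
      ring
    simp only [h1]
    rw [Finset.sum_comm]
    refine Finset.sum_congr rfl fun q₁ _ => ?_
    rw [Finset.mul_sum]
    refine Finset.sum_congr rfl fun p₂ _ => ?_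
    rw [Finset.mul_sum]
  · intro p
    obtain ⟨a, b⟩ := p
    refine Fintype.sum_equiv eAB _ _ fun q => ?_
    obtain ⟨a', b'⟩ := q
    rw [hΨ, hΨ]
    rfl

/-- The protocol on the first tensor factor. -/
def liftProto {K : Type} (eA : A ≃ A₁ × A₂) (eB : B ≃ B₁ × B₂) (π : Protocol K A₁ B₁) :
    Protocol K A B :=
  .alice A₁ Unit A₂ inferInstance inferInstance inferInstance (fun _ r => ptr eA r) fun _ =>
    .bob B₁ Unit B₂ inferInstance inferInstance inferInstance (fun _ r => ptr eB r) fun _ => π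

theorem liftProto_valid {K : Type} [Fintype K] (eA : A ≃ A₁ × A₂) (eB : B ≃ B₁ × B₂)
    {π : Protocol K A₁ B₁} (hπ : π.Valid) : (liftProto eA eB π).Valid := by
  refine ⟨?_, fun _ => ⟨?_, fun _ => hπ⟩⟩
  · rw [Fintype.sum_unique, ptr_one]
    exact one_congr _ _
  · rw [Fintype.sum_unique, ptr_one]
    exact one_congr _ _

/-- The transcripts of the lifted protocol. -/
def liftEquiv {K : Type} (eA : A ≃ A₁ × A₂) (eB : B ≃ B₁ × B₂) (π : Protocol K A₁ B₁) :
    (liftProto eA eB π).Transcript ≃ π.Transcript where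
  toFun t := t.2.2
  invFun t := ⟨(), (), t⟩
  left_inv _ := rfl
  right_inv _ := rfl

theorem liftProto_errorLE {K : Type} [Fintype K] [DecidableEq K] (eA : A ≃ A₁ × A₂)
    (eB : B ≃ B₁ × B₂) (eE : E ≃ E₁ × E₂)
    (Ψ : Matrix (A × B) E ℂ) (Ψ₁ : Matrix (A₁ × B₁) E₁ ℂ) (Ψ₂ : Matrix (A₂ × B₂) E₂ ℂ)
    (hΨ : ∀ a b x, Ψ (a, b) x = Ψ₁ ((eA a).1, (eB b).1) (eE x).1 * Ψ₂ ((eA a).2, (eB b).2) (eE x).2)
    (hΨ₂ : (Ψ₂ * Ψ₂ᴴ).trace = 1) {π : Protocol K A₁ B₁} {ε : ℝ} (hπ : π.ErrorLE Ψ₁ ε) :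
    (liftProto eA eB π).ErrorLE Ψ ε := by
  obtain ⟨σ, h1, h2, h3⟩ := hπ
  have hR : (eve Ψ₂ 1 1).PosSemidef := eve_posSemidef Ψ₂ PosSemidef.one PosSemidef.one
  have hRt : (eve Ψ₂ 1 1).trace = 1 := by rw [trace_eve_one, hΨ₂]
  have htr : ∀ X : Matrix E₁ E₁ ℂ, (Matrix.of fun x y => X (eE x).1 (eE y).1 *
      (eve Ψ₂ 1 1) (eE x).2 (eE y).2 : Matrix E E ℂ).trace = X.trace := by
    intro X
    change ∑ x, X (eE x).1 (eE x).1 * (eve Ψ₂ 1 1) (eE x).2 (eE x).2 = _
    rw [Fintype.sum_equiv eE _ (fun p : E₁ × E₂ => X p.1 p.1 * (eve Ψ₂ 1 1) p.2 p.2)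
      (fun x => rfl), Fintype.sum_prod_type]
    have h4 : ∀ u, ∑ v, X u u * (eve Ψ₂ 1 1) v v = X u u := by
      intro u
      rw [← Finset.mul_sum]
      have : ∑ v, (eve Ψ₂ 1 1) v v = 1 := hRt
      rw [this, mul_one]
    simp only [h4]
    rfl
  refine ⟨fun t => Matrix.of fun x y => σ (liftEquiv eA eB π t) (eE x).1 (eE y).1 *
      (eve Ψ₂ 1 1) (eE x).2 (eE y).2, ?_, ?_, ?_⟩
  · intro t
    have h4 : (Matrix.of fun x y => σ (liftEquiv eA eB π t) (eE x).1 (eE y).1 *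
      (eve Ψ₂ 1 1) (eE x).2 (eE y).2 : Matrix E E ℂ) =
      (kroneckerMap (fun a b => a * b) (σ (liftEquiv eA eB π t)) (eve Ψ₂ 1 1)).submatrix eE eE := by
      ext x y
      rfl
    have h5 := ((h1 (liftEquiv eA eB π t)).kronecker hR).submatrix eE
    rw [← h4] at h5
    exact h5
  · rw [Fintype.sum_equiv (liftEquiv eA eB π) _ (fun t => (σ t).trace) (fun t => htr _)]
    exact h2
  · refine le_trans ?_ h3
    rw [Fintype.sum_equiv (liftEquiv eA eB π) _ (fun t => ∑ k, ∑ l, traceNorm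
      (Matrix.of fun x y => (eve Ψ₁ (π.effA t k) (π.effB t l) -
      if k = l then ((Fintype.card K : ℂ)⁻¹) • σ t else 0) (eE x).1 (eE y).1 *
      (eve Ψ₂ 1 1) (eE x).2 (eE y).2 : Matrix E E ℂ)) ?_]
    · refine Finset.sum_le_sum fun t _ => Finset.sum_le_sum fun k _ =>
        Finset.sum_le_sum fun l _ => ?_
      refine (traceNorm_tensor_le eE _ hR).trans (le_of_eq ?_)
      rw [hRt, Complex.one_re, mul_one]
    · intro t
      refine Finset.sum_congr rfl fun k _ => Finset.sum_congr rfl fun l _ => ?_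
      congr 1
      ext x y
      change eve Ψ (∑ r, (ptr eA r)ᴴ * π.effA t.2.2 k * ptr eA r)
        (∑ r, (ptr eB r)ᴴ * π.effB t.2.2 l * ptr eB r) x y -
        (if k = l then ((Fintype.card K : ℂ)⁻¹) • (Matrix.of fun x y =>
          σ t.2.2 (eE x).1 (eE y).1 * (eve Ψ₂ 1 1) (eE x).2 (eE y).2 : Matrix E E ℂ) else 0) x y =
        (eve Ψ₁ (π.effA t.2.2 k) (π.effB t.2.2 l) -
        if k = l then ((Fintype.card K : ℂ)⁻¹) • σ t.2.2 else 0) (eE x).1 (eE y).1 *
        (eve Ψ₂ 1 1) (eE x).2 (eE y).2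
      rw [eve_lift eA eB eE Ψ Ψ₁ Ψ₂ hΨ, Matrix.sub_apply, sub_mul]
      congr 1
      by_cases h : k = l
      · rw [if_pos h, if_pos h, Matrix.smul_apply, Matrix.smul_apply]
        change (Fintype.card K : ℂ)⁻¹ * (_ * _) = ((Fintype.card K : ℂ)⁻¹ * _) * _
        rw [mul_assoc]
      · rw [if_neg h, if_neg h]
        simp

end lift

section group

/-- Grouping of the copies. -/
def groupEquiv (X : Type) {n N m t : ℕ} (e : Fin n ≃ (Fin N × Fin m) ⊕ Fin t) :
    (Fin n → X) ≃ (Fin N → Fin m → X) × (Fin t → X) where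
  toFun x := (fun i j => x (e.symm (Sum.inl (i, j))), fun k => x (e.symm (Sum.inr k)))
  invFun p := fun i => Sum.elim (fun q => p.1 q.1 q.2) p.2 (e i)
  left_inv x := by
    funext i
    change Sum.elim (fun q : Fin N × Fin m => x (e.symm (Sum.inl (q.1, q.2))))
      (fun k => x (e.symm (Sum.inr k))) (e i) = x i
    obtain ⟨j, rfl⟩ := e.symm.surjective i
    rw [Equiv.apply_symm_apply]
    rcases j with q | k <;> rfl
  right_inv p := by
    refine Prod.ext ?_ ?_
    · funext i j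
      change Sum.elim (fun q => p.1 q.1 q.2) p.2 (e (e.symm (Sum.inl (i, j)))) = p.1 i j
      rw [Equiv.apply_symm_apply]
      rfl
    · funext k
      change Sum.elim (fun q => p.1 q.1 q.2) p.2 (e (e.symm (Sum.inr k))) = p.2 k
      rw [Equiv.apply_symm_apply]
      rfl

variable {A B E : Type} [Fintype A] [DecidableEq A] [Fintype B] [DecidableEq B]
  [Fintype E] [DecidableEq E]

theorem copies_group {n N m t : ℕ} (e : Fin n ≃ (Fin N × Fin m) ⊕ Fin t)
    (Ψ : Matrix (A × B) E ℂ) (a : Fin n → A) (b : Fin n → B) (x : Fin n → E) :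
    copies n Ψ (a, b) x =
      copies N (copies m Ψ) ((groupEquiv A e a).1, (groupEquiv B e b).1) (groupEquiv E e x).1 *
      copies t Ψ ((groupEquiv A e a).2, (groupEquiv B e b).2) (groupEquiv E e x).2 := by
  change ∏ i, Ψ (a i, b i) (x i) = (∏ i : Fin N, ∏ j : Fin m,
    Ψ (a (e.symm (Sum.inl (i, j))), b (e.symm (Sum.inl (i, j)))) (x (e.symm (Sum.inl (i, j))))) *
    ∏ k : Fin t, Ψ (a (e.symm (Sum.inr k)), b (e.symm (Sum.inr k))) (x (e.symm (Sum.inr k)))
  rw [← Equiv.prod_comp e.symm, Fintype.prod_sum_type, Fintype.prod_prod_type]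

theorem group_proto {K : Type} [Fintype K] [DecidableEq K] {n N m t : ℕ}
    (e : Fin n ≃ (Fin N × Fin m) ⊕ Fin t) (Ψ : Matrix (A × B) E ℂ) (hΨ : (Ψ * Ψᴴ).trace = 1)
    {ε : ℝ} {π : Protocol K (Fin N → Fin m → A) (Fin N → Fin m → B)} (hπ : π.Valid)
    (hε : π.ErrorLE (copies N (copies m Ψ)) ε) :
    ∃ π' : Protocol K (Fin n → A) (Fin n → B), π'.Valid ∧ π'.ErrorLE (copies n Ψ) ε :=
  ⟨liftProto (groupEquiv A e) (groupEquiv B e) π, liftProto_valid _ _ hπ,
    liftProto_errorLE (groupEquiv A e) (groupEquiv B e) (groupEquiv E e) (copies n Ψ)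
      (copies N (copies m Ψ)) (copies t Ψ) (copies_group e Ψ) (trace_copies t Ψ hΨ) hε⟩

theorem exists_fin_equiv (n m : ℕ) : Nonempty (Fin n ≃ (Fin (n / m) × Fin m) ⊕ Fin (n % m)) :=
  ⟨(finCongr (Nat.div_add_mod' n m).symm).trans
    (finSumFinEquiv.symm.trans (Equiv.sumCongr finProdFinEquiv.symm (Equiv.refl _)))⟩

/-- If key can be distilled from `m` copies used as one, then it can be distilled. -/
theorem KD_pos_of_copies {m : ℕ} (hm : 0 < m) (Ψ : Matrix (A × B) E ℂ)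
    (hΨ : (Ψ * Ψᴴ).trace = 1) (h : 0 < KD (copies m Ψ)) : 0 < KD Ψ := by
  obtain ⟨R, ⟨ℓ, π, ε, hπ, hε, hlim, hR⟩, hR0⟩ := lt_sSup_iff.mp h
  choose π' hπ' hε' using fun n => group_proto (exists_fin_equiv n m).some Ψ hΨ (hπ (n / m))
    (hε (n / m))
  have hdiv : Tendsto (fun n : ℕ => n / m) atTop atTop := by
    refine tendsto_atTop.mpr fun b => ?_
    filter_upwards [eventually_ge_atTop (b * m)] with n hn
    exact (Nat.le_div_iff_mul_le hm).mpr hn
  obtain ⟨r, hr0, hrR⟩ : ∃ r : ℝ, 0 < r ∧ ((r : ℝ) : EReal) < R := by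
    obtain ⟨r, h1, h2⟩ := EReal.lt_iff_exists_real_btwn.mp hR0
    exact ⟨r, by exact_mod_cast h1, h2⟩
  have hev : ∀ᶠ N : ℕ in atTop, ((r : ℝ) : EReal) < (((ℓ N : ℝ) / (N : ℝ) : ℝ) : EReal) := by
    rw [hR] at hrR
    exact eventually_lt_of_lt_liminf hrR (by isBoundedDefault)
  have hm' : (0 : ℝ) < m := by exact_mod_cast hm
  have hrate : ((r / (2 * m) : ℝ) : EReal) ≤
      liminf (fun n : ℕ => (((ℓ (n / m) : ℝ) / (n : ℝ) : ℝ) : EReal)) atTop := by
    refine le_liminf_of_le (by isBoundedDefault) ?_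
    filter_upwards [eventually_ge_atTop m, hdiv.eventually hev] with n hn hn2
    rw [EReal.coe_lt_coe_iff] at hn2
    rw [EReal.coe_le_coe_iff]
    have hN1 : 1 ≤ n / m := (Nat.one_le_div_iff hm).mpr hn
    have hN : (0 : ℝ) < ((n / m : ℕ) : ℝ) := by exact_mod_cast hN1
    have hn' : (0 : ℝ) < n := by exact_mod_cast lt_of_lt_of_le hm hn
    have h1 : r * ((n / m : ℕ) : ℝ) < ℓ (n / m) := by
      rwa [lt_div_iff₀ hN] at hn2
    have h7 : (n : ℝ) ≤ ((n / m : ℕ) : ℝ) * (2 * m) := by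
      have h3 : n < 2 * m * (n / m) + 1 := by
        have h4 := Nat.div_add_mod n m
        have h5 := Nat.mod_lt n hm
        nlinarith only [h4, h5, hN1]
      have h8 : n ≤ (n / m) * (2 * m) := by
        have : 2 * m * (n / m) = (n / m) * (2 * m) := by ring
        omega
      exact_mod_cast h8
    rw [div_le_div_iff₀ (by positivity) hn']
    nlinarith only [h1, hr0, h7]
  refine lt_of_lt_of_le ?_ (le_trans hrate (le_sSup ⟨fun n => ℓ (n / m), π', fun n => ε (n / m),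
    hπ', hε', hlim.comp hdiv, rfl⟩))
  have : (0 : ℝ) < r / (2 * m) := by (clear * - hr0 hm; positivity)
  exact_mod_cast this

end group

end Vale.Agent.P372
end
end
end

section

section

section

open Matrix
open scoped ComplexOrder MatrixOrder

set_option linter.unusedSectionVars false

namespace Vale.Agent.P372

variable {E G : Type} [Fintype E] [DecidableEq E] [Fintype G] [DecidableEq G]

theorem re_trace_mul_nonneg {X Y : Matrix E E ℂ} (hX : X.PosSemidef) (hY : Y.PosSemidef) :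
    0 ≤ (X * Y).trace.re := by
  obtain ⟨C, rfl⟩ := exists_eq_conjTranspose_mul_self hX
  have : (Cᴴ * C * Y).trace = (C * Y * Cᴴ).trace := by
    rw [Matrix.mul_assoc, trace_mul_comm]
  rw [this]
  exact re_trace_nonneg (hY.mul_mul_conjTranspose_same C)

theorem exists_abs {T : Matrix E E ℂ} (hT : T.IsHermitian) :
    ∃ P V : Matrix E E ℂ, Contr P ∧ T * P = V ∧ P * T = V ∧ (V - T).PosSemidef ∧
      (V + T).PosSemidef := by
  have h0 : fcalc hT (fun _ => 0) = 0 := by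
    have := fcalc_sub hT (fun x => x) (fun x => x)
    rw [fcalc_id, sub_self] at this
    rw [this]
    congr 1
    funext x
    ring
  have hP : (fcalc hT Real.sign).IsHermitian := fcalc_isHermitian hT _
  have hPP : (1 - fcalc hT Real.sign * fcalc hT Real.sign).PosSemidef := by
    rw [fcalc_mul, ← fcalc_one hT, fcalc_sub]
    refine fcalc_posSemidef hT fun i => ?_
    rcases Real.sign_apply_eq (hT.eigenvalues i) with h | h | h <;> rw [h] <;> norm_num
  refine ⟨fcalc hT Real.sign, fcalc hT (fun x => |x|), ⟨?_, ?_⟩, ?_, ?_, ?_, ?_⟩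
  · rw [hP.eq]
    exact hPP
  · rw [hP.eq]
    exact hPP
  · rw [self_mul_fcalc]
    refine fcalc_congr hT fun i => ?_
    rcases lt_trichotomy (hT.eigenvalues i) 0 with h | h | h
    · rw [Real.sign_of_neg h, abs_of_neg h]; ring
    · rw [h]; simp
    · rw [Real.sign_of_pos h, abs_of_pos h]; ring
  · rw [fcalc_mul_self]
    refine fcalc_congr hT fun i => ?_
    rcases lt_trichotomy (hT.eigenvalues i) 0 with h | h | h
    · rw [Real.sign_of_neg h, abs_of_neg h]; ring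
    · rw [h]; simp
    · rw [Real.sign_of_pos h, abs_of_pos h]; ring
  · have h1 : fcalc hT (fun x => |x|) - T = fcalc hT (fun x => |x| - x) := by
      rw [← fcalc_sub hT (fun x => |x|) (fun x => x), fcalc_id]
    rw [h1]
    refine fcalc_posSemidef hT fun i => ?_
    exact sub_nonneg.mpr (le_abs_self _)
  · have h1 : fcalc hT (fun x => |x|) + T = fcalc hT (fun x => x - (0 - |x|)) := by
      rw [← fcalc_sub hT (fun x => x) (fun x => 0 - |x|), ← fcalc_sub hT (fun _ => 0) (fun x => |x|),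
        h0, fcalc_id]
      abel
    rw [h1]
    refine fcalc_posSemidef hT fun i => ?_
    have := neg_abs_le (hT.eigenvalues i)
    linarith only [this]

/-- The Powers-Størmer inequality. -/
theorem powers_stormer {Q₀ Q₁ : Matrix E E ℂ} (h₀ : Q₀.PosSemidef) (h₁ : Q₁.PosSemidef) :
    ((Q₀ - Q₁) * (Q₀ - Q₁)).trace.re ≤ traceNorm (Q₀ * Q₀ - Q₁ * Q₁) := by
  obtain ⟨P, V, hP, hTP, hPT, hV1, hV2⟩ := exists_abs (h₀.isHermitian.sub h₁.isHermitian)
  set T := Q₀ - Q₁ with hT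
  have e1 : (P * (Q₀ * Q₀ - Q₁ * Q₁)).trace = (V * (Q₀ + Q₁)).trace := by
    have h2 : Q₀ * Q₀ - Q₁ * Q₁ = (1 / 2 : ℂ) • ((Q₀ + Q₁) * T + T * (Q₀ + Q₁)) := by
      rw [hT]
      have : (Q₀ + Q₁) * (Q₀ - Q₁) + (Q₀ - Q₁) * (Q₀ + Q₁) = (2 : ℂ) • (Q₀ * Q₀ - Q₁ * Q₁) := by
        rw [two_smul]
        noncomm_ring
      rw [this, smul_smul]
      norm_num
    rw [h2, Matrix.mul_smul, trace_smul, Matrix.mul_add, trace_add]
    have h3 : (P * ((Q₀ + Q₁) * T)).trace = (V * (Q₀ + Q₁)).trace := by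
      rw [← Matrix.mul_assoc, trace_mul_comm, ← Matrix.mul_assoc, hTP]
    have h4 : (P * (T * (Q₀ + Q₁))).trace = (V * (Q₀ + Q₁)).trace := by
      rw [← Matrix.mul_assoc, hPT]
    rw [h3, h4, smul_eq_mul]
    ring
  have e2 : (V * (Q₀ + Q₁)).trace.re = (T * T).trace.re + ((V + T) * Q₁).trace.re +
      ((V - T) * Q₀).trace.re := by
    have : V * (Q₀ + Q₁) = T * T + (V + T) * Q₁ + (V - T) * Q₀ := by
      rw [hT]
      noncomm_ring
    rw [this]
    simp only [trace_add, Complex.add_re]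
  have e3 := re_trace_mul_nonneg hV2 h₁
  have e4 := re_trace_mul_nonneg hV1 h₀
  have e5 := norm_trace_mul_le hP (Q₀ * Q₀ - Q₁ * Q₁)
  rw [e1] at e5
  have e6 := Complex.re_le_norm (V * (Q₀ + Q₁)).trace
  linarith only [e2, e3, e4, e5, e6]

/-- Square root with pseudo-inverse. -/
theorem exists_sqrt_pinv {X : Matrix E E ℂ} (hX : X.PosSemidef) :
    ∃ Q Q' S : Matrix E E ℂ, Q.PosSemidef ∧ Q'.PosSemidef ∧ (1 - S).PosSemidef ∧ Q * Q = X ∧
      Q' * X = Q ∧ X * Q' = Q ∧ Q' * X * Q' = S := by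
  have h0 := hX.eigenvalues_nonneg
  refine ⟨fcalc hX.1 (fun x => √x), fcalc hX.1 (fun x => (√x)⁻¹),
    fcalc hX.1 (fun x => if x = 0 then 0 else 1),
    fcalc_posSemidef _ fun i => Real.sqrt_nonneg _,
    fcalc_posSemidef _ fun i => inv_nonneg.mpr (Real.sqrt_nonneg _), ?_, ?_, ?_, ?_, ?_⟩
  · rw [← fcalc_one hX.1, fcalc_sub]
    refine fcalc_posSemidef _ fun i => ?_
    split_ifs <;> norm_num
  · rw [fcalc_mul]
    exact fcalc_eq_self _ fun i => Real.mul_self_sqrt (h0 i)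
  · rw [fcalc_mul_self]
    refine fcalc_congr _ fun i => ?_
    by_cases h : √(hX.1.eigenvalues i) = 0
    · rw [h, (Real.sqrt_eq_zero (h0 i)).mp h]
      simp
    · rw [inv_mul_eq_iff_eq_mul₀ h]
      exact (Real.mul_self_sqrt (h0 i)).symm
  · rw [self_mul_fcalc]
    refine fcalc_congr _ fun i => ?_
    by_cases h : √(hX.1.eigenvalues i) = 0
    · rw [h, (Real.sqrt_eq_zero (h0 i)).mp h]
      simp
    · rw [mul_inv_eq_iff_eq_mul₀ h]
      exact (Real.mul_self_sqrt (h0 i)).symm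
  · rw [fcalc_mul_self, fcalc_mul]
    refine fcalc_congr _ fun i => ?_
    by_cases h : hX.1.eigenvalues i = 0
    · simp [h]
    · have h2 : √(hX.1.eigenvalues i) ≠ 0 := by
        rw [Ne, Real.sqrt_eq_zero (h0 i)]
        exact h
      rw [if_neg h, mul_comm, ← mul_assoc, ← mul_inv, Real.mul_self_sqrt (h0 i),
        inv_mul_cancel₀ h]

/-- Lower bound of the fidelity by the trace distance. -/
theorem fidelity_ge (Φ₀ Φ₁ : Matrix G E ℂ) :
    ((Φ₀ᴴ * Φ₀).trace.re + (Φ₁ᴴ * Φ₁).trace.re - traceNorm (Φ₀ᴴ * Φ₀ - Φ₁ᴴ * Φ₁)) / 2 ≤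
      traceNorm (Φ₀ * Φ₁ᴴ) := by
  obtain ⟨Q₀, Q₀', S₀, hQ₀, hQ₀', hS₀, h0a, h0b, h0c, h0d⟩ :=
    exists_sqrt_pinv (posSemidef_conjTranspose_mul_self Φ₀)
  obtain ⟨Q₁, Q₁', S₁, hQ₁, hQ₁', hS₁, h1a, h1b, h1c, h1d⟩ :=
    exists_sqrt_pinv (posSemidef_conjTranspose_mul_self Φ₁)
  have key : ∀ (Φ : Matrix G E ℂ) (Q' S : Matrix E E ℂ), Q'.PosSemidef → (1 - S).PosSemidef →
      Q' * (Φᴴ * Φ) * Q' = S → (1 - (Φ * Q')ᴴ * (Φ * Q')).PosSemidef := by
    intro Φ Q' S h1 h2 h3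
    have : (Φ * Q')ᴴ * (Φ * Q') = S := by
      rw [conjTranspose_mul, h1.isHermitian.eq, ← h3]
      simp only [Matrix.mul_assoc]
    rw [this]
    exact h2
  have k0 := key Φ₀ Q₀' S₀ hQ₀' hS₀ h0d
  have k1 := key Φ₁ Q₁' S₁ hQ₁' hS₁ h1d
  set U₀ := Φ₀ * Q₀' with hU₀
  set U₁ := Φ₁ * Q₁' with hU₁
  -- a contraction times its adjoint in the other order
  have swap : ∀ U : Matrix G E ℂ, (1 - Uᴴ * U).PosSemidef → (1 - U * Uᴴ).PosSemidef := by
    intro U hU
    letI : Invertible (1 : Matrix G G ℂ) := invertibleOne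
    letI : Invertible (1 : Matrix E E ℂ) := invertibleOne
    have h1 : (fromBlocks (1 : Matrix G G ℂ) U Uᴴ (1 : Matrix E E ℂ)).PosSemidef := by
      refine (PosDef.fromBlocks₁₁ U 1 PosDef.one).mpr ?_
      rw [inv_one, Matrix.mul_one]
      exact hU
    have h2 := (PosDef.fromBlocks₂₂ 1 U PosDef.one).mp h1
    rw [inv_one, Matrix.mul_one] at h2
    exact h2
  have hprod : ∀ U V : Matrix G E ℂ, (1 - Uᴴ * U).PosSemidef → (1 - Vᴴ * V).PosSemidef →
      (1 - (U * Vᴴ) * (U * Vᴴ)ᴴ).PosSemidef := by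
    intro U V hU hV
    have : 1 - (U * Vᴴ) * (U * Vᴴ)ᴴ = (1 - U * Uᴴ) + U * (1 - Vᴴ * V) * Uᴴ := by
      rw [conjTranspose_mul, conjTranspose_conjTranspose, Matrix.mul_sub, Matrix.sub_mul,
        Matrix.mul_one]
      simp only [Matrix.mul_assoc]
      abel
    rw [this]
    exact (swap U hU).add (hV.mul_mul_conjTranspose_same U)
  have hW : Contr (U₁ * U₀ᴴ) := by
    refine ⟨hprod U₁ U₀ k1 k0, ?_⟩
    have h3 := hprod U₀ U₁ k0 k1
    have h4 : (U₁ * U₀ᴴ)ᴴ * (U₁ * U₀ᴴ) = (U₀ * U₁ᴴ) * (U₀ * U₁ᴴ)ᴴ := by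
      simp only [conjTranspose_mul, conjTranspose_conjTranspose]
    rw [h4]
    exact h3
  have h1 := norm_trace_mul_le hW (Φ₀ * Φ₁ᴴ)
  have h2 : (U₁ * U₀ᴴ * (Φ₀ * Φ₁ᴴ)).trace = (Q₀ * Q₁).trace := by
    have e0 : U₀ᴴ * Φ₀ = Q₀ := by
      rw [hU₀, conjTranspose_mul, hQ₀'.isHermitian.eq, Matrix.mul_assoc, h0b]
    have e1 : Φ₁ᴴ * U₁ = Q₁ := by
      rw [hU₁, ← Matrix.mul_assoc, h1c]
    calc (U₁ * U₀ᴴ * (Φ₀ * Φ₁ᴴ)).trace = (U₁ * ((U₀ᴴ * Φ₀) * Φ₁ᴴ)).trace := by
          simp only [Matrix.mul_assoc]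
      _ = ((U₀ᴴ * Φ₀) * (Φ₁ᴴ * U₁)).trace := by
          rw [trace_mul_comm, Matrix.mul_assoc]
      _ = _ := by rw [e0, e1]
  rw [h2] at h1
  have h3 := powers_stormer hQ₀ hQ₁
  rw [h0a, h1a] at h3
  have h4 : ((Q₀ - Q₁) * (Q₀ - Q₁)).trace.re = (Φ₀ᴴ * Φ₀).trace.re + (Φ₁ᴴ * Φ₁).trace.re -
      2 * (Q₀ * Q₁).trace.re := by
    rw [Matrix.sub_mul, Matrix.mul_sub, Matrix.mul_sub, h0a, h1a, trace_sub, trace_sub, trace_sub,
      trace_mul_comm Q₁ Q₀]
    simp only [Complex.sub_re]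
    ring
  have h5 := Complex.re_le_norm (Q₀ * Q₁).trace
  linarith only [h1, h3, h4, h5]

end Vale.Agent.P372
end
end
end

section

section

section

/-! The kernel criterion for positive distillable key. -/

open Matrix Kronecker
open scoped ComplexOrder

namespace Vale.Agent.P372

variable {A B E : Type} [Fintype A] [DecidableEq A] [Fintype B] [DecidableEq B] [Fintype E]
  [DecidableEq E]

/-- The statement of the one-way distillation theorem `block_pos` for the vector `Ψ`, used as a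
hypothesis in this file (it is proved in `Core.lean`). -/
def BlockPosStatement (Ψ : Matrix (A × B) E ℂ) : Prop :=
  ∀ (Y : Type) [Fintype Y] [DecidableEq Y],
    ∀ (EA : Option Bool → Matrix A A ℂ), (∀ α, (EA α).PosSemidef) → (∑ α, EA α = 1) →
    ∀ (FB : Option Y → Matrix B B ℂ), (∀ β, (FB β).PosSemidef) → (∑ β, FB β = 1) →
    ∀ (P : Matrix E E ℂ), P.PosSemidef → ∀ (D : Bool → Matrix E E ℂ),
    (∀ x, eve Ψ (EA (some x)) (∑ y, FB (some y)) = P * D x * P) →
    ∀ (p V2 Bh : ℝ), p = ∑ x, ∑ y, (eve Ψ (EA (some x)) (FB (some y))).trace.re →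
    V2 = ((P*P)*(P*P)).trace.re * ∑ x, ((D x)ᴴ * D x).trace.re →
    Bh = ∑ y, (∑ x, √((eve Ψ (EA (some x)) (FB (some y))).trace.re))^2 →
    V2 * Bh < p^3 → 0 < KD Ψ

namespace T1

theorem eve_eq (Ψ : Matrix (A × B) E ℂ) (M : Matrix A A ℂ) (N : Matrix B B ℂ) :
    eve Ψ M N = (Ψᴴ * (M ⊗ₖ N) * Ψ)ᵀ := by
  ext e e'
  change (∑ p : A × B, ∑ q : A × B, M q.1 p.1 * N q.2 p.2 * (Ψ p e * star (Ψ q e'))) = _
  simp only [transpose_apply, mul_apply, conjTranspose_apply, kroneckerMap_apply,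
    Finset.sum_mul]
  refine Finset.sum_congr rfl fun p _ => Finset.sum_congr rfl fun q _ => ?_
  ring

theorem eve_add_left (Ψ : Matrix (A × B) E ℂ) (M M' : Matrix A A ℂ) (N : Matrix B B ℂ) :
    eve Ψ (M + M') N = eve Ψ M N + eve Ψ M' N := by
  simp only [eve_eq, add_kronecker, Matrix.mul_add, Matrix.add_mul, transpose_add]

theorem eve_sub_left (Ψ : Matrix (A × B) E ℂ) (M M' : Matrix A A ℂ) (N : Matrix B B ℂ) :
    eve Ψ (M - M') N = eve Ψ M N - eve Ψ M' N := by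
  rw [eq_sub_iff_add_eq, ← eve_add_left, sub_add_cancel]

theorem eve_smul_left (Ψ : Matrix (A × B) E ℂ) (c : ℂ) (M : Matrix A A ℂ) (N : Matrix B B ℂ) :
    eve Ψ (c • M) N = c • eve Ψ M N := by
  simp only [eve_eq, smul_kronecker, Matrix.mul_smul, Matrix.smul_mul, transpose_smul]

theorem eve_add_right (Ψ : Matrix (A × B) E ℂ) (M : Matrix A A ℂ) (N N' : Matrix B B ℂ) :
    eve Ψ M (N + N') = eve Ψ M N + eve Ψ M N' := by
  simp only [eve_eq, kronecker_add, Matrix.mul_add, Matrix.add_mul, transpose_add]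

theorem eve_sub_right (Ψ : Matrix (A × B) E ℂ) (M : Matrix A A ℂ) (N N' : Matrix B B ℂ) :
    eve Ψ M (N - N') = eve Ψ M N - eve Ψ M N' := by
  rw [eq_sub_iff_add_eq, ← eve_add_right, sub_add_cancel]

theorem eve_smul_right (Ψ : Matrix (A × B) E ℂ) (c : ℂ) (M : Matrix A A ℂ) (N : Matrix B B ℂ) :
    eve Ψ M (c • N) = c • eve Ψ M N := by
  simp only [eve_eq, kronecker_smul, Matrix.mul_smul, Matrix.smul_mul, transpose_smul]

theorem eve_one_one (Ψ : Matrix (A × B) E ℂ) : eve Ψ 1 1 = (Ψᴴ * Ψ)ᵀ := by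
  rw [eve_eq, one_kronecker_one, Matrix.mul_one]

theorem eve_conjTranspose (Ψ : Matrix (A × B) E ℂ) (M : Matrix A A ℂ) (N : Matrix B B ℂ) :
    (eve Ψ M N)ᴴ = eve Ψ Mᴴ Nᴴ := by
  rw [eve_eq, eve_eq, conjTranspose_transpose_eq_transpose_conjTranspose, conjTranspose_mul,
    conjTranspose_mul, conjTranspose_conjTranspose, conjTranspose_kronecker, Matrix.mul_assoc]

/-- For a Hermitian matrix `X`, `1 ± ε X` is positive semidefinite for small `ε`. -/
theorem exists_eps {X : Matrix A A ℂ} (hX : X.IsHermitian) :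
    ∃ ε : ℝ, 0 < ε ∧ (1 + (ε : ℂ) • X).PosSemidef ∧ (1 - (ε : ℂ) • X).PosSemidef := by
  set l := hX.eigenvalues with hl
  set S : ℝ := 1 + ∑ i, |l i| with hS
  have hS1 : 0 < S := by
    have : 0 ≤ ∑ i, |l i| := Finset.sum_nonneg fun _ _ => abs_nonneg _
    linarith
  have hlS : ∀ i, |l i| ≤ S := by
    intro i
    have := Finset.single_le_sum (f := fun i => |l i|) (fun _ _ => abs_nonneg _)
      (Finset.mem_univ i)
    have h2 : |l i| ≤ ∑ i, |l i| := this
    linarith only [this]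
  have key : ∀ c : ℝ, fcalc hX (fun x => 1 - c * x) = 1 - (c : ℂ) • X := by
    intro c
    rw [← fcalc_sub, fcalc_one]
    congr 1
    unfold fcalc
    have h1 : diagonal (fun i => ((c * hX.eigenvalues i : ℝ) : ℂ))
        = (c : ℂ) • diagonal (fun i => (hX.eigenvalues i : ℂ)) := by
      rw [← diagonal_smul]
      congr 1
      funext i
      simp
    rw [h1, Matrix.mul_smul, Matrix.smul_mul, ← spectral_eq hX]
  refine ⟨S⁻¹, inv_pos.mpr hS1, ?_, ?_⟩
  · have h := fcalc_posSemidef hX (f := fun x => 1 - (-S⁻¹) * x) (fun i => by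
      have h1 : -(l i) ≤ S := (neg_le_abs _).trans (hlS i)
      have h2 : S⁻¹ * -(l i) ≤ S⁻¹ * S := mul_le_mul_of_nonneg_left h1 (inv_pos.mpr hS1).le
      rw [inv_mul_cancel₀ hS1.ne'] at h2
      linarith only [h2])
    rw [key] at h
    have h3 : (1 : Matrix A A ℂ) - ((-S⁻¹ : ℝ) : ℂ) • X = 1 + ((S⁻¹ : ℝ) : ℂ) • X := by
      push_cast
      rw [neg_smul, sub_neg_eq_add]
    rwa [h3] at h
  · have h := fcalc_posSemidef hX (f := fun x => 1 - (S⁻¹) * x) (fun i => by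
      have h1 : (l i) ≤ S := (le_abs_self _).trans (hlS i)
      have h2 : S⁻¹ * (l i) ≤ S⁻¹ * S := mul_le_mul_of_nonneg_left h1 (inv_pos.mpr hS1).le
      rw [inv_mul_cancel₀ hS1.ne'] at h2
      linarith only [h2])
    rwa [key] at h

theorem one_sub_smul_posSemidef {H : Matrix B B ℂ} (hH : H.PosSemidef) {c : ℝ} (hc : 0 ≤ c)
    (hcH : c * H.trace.re ≤ 1) : (1 - (c : ℂ) • H).PosSemidef := by
  have hX := hH.1
  have key : fcalc hX (fun x => 1 - c * x) = 1 - (c : ℂ) • H := by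
    rw [← fcalc_sub, fcalc_one]
    congr 1
    unfold fcalc
    have h1 : diagonal (fun i => ((c * hX.eigenvalues i : ℝ) : ℂ))
        = (c : ℂ) • diagonal (fun i => (hX.eigenvalues i : ℂ)) := by
      rw [← diagonal_smul]
      congr 1
      funext i
      simp
    rw [h1, Matrix.mul_smul, Matrix.smul_mul, ← spectral_eq hX]
  rw [← key]
  refine fcalc_posSemidef hX fun i => ?_
  have htr : H.trace.re = ∑ i, hX.eigenvalues i := by
    rw [hX.trace_eq_sum_eigenvalues]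
    simp only [Complex.coe_algebraMap, Complex.re_sum, Complex.ofReal_re]
  have h1 : hX.eigenvalues i ≤ H.trace.re := by
    rw [htr]
    exact Finset.single_le_sum (f := fun i => hX.eigenvalues i)
      (fun i _ => hH.eigenvalues_nonneg i) (Finset.mem_univ i)
  have h2 := mul_le_mul_of_nonneg_left h1 hc
  linarith only [hcH, h2]

theorem scalar_ineq {h C κ δ c V2 Bh p : ℝ} (hh : 0 < h) (hc : 0 < c) (hδ : 0 < δ)
    (hC : 0 ≤ C) (hκ : 2 * δ * C < κ) (hV0 : 0 ≤ V2) (hB0 : 0 ≤ Bh)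
    (hV : V2 ≤ 1 / 2 * c ^ 2 * ((h + δ) ^ 2 + δ ^ 2 * h * C))
    (hB : Bh ≤ c * (2 * (h + δ) - δ * κ)) (hp : p = c * (h + δ)) : V2 * Bh < p ^ 3 := by
  have h1 : V2 * Bh ≤ (1 / 2 * c ^ 2 * ((h + δ) ^ 2 + δ ^ 2 * h * C)) *
      (c * (2 * (h + δ) - δ * κ)) := mul_le_mul hV hB hB0 (hV0.trans hV)
  refine h1.trans_lt ?_
  rw [hp]
  have hκ0 : 0 < κ := lt_of_le_of_lt (by (clear * - hδ hC; positivity)) hκ
  have h2 : 0 < c ^ 3 * (1 / 2 * δ * (h + δ) * (κ * (h + δ) - 2 * δ * h * C)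
      + 1 / 2 * δ ^ 3 * h * C * κ) := by
    have h3 : 0 < κ * (h + δ) - 2 * δ * h * C := by
      have h4 : 2 * δ * C * h < κ * h := mul_lt_mul_of_pos_right hκ hh
      have h5 : 0 < κ * δ := mul_pos hκ0 hδ
      nlinarith only [h4, h5]
    (clear * - hc hδ hh h3 hC hκ0; (clear * - hc hδ hh h3 hC hκ0; positivity))
  (clear * - h2; linarith)

theorem sqrt_pair {a b g : ℝ} (ha : 0 ≤ a) (hm : 0 ≤ b - g) (hp : 0 ≤ b + g) :
    (√(a * (b + g)) + √(a * (b - g))) ^ 2 = 2 * a * b + 2 * a * √(b ^ 2 - g ^ 2) := by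
  have h1 : √(a * (b + g)) ^ 2 = a * (b + g) := Real.sq_sqrt (mul_nonneg ha hp)
  have h2 : √(a * (b - g)) ^ 2 = a * (b - g) := Real.sq_sqrt (mul_nonneg ha hm)
  have h3 : √(a * (b + g)) * √(a * (b - g)) = a * √(b ^ 2 - g ^ 2) := by
    rw [← Real.sqrt_mul (mul_nonneg ha hp)]
    have : a * (b + g) * (a * (b - g)) = a ^ 2 * (b ^ 2 - g ^ 2) := by ring
    rw [this, Real.sqrt_mul (sq_nonneg a), Real.sqrt_sq ha]
  calc (√(a * (b + g)) + √(a * (b - g))) ^ 2
      = √(a * (b + g)) ^ 2 + √(a * (b - g)) ^ 2 + 2 * (√(a * (b + g)) * √(a * (b - g))) := by ring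
    _ = _ := by rw [h1, h2, h3]; ring

theorem sqrt_add_sq_le {a b : ℝ} (ha : 0 ≤ a) (hb : 0 ≤ b) : (√a + √b) ^ 2 ≤ 2 * (a + b) := by
  have h1 := Real.sq_sqrt ha
  have h2 := Real.sq_sqrt hb
  nlinarith [sq_nonneg (√a - √b)]

theorem eve_mulVec_eq_zero (Ψ : Matrix (A × B) E ℂ) (M : Matrix A A ℂ) (N : Matrix B B ℂ)
    {v : E → ℂ} (hv : eve Ψ 1 1 *ᵥ v = 0) : eve Ψ M N *ᵥ v = 0 := by
  have h0 : eve Ψ 1 1 = (Ψᴴᵀ)ᴴ * Ψᴴᵀ := by
    rw [eve_one_one, transpose_mul]
    congr 1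
    rw [← conjTranspose_transpose_eq_transpose_conjTranspose, conjTranspose_conjTranspose]
  rw [h0, conjTranspose_mul_self_mulVec_eq_zero] at hv
  rw [eve_eq, transpose_mul, transpose_mul, ← mulVec_mulVec, ← mulVec_mulVec, hv, mulVec_zero,
    mulVec_zero]

theorem mul_proj_eq {R S : Matrix E E ℂ} (hSS : S * S = S)
    (h : ∀ v : E → ℂ, S *ᵥ v = 0 → R *ᵥ v = 0) : R * S = R := by
  have h1 : R * (1 - S) = 0 := by
    apply ext_of_mulVec_single
    intro i
    rw [← mulVec_mulVec, zero_mulVec]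
    apply h
    rw [mulVec_mulVec]
    have : S * (1 - S) = 0 := by rw [Matrix.mul_sub, Matrix.mul_one, hSS, sub_self]
    rw [this, zero_mulVec]
  rw [Matrix.mul_sub, Matrix.mul_one, sub_eq_zero] at h1
  exact h1.symm

theorem hs_add_smul (Q L : Matrix E E ℂ) (r : ℝ) :
    hs (Q + (r : ℂ) • L) = hs Q + 2 * r * (Qᴴ * L).trace.re + r ^ 2 * hs L := by
  have h1 : (Lᴴ * Q).trace.re = (Qᴴ * L).trace.re := by
    have : (Lᴴ * Q).trace = star ((Qᴴ * L).trace) := by
      rw [← trace_conjTranspose, conjTranspose_mul, conjTranspose_conjTranspose]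
    rw [this, RCLike.star_def, Complex.conj_re]
  rw [hs_eq_re, hs_eq_re, hs_eq_re, conjTranspose_add, conjTranspose_smul, Matrix.add_mul,
    Matrix.mul_add, Matrix.mul_add, Matrix.smul_mul, Matrix.smul_mul, Matrix.mul_smul,
    Matrix.mul_smul, trace_add, trace_add, trace_add, trace_smul, trace_smul, trace_smul,
    trace_smul]
  simp only [Complex.add_re, smul_eq_mul, RCLike.star_def, Complex.conj_ofReal,
    Complex.re_ofReal_mul, h1]
  ring

theorem hs_smul (c : ℂ) (L : Matrix E E ℂ) : hs (c • L) = ‖c‖ ^ 2 * hs L := by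
  simp only [hs, Matrix.smul_apply, smul_eq_mul, norm_mul, Finset.mul_sum, mul_pow]

theorem hs_sum_bool (Q L : Matrix E E ℂ) {c : ℝ} (hc : 0 ≤ c) (r : ℝ) (s : Bool → ℝ)
    (hs1 : s true = 1) (hs2 : s false = -1) :
    ∑ x : Bool, hs ((c / 2 : ℂ) • (Q + ((s x * r : ℝ) : ℂ) • L))
      = c ^ 2 / 2 * (hs Q + r ^ 2 * hs L) := by
  have hc2 : ‖(c / 2 : ℂ)‖ = c / 2 := by
    rw [show (c / 2 : ℂ) = ((c / 2 : ℝ) : ℂ) by push_cast; rfl, Complex.norm_real,
      Real.norm_of_nonneg (by linarith)]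
  rw [Fintype.sum_bool, hs_smul, hs_smul, hs_add_smul, hs_add_smul, hs1, hs2, hc2]
  ring

theorem V_ineq (h c δ C : ℝ) :
    h * (c ^ 2 / 2 * (h + 2 * δ + δ ^ 2 * C)) ≤ 1 / 2 * c ^ 2 * ((h + δ) ^ 2 + δ ^ 2 * h * C) := by
  have : 0 ≤ (c * δ) ^ 2 := sq_nonneg _
  linarith

theorem hs_fourth {P P' R S T : Matrix E E ℂ} (hP : P.PosSemidef) (hT : T = P' * R * P')
    (hPP' : P * P' = S) (hP'P : P' * P = S) (hSR : S * R = R) (hRS : R * S = R) (δ : ℝ) :
    hs (P * P + (δ : ℂ) • T) = ((P * P) * (P * P)).trace.re + 2 * δ * R.trace.re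
      + δ ^ 2 * hs T := by
  have hPPh : (P * P)ᴴ = P * P := by rw [conjTranspose_mul, hP.1.eq]
  have hPT : ((P * P)ᴴ * T).trace = R.trace := by
    rw [hPPh]
    calc (P * P * T).trace = (P * (P * P' * R * P')).trace := by
          rw [hT]; congr 1; noncomm_ring
      _ = (P * P' * R * P' * P).trace := by rw [trace_mul_comm]
      _ = (S * R * S).trace := by rw [hPP', Matrix.mul_assoc _ P' P, hP'P]
      _ = R.trace := by rw [hSR, hRS]
  rw [hs_add_smul, hPT, hs_eq_re (P * P), hPPh]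

end T1

open T1 in
/-- The kernel criterion, from the one-way distillation theorem. -/
theorem kernel_criterion_of (Ψ : Matrix (A × B) E ℂ) (hblock : BlockPosStatement Ψ)
    (hΨ : (Ψ * Ψᴴ).trace = 1)
    {X : Matrix A A ℂ} (hX : X.IsHermitian) {H Φ : Matrix B B ℂ} (hH : H.PosSemidef)
    (hΦ : Φ.PosSemidef) (h1 : eve Ψ X H = 0)
    (h2 : ∀ v : E → ℂ, eve Ψ 1 H *ᵥ v = 0 → eve Ψ 1 1 *ᵥ v = 0)
    (h3 : (eve Ψ X Φ).trace ≠ 0) : 0 < KD Ψ := by
  classical
  -- normalise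
  obtain ⟨ε, hε, hεp, hεm⟩ := exists_eps hX
  set t : ℝ := (1 + Φ.trace.re)⁻¹ with ht
  have hΦtr : 0 ≤ Φ.trace.re := (Complex.le_def.mp hΦ.trace_nonneg).1
  have ht0 : 0 < t := inv_pos.mpr (by linarith only [hΦtr])
  set Φ' : Matrix B B ℂ := (t : ℂ) • Φ with hΦ'
  have hΦ'p : Φ'.PosSemidef := hΦ.smul (by exact_mod_cast ht0.le)
  have hΦ'1 : (1 - Φ').PosSemidef := by
    refine one_sub_smul_posSemidef hΦ ht0.le ?_
    rw [ht, inv_mul_le_iff₀ (by linarith only [hΦtr])]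
    linarith only []
  have h3' : (eve Ψ X Φ').trace ≠ 0 := by
    rw [hΦ', eve_smul_right, trace_smul]
    refine smul_ne_zero ?_ h3
    exact_mod_cast ht0.ne'
  clear_value Φ'
  -- Eve's operators
  set G := eve Ψ 1 H with hG
  set R := eve Ψ 1 1 with hR
  set K := eve Ψ X 1 with hK
  have hGp : G.PosSemidef := eve_posSemidef Ψ PosSemidef.one hH
  have hRp : R.PosSemidef := eve_posSemidef Ψ PosSemidef.one PosSemidef.one
  have hKh : Kᴴ = K := by rw [hK, eve_conjTranspose, hX.eq, conjTranspose_one]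
  obtain ⟨P, P', S, hP, hP', hS, hPG, hPP', hP'P, hSS, hSG, hGS, hker⟩ :=
    exists_fourth_root_pinv hGp
  have hRtr : R.trace = 1 := by
    rw [hR, eve_one_one, trace_transpose, trace_mul_comm, hΨ]
  have hSker : ∀ v : E → ℂ, S *ᵥ v = 0 → R *ᵥ v = 0 := by
    intro v hv
    apply h2
    rw [← hGS, ← mulVec_mulVec, hv, mulVec_zero]
  have hRS : R * S = R := mul_proj_eq hSS hSker
  have hSR : S * R = R := by
    have := congrArg conjTranspose hRS
    rwa [conjTranspose_mul, hRp.1.eq, hS.1.eq] at this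
  have hKS : K * S = K := mul_proj_eq hSS fun v hv => eve_mulVec_eq_zero Ψ X 1 (hSker v hv)
  have hSK : S * K = K := by
    have := congrArg conjTranspose hKS
    rwa [conjTranspose_mul, hKh, hS.1.eq] at this
  set h : ℝ := G.trace.re with hh
  have hh0 : 0 < h := by
    have h0 : 0 ≤ G.trace := hGp.trace_nonneg
    have h0' := Complex.le_def.mp h0
    rcases h0'.1.lt_or_eq with hlt | heq
    · exact hlt
    · exfalso
      have h01 : G.trace = 0 := Complex.ext (by simpa only [Complex.zero_re] using heq.symm) (by simpa only [Complex.zero_im] using h0'.2.symm)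
      have hG0 : G = 0 := (hGp.trace_eq_zero_iff).mp h01
      have hR0 : R = 0 := by
        rw [← hRS]
        have hS0 : S = 0 := by
          apply ext_of_mulVec_single
          intro i
          rw [zero_mulVec]
          apply hker
          rw [hG0, zero_mulVec]
        rw [hS0, Matrix.mul_zero]
      rw [hR0, trace_zero] at hRtr
      exact zero_ne_one hRtr
  set T : Matrix E E ℂ := P' * R * P' with hT
  set L : Matrix E E ℂ := P' * K * P' with hL
  have hPTP : P * T * P = R := by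
    calc P * T * P = (P * P') * R * (P' * P) := by rw [hT]; noncomm_ring
      _ = R := by rw [hPP', hP'P, hSR, hRS]
  have hPLP : P * L * P = K := by
    calc P * L * P = (P * P') * K * (P' * P) := by rw [hL]; noncomm_ring
      _ = K := by rw [hPP', hP'P, hSK, hKS]
  -- scalars
  set C : ℝ := hs T + ε ^ 2 * hs L with hC
  have hC0 : 0 ≤ C := add_nonneg (hs_nonneg _) (mul_nonneg (sq_nonneg _) (hs_nonneg _))
  set b0 : ℝ := (eve Ψ 1 Φ').trace.re with hb0
  set g : ℝ := (eve Ψ X Φ').trace.re with hg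
  have hg_im : (eve Ψ X Φ').trace.im = 0 := by
    have h4 : star ((eve Ψ X Φ').trace) = (eve Ψ X Φ').trace := by
      rw [← trace_conjTranspose, eve_conjTranspose, hX.eq, hΦ'p.1.eq]
    exact Complex.conj_eq_iff_im.mp h4
  have hg0 : g ≠ 0 := by
    intro h0
    exact h3' (Complex.ext (by simpa only [Complex.zero_re] using h0) (by simpa only [Complex.zero_im] using hg_im))
  have hbp : 0 ≤ b0 + ε * g := by
    have h4 := (Complex.le_def.mp (eve_posSemidef Ψ hεp hΦ'p).trace_nonneg).1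
    rw [eve_add_left, eve_smul_left, trace_add, trace_smul] at h4
    simpa only [hb0, hg, ge_iff_le, Complex.zero_re, smul_eq_mul, Complex.add_re, Complex.mul_re,     Complex.ofReal_re, Complex.ofReal_im, zero_mul, sub_zero] using h4
  have hbm : 0 ≤ b0 - ε * g := by
    have h4 := (Complex.le_def.mp (eve_posSemidef Ψ hεm hΦ'p).trace_nonneg).1
    rw [eve_sub_left, eve_smul_left, trace_sub, trace_smul] at h4
    simpa only [hb0, hg, sub_nonneg, ge_iff_le, Complex.zero_re, smul_eq_mul, Complex.sub_re, Complex.mul_re,     Complex.ofReal_re, Complex.ofReal_im, zero_mul, sub_zero] using h4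
  have hεg : 0 < |ε * g| := abs_pos.mpr (mul_ne_zero hε.ne' hg0)
  have hb0pos : 0 < b0 := by
    rcases abs_cases (ε * g) with h5 | h5 <;> linarith only [h5, hbp, hbm, hεg]
  set κ : ℝ := b0 - √(b0 ^ 2 - (ε * g) ^ 2) with hκ
  have hκ0 : 0 < κ := by
    have h5 : √(b0 ^ 2 - (ε * g) ^ 2) < √(b0 ^ 2) := by
      apply Real.sqrt_lt_sqrt
      · nlinarith only [hbp, hbm]
      · have := pow_pos hεg 2
        rw [sq_abs] at this
        linarith only [this]
    rw [Real.sqrt_sq hb0pos.le] at h5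
    linarith only [h5]
  set δ : ℝ := κ / (2 * C + 1) with hδ
  have hδ0 : 0 < δ := by (clear * - hκ0 hC0; (clear * - hκ0 hC0; positivity))
  have hδκ : 2 * δ * C < κ := by
    rw [hδ]
    have : 2 * (κ / (2 * C + 1)) * C = κ * (2 * C / (2 * C + 1)) := by ring
    rw [this]
    have h6 : 2 * C / (2 * C + 1) < 1 := by
      rw [div_lt_one (by linarith only [hC0])]
      linarith only []
    calc κ * (2 * C / (2 * C + 1)) < κ * 1 := mul_lt_mul_of_pos_left h6 hκ0
      _ = κ := mul_one κ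
  clear_value δ
  set Hδ : Matrix B B ℂ := H + (δ : ℂ) • 1 with hHδ
  have hHδp : Hδ.PosSemidef := hH.add (PosSemidef.one.smul (by exact_mod_cast hδ0.le))
  have hHδtr : 0 ≤ Hδ.trace.re := (Complex.le_def.mp hHδp.trace_nonneg).1
  set c : ℝ := (1 + Hδ.trace.re)⁻¹ with hc
  have hc0 : 0 < c := inv_pos.mpr (by linarith only [hHδtr])
  have hHδ1 : (1 - (c : ℂ) • Hδ).PosSemidef := by
    refine one_sub_smul_posSemidef hHδp hc0.le ?_
    rw [hc, inv_mul_le_iff₀ (by linarith only [hHδtr])]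
    linarith only []
  clear_value c
  -- the measurements
  let s : Bool → ℝ := fun x => if x then 1 else -1
  let EA : Option Bool → Matrix A A ℂ := fun α => α.elim 0 fun x =>
    (1 / 2 : ℂ) • (1 + ((s x * ε : ℝ) : ℂ) • X)
  let FB : Option Bool → Matrix B B ℂ := fun β => β.elim (1 - (c : ℂ) • Hδ) fun y =>
    if y then (c * δ : ℂ) • Φ' else (c : ℂ) • (H + (δ : ℂ) • (1 - Φ'))
  have hEAt : ∀ x, (1 + ((s x * ε : ℝ) : ℂ) • X).PosSemidef := by
    intro x
    cases x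
    · have : (1 : Matrix A A ℂ) + ((s false * ε : ℝ) : ℂ) • X = 1 - (ε : ℂ) • X := by
        simp only [Bool.false_eq_true, ↓reduceIte, neg_mul, one_mul, Complex.ofReal_neg, neg_smul, Complex.coe_smul, sub_eq_add_neg, s]
      rw [this]; exact hεm
    · have : (1 : Matrix A A ℂ) + ((s true * ε : ℝ) : ℂ) • X = 1 + (ε : ℂ) • X := by
        simp [s]
      rw [this]; exact hεp
  have hhalf : (0 : ℂ) ≤ 1 / 2 := by
    rw [Complex.le_def]; norm_num
  have hcδ : (0 : ℂ) ≤ (c * δ : ℂ) := by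
    rw [← Complex.ofReal_mul]
    exact_mod_cast (mul_pos hc0 hδ0).le
  have hFBsum : ∑ y : Bool, FB (some y) = (c : ℂ) • Hδ := by
    rw [Fintype.sum_bool]
    simp only [FB, Option.elim_some, if_true, hHδ]
    simp only [Bool.false_eq_true, if_false, smul_add, smul_sub, smul_smul]
    abel
  refine hblock Bool EA ?_ ?_ FB ?_ ?_ P hP
    (fun x => (c / 2 : ℂ) • (P * P + (δ : ℂ) • T + ((s x * ε * δ : ℝ) : ℂ) • L)) ?_
    _ _ _ rfl rfl rfl ?_
  · intro α
    cases α with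
    | none => exact PosSemidef.zero
    | some x => exact (hEAt x).smul hhalf
  · rw [Fintype.sum_option, Fintype.sum_bool]
    simp only [EA, Option.elim_some, Option.elim_none, zero_add, s, if_true, Bool.false_eq_true,
      if_false]
    rw [← smul_add]
    have : (1 : Matrix A A ℂ) + ((1 * ε : ℝ) : ℂ) • X + (1 + ((-1 * ε : ℝ) : ℂ) • X)
        = (2 : ℂ) • 1 := by
      push_cast
      rw [two_smul, one_mul, neg_one_mul, neg_smul]
      abel
    rw [this, smul_smul]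
    norm_num
  · intro β
    cases β with
    | none => exact hHδ1
    | some y =>
      cases y
      · exact (hH.add (hΦ'1.smul (by exact_mod_cast hδ0.le))).smul (by exact_mod_cast hc0.le)
      · exact hΦ'p.smul hcδ
  · rw [Fintype.sum_option, hFBsum]
    simp only [FB, Option.elim_none, sub_add_cancel]
  · intro x
    rw [hFBsum]
    simp only [EA, Option.elim_some, hHδ]
    rw [eve_smul_left, eve_smul_right, eve_add_left, eve_smul_left, eve_add_right, eve_add_right,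
      eve_smul_right, eve_smul_right, h1, ← hG, ← hR, ← hK]
    rw [Matrix.mul_smul, Matrix.smul_mul, Matrix.mul_add, Matrix.mul_add, Matrix.add_mul,
      Matrix.add_mul, Matrix.mul_smul, Matrix.mul_smul, Matrix.smul_mul, Matrix.smul_mul,
      hPTP, hPLP]
    have : P * (P * P) * P = G := by rw [← hPG]; noncomm_ring
    rw [this, zero_add, smul_smul, smul_smul, add_assoc, add_assoc]
    congr 1
    · ring
    · congr 2
      push_cast
      ring_nf
  · -- the probabilities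
    have hpt : ∀ x, (eve Ψ (EA (some x)) (FB (some true))).trace.re
        = c * δ / 2 * (b0 + s x * (ε * g)) := by
      intro x
      simp only [EA, FB, Option.elim_some, if_true]
      rw [eve_smul_left, eve_smul_right, eve_add_left, eve_smul_left, trace_smul, trace_smul,
        trace_add, trace_smul]
      simp only [smul_eq_mul, Complex.mul_re, Complex.add_re, Complex.ofReal_re,
        Complex.ofReal_im, Complex.mul_im, Complex.add_im, hg_im, ← hb0, ← hg]
      norm_num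
      ring
    have hpf0 : ∀ x, 0 ≤ (eve Ψ (EA (some x)) (FB (some false))).trace.re := by
      intro x
      refine (Complex.le_def.mp (eve_posSemidef Ψ ?_ ?_).trace_nonneg).1
      · exact (hEAt x).smul hhalf
      · exact (hH.add (hΦ'1.smul (by exact_mod_cast hδ0.le))).smul (by exact_mod_cast hc0.le)
    have hEA1 : EA (some true) + EA (some false) = 1 := by
      simp only [EA, Option.elim_some, s, if_true, Bool.false_eq_true, if_false]
      rw [← smul_add]
      have : (1 : Matrix A A ℂ) + ((1 * ε : ℝ) : ℂ) • X + (1 + ((-1 * ε : ℝ) : ℂ) • X)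
          = (2 : ℂ) • 1 := by
        push_cast
        rw [two_smul, one_mul, neg_one_mul, neg_smul]
        abel
      rw [this, smul_smul]
      norm_num
    have hpf : (eve Ψ (EA (some true)) (FB (some false))).trace.re
        + (eve Ψ (EA (some false)) (FB (some false))).trace.re = c * (h + δ * (1 - b0)) := by
      rw [← Complex.add_re, ← trace_add, ← eve_add_left, hEA1]
      simp only [FB, Option.elim_some, Bool.false_eq_true, if_false]
      rw [eve_smul_right, eve_add_right, eve_smul_right, eve_sub_right, ← hG, ← hR, trace_smul,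
        trace_add, trace_smul, trace_sub, hRtr]
      simp only [smul_eq_mul, Complex.mul_re, Complex.add_re, Complex.ofReal_re,
        Complex.ofReal_im, Complex.sub_re, Complex.one_re, ← hb0, ← hh]
      ring
    have hbtt : 0 ≤ b0 + ε * g := hbp
    have hpair := sqrt_pair (a := c * δ / 2) (b := b0) (g := ε * g) (by (clear * - hc0 hδ0; positivity)) hbm hbp
    have hhsQ : hs (P * P + (δ : ℂ) • T) = h + 2 * δ + δ ^ 2 * hs T := by
      rw [hs_fourth hP hT hPP' hP'P hSR hRS, hPG, hRtr, Complex.one_re, mul_one]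
    have hV : ((P * P) * (P * P)).trace.re * ∑ x : Bool,
        (((c / 2 : ℂ) • (P * P + (δ : ℂ) • T + ((s x * ε * δ : ℝ) : ℂ) • L))ᴴ *
        ((c / 2 : ℂ) • (P * P + (δ : ℂ) • T + ((s x * ε * δ : ℝ) : ℂ) • L))).trace.re
        = h * (c ^ 2 / 2 * (h + 2 * δ + δ ^ 2 * C)) := by
      rw [hPG, ← hh]
      congr 1
      simp only [← hs_eq_re, mul_assoc (s _) ε δ]
      rw [hs_sum_bool _ L hc0.le (ε * δ) s rfl rfl, hhsQ, hC]
      ring
    refine scalar_ineq (h := h) (C := C) (κ := κ) (δ := δ) (c := c) hh0 hc0 hδ0 hC0 hδκ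
      ?_ ?_ ?_ ?_ ?_
    · rw [hV]; (clear * - hh0 hc0 hδ0 hC0; (clear * - hh0 hc0 hδ0 hC0; positivity))
    · exact Finset.sum_nonneg fun _ _ => sq_nonneg _
    · rw [hV]
      exact V_ineq h c δ C
    · simp only [Fintype.sum_bool, hpt]
      have h7 := sqrt_add_sq_le (hpf0 true) (hpf0 false)
      rw [hpf] at h7
      simp only [s, if_true, Bool.false_eq_true, if_false, one_mul, neg_one_mul, ← sub_eq_add_neg]
      rw [hpair]
      nlinarith only [h7]
    · simp only [Fintype.sum_bool, hpt]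
      simp only [s, if_true, Bool.false_eq_true, if_false, one_mul, neg_one_mul, ← sub_eq_add_neg]
      linarith only [hpf]

end Vale.Agent.P372
end
end
end

section

section

section

open Matrix Kronecker Filter Topology
open scoped ComplexOrder MatrixOrder

set_option linter.unusedSectionVars false

namespace Vale.Agent.P372

theorem eff_psd {K : Type} [Fintype K] : {A B : Type} → [Finite A] → [Finite B] →
    (π : Protocol K A B) → π.Valid →
    (∀ t k, (π.effA t k).PosSemidef) ∧ (∀ t k, (π.effB t k).PosSemidef)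
  | _, _, _, _, .output _ _, h => ⟨fun _ k => h.1.1 k, fun _ k => h.2.1 k⟩
  | _, _, _, _, .alice _ _ _ _ _ _ V next, h => by
    refine ⟨fun t k => ?_, fun t k => (eff_psd (next t.1) (h.2 t.1)).2 t.2 k⟩
    change (∑ r, (V t.1 r)ᴴ * (next t.1).effA t.2 k * V t.1 r).PosSemidef
    exact posSemidef_sum _ fun r _ =>
      ((eff_psd (next t.1) (h.2 t.1)).1 t.2 k).conjTranspose_mul_mul_same _
  | _, _, _, _, .bob _ _ _ _ _ _ V next, h => by
    refine ⟨fun t k => (eff_psd (next t.1) (h.2 t.1)).1 t.2 k, fun t k => ?_⟩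
    change (∑ r, (V t.1 r)ᴴ * (next t.1).effB t.2 k * V t.1 r).PosSemidef
    exact posSemidef_sum _ fun r _ =>
      ((eff_psd (next t.1) (h.2 t.1)).2 t.2 k).conjTranspose_mul_mul_same _

theorem half_bits {ℓ : ℕ} (i₀ : Fin ℓ) (b : Bool) :
    ∑ k : Fin ℓ → Bool, (if k i₀ = b then ((Fintype.card (Fin ℓ → Bool) : ℂ))⁻¹ else 0) = 1 / 2 := by
  have hc : (Fintype.card (Fin ℓ → Bool) : ℂ) ≠ 0 := by
    exact_mod_cast Fintype.card_ne_zero
  let e : (Fin ℓ → Bool) ≃ (Fin ℓ → Bool) := Function.Involutive.toPerm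
    (fun k => Function.update k i₀ (!k i₀)) (by
      intro k
      funext j
      by_cases h : j = i₀
      · subst h
        simp
      · simp [Function.update_of_ne h])
  have h1 : ∑ k : Fin ℓ → Bool, (if k i₀ = b then ((Fintype.card (Fin ℓ → Bool) : ℂ))⁻¹ else 0) =
      ∑ k : Fin ℓ → Bool, (if k i₀ = !b then ((Fintype.card (Fin ℓ → Bool) : ℂ))⁻¹ else 0) := by
    refine Fintype.sum_equiv e _ _ fun k => ?_
    have : e k i₀ = !k i₀ := by
      change Function.update k i₀ (!k i₀) i₀ = _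
      simp
    rw [this]
    cases k i₀ <;> cases b <;> simp
  have h2 : ∑ k : Fin ℓ → Bool, (if k i₀ = b then ((Fintype.card (Fin ℓ → Bool) : ℂ))⁻¹ else 0) +
      ∑ k : Fin ℓ → Bool, (if k i₀ = !b then ((Fintype.card (Fin ℓ → Bool) : ℂ))⁻¹ else 0) = 1 := by
    rw [← Finset.sum_add_distrib]
    have : ∀ k : Fin ℓ → Bool, ((if k i₀ = b then ((Fintype.card (Fin ℓ → Bool) : ℂ))⁻¹ else 0) +
        (if k i₀ = !b then ((Fintype.card (Fin ℓ → Bool) : ℂ))⁻¹ else 0)) =
        ((Fintype.card (Fin ℓ → Bool) : ℂ))⁻¹ := by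
      intro k
      cases k i₀ <;> cases b <;> simp
    simp only [this, Finset.sum_const, Finset.card_univ, nsmul_eq_mul]
    exact mul_inv_cancel₀ hc
  rw [← h1] at h2
  linear_combination h2 / 2

variable {A B E : Type} [Fintype A] [DecidableEq A] [Fintype B] [DecidableEq B]
  [Fintype E] [DecidableEq E]

/-- The probability-like weight `tr (X ⊗ Y) ρ (X ⊗ Y)*`. -/
noncomputable def wt (ρ : Matrix (A × B) (A × B) ℂ) (X : Matrix A A ℂ) (Y : Matrix B B ℂ) : ℝ :=
  ((X ⊗ₖ Y) * ρ * (X ⊗ₖ Y)ᴴ).trace.re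

theorem traceNorm_transpose (X : Matrix E E ℂ) : traceNorm Xᵀ = traceNorm X := by
  have h : ∀ X : Matrix E E ℂ, traceNorm Xᵀ ≤ traceNorm X := by
    intro X
    refine traceNorm_le_of_forall fun W hW => ?_
    have hW' : Contr Wᵀ := by
      refine ⟨?_, ?_⟩
      · have : (1 - Wᵀ * Wᵀᴴ) = (1 - Wᴴ * W)ᵀ := by
          rw [transpose_sub, transpose_one, transpose_mul, conjTranspose_transpose_eq_transpose_conjTranspose]
        rw [this]
        exact hW.2.transpose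
      · have : (1 - Wᵀᴴ * Wᵀ) = (1 - W * Wᴴ)ᵀ := by
          rw [transpose_sub, transpose_one, transpose_mul, conjTranspose_transpose_eq_transpose_conjTranspose]
        rw [this]
        exact hW.1.transpose
    have h2 : (W * Xᵀ).trace = (Wᵀ * X).trace := by
      rw [← trace_transpose, transpose_mul, transpose_transpose, trace_mul_comm]
    rw [h2]
    exact norm_trace_mul_le hW' X
  refine le_antisymm (h X) ?_
  have := h Xᵀ
  rwa [transpose_transpose] at this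

theorem wt_eq (Ψ : Matrix (A × B) E ℂ) (X : Matrix A A ℂ) (Y : Matrix B B ℂ) :
    wt (Ψ * Ψᴴ) X Y = (eve Ψ (Xᴴ * X) (Yᴴ * Y)).trace.re := by
  change ((X ⊗ₖ Y) * (Ψ * Ψᴴ) * (X ⊗ₖ Y)ᴴ).trace.re = _
  rw [T1.eve_eq, trace_transpose, mul_kronecker_mul, ← conjTranspose_kronecker]
  congr 1
  calc ((X ⊗ₖ Y) * (Ψ * Ψᴴ) * (X ⊗ₖ Y)ᴴ).trace = (((X ⊗ₖ Y) * Ψ) * (Ψᴴ * (X ⊗ₖ Y)ᴴ)).trace := by
        simp only [Matrix.mul_assoc]
    _ = ((Ψᴴ * (X ⊗ₖ Y)ᴴ) * ((X ⊗ₖ Y) * Ψ)).trace := trace_mul_comm _ _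
    _ = _ := by simp only [Matrix.mul_assoc]

/-- Fidelity lower bound in terms of Eve's operators. -/
theorem fidelity_eve_ge (Ψ : Matrix (A × B) E ℂ) (X₀ X₁ : Matrix A A ℂ) (Y₀ Y₁ : Matrix B B ℂ) :
    ((eve Ψ (X₀ᴴ * X₀) (Y₀ᴴ * Y₀)).trace.re + (eve Ψ (X₁ᴴ * X₁) (Y₁ᴴ * Y₁)).trace.re -
      traceNorm (eve Ψ (X₀ᴴ * X₀) (Y₀ᴴ * Y₀) - eve Ψ (X₁ᴴ * X₁) (Y₁ᴴ * Y₁))) / 2 ≤
      traceNorm ((X₀ ⊗ₖ Y₀) * (Ψ * Ψᴴ) * (X₁ ⊗ₖ Y₁)ᴴ) := by
  have h := fidelity_ge ((X₀ ⊗ₖ Y₀) * Ψ) ((X₁ ⊗ₖ Y₁) * Ψ)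
  have e : ∀ (X : Matrix A A ℂ) (Y : Matrix B B ℂ), ((X ⊗ₖ Y) * Ψ)ᴴ * ((X ⊗ₖ Y) * Ψ) =
      (eve Ψ (Xᴴ * X) (Yᴴ * Y))ᵀ := by
    intro X Y
    rw [T1.eve_eq, transpose_transpose, mul_kronecker_mul, ← conjTranspose_kronecker,
      conjTranspose_mul]
    simp only [Matrix.mul_assoc]
  rw [e, e, ← transpose_sub, traceNorm_transpose, trace_transpose, trace_transpose,
    conjTranspose_mul] at h
  have e2 : (X₀ ⊗ₖ Y₀) * Ψ * (Ψᴴ * (X₁ ⊗ₖ Y₁)ᴴ) = (X₀ ⊗ₖ Y₀) * (Ψ * Ψᴴ) * (X₁ ⊗ₖ Y₁)ᴴ := by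
    simp only [Matrix.mul_assoc]
  rwa [e2] at h

theorem num_step {c e F p00 p01 p10 p11 T : ℝ} (hc : 0 < c) (he : e ≤ 1 / 64 * c)
    (a1 : -e ≤ p00 - c / 2 ∧ p00 - c / 2 ≤ e) (a2 : -e ≤ p11 - c / 2 ∧ p11 - c / 2 ≤ e)
    (b1 : p01 ≤ e) (b2 : p10 ≤ e) (_n1 : 0 ≤ p00) (n2 : 0 ≤ p11) (n3 : 0 ≤ p01) (n4 : 0 ≤ p10)
    (hT : T ≤ 2 * e) (hF : (p00 + p11 - T) / 2 ≤ F) : p00 * p01 * p10 * p11 < F ^ 4 := by
  have hFc : c * (1 / 4) ≤ F := by (clear * - hc he a1 a2 hT hF; linarith)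
  have hp00 : p00 ≤ c := by linarith only [he, a1]
  have hp11 : p11 ≤ c := by linarith only [he, a2]
  have hp01 : p01 ≤ c / 64 := by linarith only [he, b1]
  have hp10 : p10 ≤ c / 64 := by linarith only [he, b2]
  have h1 : p00 * p01 ≤ c * (c / 64) := mul_le_mul hp00 hp01 n3 hc.le
  have h2 : p10 * p11 ≤ (c / 64) * c := mul_le_mul hp10 hp11 n2 (by linarith only [hc])
  have h3 : (p00 * p01) * (p10 * p11) ≤ (c * (c / 64)) * ((c / 64) * c) :=
    mul_le_mul h1 h2 (mul_nonneg n4 n2) (by (clear * - hc; positivity))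
  have hF4 : (c * (1 / 4)) ^ 4 ≤ F ^ 4 := pow_le_pow_left₀ (by positivity) hFc 4
  have h5 : 0 < c ^ 4 := by positivity
  calc p00 * p01 * p10 * p11 = (p00 * p01) * (p10 * p11) := by ring
    _ ≤ (c * (c / 64)) * ((c / 64) * c) := h3
    _ = c ^ 4 * (1 / 4096) := by ring
    _ < c ^ 4 * (1 / 256) := by
        refine mul_lt_mul_of_pos_left (by norm_num) h5
    _ = (c * (1 / 4)) ^ 4 := by ring
    _ ≤ F ^ 4 := hF4

theorem test_of_errorLE (Ψ : Matrix (A × B) E ℂ) {ℓ : ℕ} (i₀ : Fin ℓ)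
    (π : Protocol (Fin ℓ → Bool) A B) (hπ : π.Valid) (h : π.ErrorLE Ψ (1 / 64)) :
    ∃ (X₀ X₁ : Matrix A A ℂ) (Y₀ Y₁ : Matrix B B ℂ),
      wt (Ψ * Ψᴴ) X₀ Y₀ * wt (Ψ * Ψᴴ) X₀ Y₁ * wt (Ψ * Ψᴴ) X₁ Y₀ * wt (Ψ * Ψᴴ) X₁ Y₁ <
      traceNorm ((X₀ ⊗ₖ Y₀) * (Ψ * Ψᴴ) * (X₁ ⊗ₖ Y₁)ᴴ) ^ 4 := by
  obtain ⟨σ, hσ, hσ1, hsum⟩ := h
  obtain ⟨hA, hB⟩ := eff_psd π hπ
  -- the error and the weight of a transcript
  set err : π.Transcript → ℝ := fun t => ∑ k, ∑ l, traceNorm (eve Ψ (π.effA t k) (π.effB t l) -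
      if k = l then ((Fintype.card (Fin ℓ → Bool) : ℂ)⁻¹) • σ t else 0) with herr
  have herr0 : ∀ t, 0 ≤ err t := fun t =>
    Finset.sum_nonneg fun k _ => Finset.sum_nonneg fun l _ => traceNorm_nonneg _
  have hc0 : ∀ t, 0 ≤ (σ t).trace.re := fun t => re_trace_nonneg (hσ t)
  have hc1 : ∑ t, (σ t).trace.re = 1 := by
    rw [← Complex.re_sum, hσ1, Complex.one_re]
  obtain ⟨t, ht0, ht⟩ : ∃ t, 0 < (σ t).trace.re ∧ err t ≤ (1 / 64) * (σ t).trace.re := by
    by_contra hcon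
    push Not at hcon
    have h1 : ∑ t, (1 / 64) * (σ t).trace.re < ∑ t, err t := by
      refine Finset.sum_lt_sum (fun t _ => ?_) ?_
      · rcases (hc0 t).eq_or_lt with h | h
        · rw [← h, mul_zero]
          exact herr0 t
        · exact (hcon t h).le
      · by_contra hno
        push Not at hno
        have : ∀ t, (σ t).trace.re = 0 := by
          intro t
          by_contra hne
          have hpos : 0 < (σ t).trace.re := lt_of_le_of_ne (hc0 t) (Ne.symm hne)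
          exact absurd (hcon t hpos) (not_lt.mpr (hno t (Finset.mem_univ _)))
        simp only [this, Finset.sum_const_zero] at hc1
        norm_num at hc1
    rw [← Finset.mul_sum, hc1] at h1
    linarith only [hsum, h1]
  set c := (σ t).trace.re with hc
  -- the effects for one bit of the key
  let M : Bool → Matrix A A ℂ := fun b => ∑ k, if k i₀ = b then π.effA t k else 0
  let N : Bool → Matrix B B ℂ := fun b => ∑ k, if k i₀ = b then π.effB t k else 0
  have hM : ∀ b, (M b).PosSemidef := fun b => posSemidef_sum _ fun k _ => by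
    split_ifs
    · exact hA t k
    · exact PosSemidef.zero
  have hN : ∀ b, (N b).PosSemidef := fun b => posSemidef_sum _ fun k _ => by
    split_ifs
    · exact hB t k
    · exact PosSemidef.zero
  have hR : ∀ b b', eve Ψ (M b) (N b') = ∑ k, ∑ l, if k i₀ = b ∧ l i₀ = b' then
      eve Ψ (π.effA t k) (π.effB t l) else 0 := by
    intro b b'
    change eve Ψ (∑ k, if k i₀ = b then π.effA t k else 0)
      (∑ k, if k i₀ = b' then π.effB t k else 0) = _
    rw [eve_sum_left]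
    refine Finset.sum_congr rfl fun k _ => ?_
    rw [eve_sum_right]
    refine Finset.sum_congr rfl fun l _ => ?_
    by_cases h1 : k i₀ = b
    · by_cases h2 : l i₀ = b'
      · rw [if_pos h1, if_pos h2, if_pos ⟨h1, h2⟩]
      · have h3 : ¬ (k i₀ = b ∧ l i₀ = b') := fun h => h2 h.2
        rw [if_neg h2, if_neg h3, eve_zero_right]
    · have h3 : ¬ (k i₀ = b ∧ l i₀ = b') := fun h => h1 h.1
      rw [if_neg h1, if_neg h3, eve_zero_left]
  have hS : ∀ b b', ∑ k : Fin ℓ → Bool, ∑ l : Fin ℓ → Bool, (if k i₀ = b ∧ l i₀ = b' then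
      (if k = l then ((Fintype.card (Fin ℓ → Bool) : ℂ)⁻¹) • σ t else 0) else 0) =
      if b = b' then (1 / 2 : ℂ) • σ t else 0 := by
    intro b b'
    have h1 : ∀ k : Fin ℓ → Bool, ∑ l : Fin ℓ → Bool, (if k i₀ = b ∧ l i₀ = b' then
      (if k = l then ((Fintype.card (Fin ℓ → Bool) : ℂ)⁻¹) • σ t else 0) else 0) =
      (if b = b' then (if k i₀ = b then ((Fintype.card (Fin ℓ → Bool) : ℂ)⁻¹) else 0) else 0) •
        σ t := by
      intro k
      rw [Finset.sum_eq_single k]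
      · by_cases h2 : k i₀ = b
        · subst h2
          by_cases h3 : k i₀ = b'
          · simp only [h3, and_self, ↓reduceIte, Fintype.card_pi, Fintype.card_bool, Finset.prod_const, Finset.card_univ, Fintype.card_fin, Nat.cast_pow, Nat.cast_ofNat]
          · simp [h3]
        · simp [h2]
      · intro l _ hl
        simp [hl.symm]
      · simp only [Finset.mem_univ, not_true_eq_false, ↓reduceIte, Fintype.card_pi, Fintype.card_bool, Finset.prod_const, Finset.card_univ, Fintype.card_fin, Nat.cast_pow, Nat.cast_ofNat, ite_eq_right_iff, isUnit_iff_ne_zero, ne_eq, inv_eq_zero, pow_eq_zero_iff', OfNat.ofNat_ne_zero, false_and, not_false_eq_true, IsUnit.smul_eq_zero, and_imp, IsEmpty.forall_iff]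
    simp only [h1]
    rw [← Finset.sum_smul]
    by_cases hb : b = b'
    · simp only [hb, if_true]
      rw [half_bits]
    · simp [hb]
  have hT : ∀ b b', traceNorm (eve Ψ (M b) (N b') - if b = b' then (1 / 2 : ℂ) • σ t else 0) ≤
      err t := by
    intro b b'
    rw [hR, ← hS, ← Finset.sum_sub_distrib]
    refine (traceNorm_sum_le _ _).trans (Finset.sum_le_sum fun k _ => ?_)
    rw [← Finset.sum_sub_distrib]
    refine (traceNorm_sum_le _ _).trans (Finset.sum_le_sum fun l _ => ?_)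
    by_cases h1 : k i₀ = b ∧ l i₀ = b'
    · rw [if_pos h1, if_pos h1]
    · rw [if_neg h1, if_neg h1, sub_zero, traceNorm_zero]
      exact traceNorm_nonneg _
  have hpsd : ∀ b b', (eve Ψ (M b) (N b')).PosSemidef := fun b b' =>
    eve_posSemidef Ψ (hM b) (hN b')
  have hoff : ∀ b b', b ≠ b' → (eve Ψ (M b) (N b')).trace.re ≤ err t := by
    intro b b' hb
    have := hT b b'
    rw [if_neg hb, sub_zero, traceNorm_of_posSemidef (hpsd b b')] at this
    exact this
  have hdiag : ∀ b, |(eve Ψ (M b) (N b)).trace.re - c / 2| ≤ err t := by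
    intro b
    have h1 := hT b b
    rw [if_pos rfl] at h1
    have h2 := (norm_trace_le (eve Ψ (M b) (N b) - (1 / 2 : ℂ) • σ t)).trans h1
    refine le_trans ?_ ((Complex.abs_re_le_norm _).trans h2)
    rw [trace_sub, trace_smul, Complex.sub_re, smul_eq_mul]
    have : ((1 / 2 : ℂ) * (σ t).trace).re = c / 2 := by
      have h3 : (1 / 2 : ℂ) = (((1 / 2 : ℝ)) : ℂ) := by push_cast; rfl
      rw [h3, Complex.re_ofReal_mul, hc]
      ring
    rw [this]
  have hdd : traceNorm (eve Ψ (M false) (N false) - eve Ψ (M true) (N true)) ≤ 2 * err t := by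
    have h1 := hT false false
    have h2 := hT true true
    rw [if_pos rfl] at h1 h2
    have h3 : eve Ψ (M false) (N false) - eve Ψ (M true) (N true) =
        (eve Ψ (M false) (N false) - (1 / 2 : ℂ) • σ t) -
        (eve Ψ (M true) (N true) - (1 / 2 : ℂ) • σ t) := by abel
    rw [h3]
    refine (traceNorm_sub_le _ _).trans ?_
    linarith only [h1, h2]
  choose X hX using fun b => exists_eq_conjTranspose_mul_self (hM b)
  choose Y hY using fun b => exists_eq_conjTranspose_mul_self (hN b)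
  refine ⟨X false, X true, Y false, Y true, ?_⟩
  simp only [wt_eq, ← hX, ← hY]
  have hF := fidelity_eve_ge Ψ (X false) (X true) (Y false) (Y true)
  simp only [← hX, ← hY] at hF
  set F := traceNorm ((X false ⊗ₖ Y false) * (Ψ * Ψᴴ) * (X true ⊗ₖ Y true)ᴴ)
  exact num_step ht0 ht (abs_le.mp (hdiag false)) (abs_le.mp (hdiag true))
    (hoff false true (by simp)) (hoff true false (by simp)) (re_trace_nonneg (hpsd false false))
    (re_trace_nonneg (hpsd true true)) (re_trace_nonneg (hpsd false true))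
    (re_trace_nonneg (hpsd true false)) hdd hF

/-- If key can be distilled then some test of finitely many copies succeeds. -/
theorem test_of_KD_pos (Ψ : Matrix (A × B) E ℂ) (h : 0 < KD Ψ) :
    ∃ n : ℕ, 1 ≤ n ∧ ∃ (X₀ X₁ : Matrix (Fin n → A) (Fin n → A) ℂ)
      (Y₀ Y₁ : Matrix (Fin n → B) (Fin n → B) ℂ),
      wt (copies n Ψ * (copies n Ψ)ᴴ) X₀ Y₀ * wt (copies n Ψ * (copies n Ψ)ᴴ) X₀ Y₁ *
      wt (copies n Ψ * (copies n Ψ)ᴴ) X₁ Y₀ * wt (copies n Ψ * (copies n Ψ)ᴴ) X₁ Y₁ <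
      traceNorm ((X₀ ⊗ₖ Y₀) * (copies n Ψ * (copies n Ψ)ᴴ) * (X₁ ⊗ₖ Y₁)ᴴ) ^ 4 := by
  obtain ⟨R, ⟨ℓ, π, ε, hπ, hε, hlim, hR⟩, hR0⟩ := lt_sSup_iff.mp h
  rw [hR] at hR0
  have hev : ∀ᶠ n : ℕ in atTop, (0 : EReal) < (((ℓ n : ℝ) / (n : ℝ) : ℝ) : EReal) :=
    eventually_lt_of_lt_liminf hR0 (by isBoundedDefault)
  have hev2 : ∀ᶠ n : ℕ in atTop, ε n < 1 / 64 := hlim.eventually_lt_const (by norm_num)
  obtain ⟨n, h1, h2, h3⟩ := (hev.and (hev2.and (eventually_ge_atTop 1))).exists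
  have hℓ : 0 < ℓ n := by
    rcases Nat.eq_zero_or_pos (ℓ n) with h4 | h4
    · rw [h4] at h1
      simp at h1
    · exact h4
  obtain ⟨σ, hσ1, hσ2, hσ3⟩ := hε n
  exact ⟨n, h3, test_of_errorLE (copies n Ψ) ⟨0, hℓ⟩ (π n) (hπ n)
    ⟨σ, hσ1, hσ2, hσ3.trans h2.le⟩⟩

end Vale.Agent.P372
end
end
end

section

section

section

open Matrix Kronecker Filter Topology
open scoped ComplexOrder MatrixOrder

set_option linter.unusedSectionVars false

namespace Vale.Agent.P372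

variable {A B E : Type} [Fintype A] [DecidableEq A] [Fintype B] [DecidableEq B]
  [Fintype E] [DecidableEq E]

theorem copies_mul (n : ℕ) (Ψ : Matrix (A × B) E ℂ) :
    copies n Ψ * (copies n Ψ)ᴴ = tpow n (Ψ * Ψᴴ) := by
  ext p q
  change _ = ∏ i, (Ψ * Ψᴴ) (p.1 i, p.2 i) (q.1 i, q.2 i)
  rw [Matrix.mul_apply]
  have h1 : ∀ z : Fin n → E, copies n Ψ p z * (copies n Ψ)ᴴ z q =
      ∏ i, (Ψ (p.1 i, p.2 i) (z i) * star (Ψ (q.1 i, q.2 i) (z i))) := by
    intro z
    rw [conjTranspose_apply]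
    change (∏ i, Ψ (p.1 i, p.2 i) (z i)) * star (∏ i, Ψ (q.1 i, q.2 i) (z i)) = _
    rw [star_prod, Finset.prod_mul_distrib]
  simp only [h1]
  have h2 := Finset.prod_univ_sum (fun _ : Fin n => (Finset.univ : Finset E))
    (fun i z => Ψ (p.1 i, p.2 i) z * star (Ψ (q.1 i, q.2 i) z))
  simp only [Fintype.piFinset_univ] at h2
  rw [← h2]
  refine Finset.prod_congr rfl fun i _ => ?_
  rw [Matrix.mul_apply]
  rfl

theorem traceNorm_le_sum (X : Matrix E E ℂ) :
    traceNorm X ≤ ∑ i, ∑ j, ‖X i j‖ * traceNorm (Matrix.single i j (1 : ℂ)) := by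
  have h : X = ∑ i, ∑ j, X i j • Matrix.single i j (1 : ℂ) := by
    ext a b
    simp only [Matrix.sum_apply, Matrix.smul_apply, Matrix.single_apply, smul_eq_mul]
    rw [Finset.sum_eq_single a, Finset.sum_eq_single b]
    · simp
    · intro j _ hj
      simp [hj]
    · simp only [Finset.mem_univ, not_true_eq_false, and_self, ↓reduceIte, mul_one, IsEmpty.forall_iff]
    · intro i _ hi
      refine Finset.sum_eq_zero fun j _ => ?_
      simp [hi]
    · simp only [Finset.mem_univ, not_true_eq_false, true_and, mul_ite, mul_one, mul_zero, Finset.sum_ite_eq', ↓reduceIte, IsEmpty.forall_iff]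
  conv_lhs => rw [h]
  refine (traceNorm_sum_le _ _).trans (Finset.sum_le_sum fun i _ => ?_)
  refine (traceNorm_sum_le _ _).trans (Finset.sum_le_sum fun j _ => ?_)
  exact traceNorm_smul_le _ _

theorem continuous_traceNorm : Continuous (fun X : Matrix E E ℂ => traceNorm X) := by
  rw [continuous_iff_continuousAt]
  intro X
  have h0 : Tendsto (fun Y : Matrix E E ℂ => ∑ i, ∑ j, ‖(Y - X) i j‖ *
      traceNorm (Matrix.single i j (1 : ℂ))) (𝓝 X) (𝓝 0) := by
    have hc : Continuous (fun Y : Matrix E E ℂ => ∑ i, ∑ j, ‖(Y - X) i j‖ *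
      traceNorm (Matrix.single i j (1 : ℂ))) := by
      refine continuous_finsetSum _ fun i _ => continuous_finsetSum _ fun j _ => ?_
      refine Continuous.mul ?_ continuous_const
      refine continuous_norm.comp ?_
      exact (continuous_id.sub continuous_const).matrix_elem i j
    have := hc.tendsto X
    simpa only [Matrix.sub_apply, sub_self, norm_zero, zero_mul, Finset.sum_const_zero] using this
  rw [ContinuousAt, tendsto_iff_dist_tendsto_zero]
  refine squeeze_zero (fun _ => dist_nonneg) (fun Y => ?_) h0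
  rw [Real.dist_eq]
  refine le_trans ?_ (traceNorm_le_sum (Y - X))
  rw [abs_le]
  constructor
  · have h1 : traceNorm X ≤ traceNorm Y + traceNorm (Y - X) := by
      have : X = Y - (Y - X) := by abel
      conv_lhs => rw [this]
      exact traceNorm_sub_le _ _
    linarith
  · have h1 : traceNorm Y ≤ traceNorm X + traceNorm (Y - X) := by
      have : Y = X + (Y - X) := by abel
      conv_lhs => rw [this]
      exact traceNorm_add_le _ _
    linarith only [h1]

theorem continuous_tpow (n : ℕ) :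
    Continuous (fun ρ : Matrix (A × B) (A × B) ℂ => tpow n ρ) := by
  refine continuous_matrix fun p q => ?_
  change Continuous (fun ρ : Matrix (A × B) (A × B) ℂ =>
    ∏ i, ρ (p.1 i, p.2 i) (q.1 i, q.2 i))
  exact continuous_finsetProd _ fun i _ => continuous_id.matrix_elem _ _

theorem isOpen_keyTest (n : ℕ) :
    IsOpen {ρ : Matrix (A × B) (A × B) ℂ | KeyTest1 (tpow n ρ)} := by
  have hset : {ρ : Matrix (A × B) (A × B) ℂ | KeyTest1 (tpow n ρ)} =
      ⋃ (X₀ : Matrix (Fin n → A) (Fin n → A) ℂ), ⋃ (X₁ : Matrix (Fin n → A) (Fin n → A) ℂ),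
      ⋃ (Y₀ : Matrix (Fin n → B) (Fin n → B) ℂ), ⋃ (Y₁ : Matrix (Fin n → B) (Fin n → B) ℂ),
      {ρ : Matrix (A × B) (A × B) ℂ | weight (tpow n ρ) X₀ Y₀ * weight (tpow n ρ) X₀ Y₁ *
        weight (tpow n ρ) X₁ Y₀ * weight (tpow n ρ) X₁ Y₁ <
        traceNorm ((X₀ ⊗ₖ Y₀) * tpow n ρ * (X₁ ⊗ₖ Y₁)ᴴ) ^ 4} := by
    ext ρ
    simp only [Set.mem_ofPred_eq, Set.mem_iUnion]
    rfl
  rw [hset]
  refine isOpen_iUnion fun X₀ => isOpen_iUnion fun X₁ => isOpen_iUnion fun Y₀ =>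
    isOpen_iUnion fun Y₁ => ?_
  have hconj : ∀ (U V : Matrix ((Fin n → A) × (Fin n → B)) ((Fin n → A) × (Fin n → B)) ℂ),
      Continuous (fun ρ : Matrix (A × B) (A × B) ℂ => U * tpow n ρ * V) := fun U V =>
    (continuous_const.matrix_mul (continuous_tpow n)).matrix_mul continuous_const
  have hw : ∀ (X : Matrix (Fin n → A) (Fin n → A) ℂ) (Y : Matrix (Fin n → B) (Fin n → B) ℂ),
      Continuous (fun ρ : Matrix (A × B) (A × B) ℂ => weight (tpow n ρ) X Y) := fun X Y =>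
    Complex.continuous_re.comp (hconj _ _).matrix_trace
  exact isOpen_lt ((((hw _ _).mul (hw _ _)).mul (hw _ _)).mul (hw _ _))
    ((continuous_traceNorm.comp (hconj _ _)).pow 4)

end Vale.Agent.P372
end
end
end

section

section

section

/-! Lemmas for the advantage distillation and XOR step. -/

open Matrix Kronecker
open scoped ComplexOrder MatrixOrder

set_option linter.unusedSectionVars false

namespace Vale.Agent.P372

namespace Xor

variable {ι : Type} [Fintype ι] [DecidableEq ι]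
variable {E F G : Type} [Fintype E] [DecidableEq E] [Fintype F] [DecidableEq F] [Fintype G]
  [DecidableEq G]

theorem hs_piT (X : ι → Matrix E F ℂ) : hs (piT X) = ∏ i, hs (X i) := by
  have h : (hs (piT X) : ℂ) = ((∏ i, hs (X i) : ℝ) : ℂ) := by
    rw [← trace_conjTranspose_mul_self, piT_conjTranspose, ← piT_mul, piT_trace]
    push_cast
    refine Finset.prod_congr rfl fun i _ => ?_
    rw [trace_conjTranspose_mul_self]
  exact_mod_cast h

theorem one_sub_piT_posSemidef {C : ι → Matrix E E ℂ} (h0 : ∀ i, (C i).PosSemidef)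
    (h1 : ∀ i, (1 - C i).PosSemidef) : (1 - piT C).PosSemidef := by
  have h2 : (1 : Matrix (ι → E) (ι → E) ℂ) = piT (fun i => ∑ b : Bool, if b then C i else 1 - C i) := by
    rw [← piT_one (ι := ι) (E := E)]
    congr 1
    funext i
    simp
  have h3 : piT C = piT (fun i => if (fun _ : ι => true) i then C i else 1 - C i) := by
    congr 1
  rw [h2, piT_sum, h3, ← Finset.add_sum_erase Finset.univ _ (Finset.mem_univ (fun _ : ι => true)),
    add_sub_cancel_left]
  refine posSemidef_sum _ fun x _ => piT_posSemidef fun i => ?_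
  by_cases hx : x i = true
  · rw [if_pos hx]; exact h0 i
  · rw [if_neg hx]; exact h1 i

theorem contr_piT {W : ι → Matrix E E ℂ} (h : ∀ i, Contr (W i)) : Contr (piT W) := by
  refine ⟨?_, ?_⟩
  · rw [piT_conjTranspose, ← piT_mul]
    exact one_sub_piT_posSemidef (fun i => posSemidef_self_mul_conjTranspose _) fun i => (h i).1
  · rw [piT_conjTranspose, ← piT_mul]
    exact one_sub_piT_posSemidef (fun i => posSemidef_conjTranspose_mul_self _) fun i => (h i).2

theorem contr_of_hermitian {W : Matrix E E ℂ} (hW : Wᴴ = W) (h1 : (1 - W).PosSemidef)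
    (h2 : (1 + W).PosSemidef) : Contr W := by
  have e1 : (1 + W)ᴴ = 1 + W := by rw [conjTranspose_add, conjTranspose_one, hW]
  have e2 : (1 - W)ᴴ = 1 - W := by rw [conjTranspose_sub, conjTranspose_one, hW]
  have h3 : (1 - W * W).PosSemidef := by
    have h4 : (1 : Matrix E E ℂ) - W * W = ((1 / 2 : ℝ) : ℂ) •
        ((1 + W)ᴴ * (1 - W) * (1 + W) + (1 - W)ᴴ * (1 + W) * (1 - W)) := by
      rw [e1, e2]
      have : (1 + W) * (1 - W) * (1 + W) + (1 - W) * (1 + W) * (1 - W)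
          = (2 : ℂ) • (1 - W * W) := by
        rw [two_smul]; noncomm_ring
      rw [this, smul_smul]
      norm_num
    rw [h4]
    exact ((h1.conjTranspose_mul_mul_same _).add (h2.conjTranspose_mul_mul_same _)).smul
      (by exact_mod_cast (by norm_num : (0 : ℝ) ≤ 1 / 2))
  exact ⟨by rw [hW]; exact h3, by rw [hW]; exact h3⟩

theorem traceNorm_mul_le_hs (K L : Matrix G E ℂ) : traceNorm (Kᴴ * L) ≤ √(hs K) * √(hs L) := by
  refine traceNorm_le_of_forall fun W hW => ?_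
  rw [← Matrix.mul_assoc]
  refine (norm_trace_mul_le_hs _ _).trans ?_
  refine mul_le_mul_of_nonneg_right (Real.sqrt_le_sqrt ?_) (Real.sqrt_nonneg _)
  rw [← hs_conjTranspose K]
  exact hs_mul_le_left hW.2 _

theorem hs_add_add_hs_sub' (Q L : Matrix G E ℂ) :
    hs (Q + L) = hs Q + 2 * (Q * Lᴴ).trace.re + hs L ∧
    hs (Q - L) = hs Q - 2 * (Q * Lᴴ).trace.re + hs L := by
  have h1 : (L * Qᴴ).trace.re = (Q * Lᴴ).trace.re := by
    have : (L * Qᴴ).trace = star ((Q * Lᴴ).trace) := by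
      rw [← trace_conjTranspose, conjTranspose_mul, conjTranspose_conjTranspose]
    rw [this, RCLike.star_def, Complex.conj_re]
  have h2 : ∀ M : Matrix G E ℂ, hs M = (M * Mᴴ).trace.re := by
    intro M
    rw [← hs_conjTranspose, hs_eq_re, conjTranspose_conjTranspose]
  constructor
  · rw [h2, h2 Q, h2 L, conjTranspose_add, Matrix.add_mul, Matrix.mul_add, Matrix.mul_add,
      trace_add, trace_add, trace_add]
    simp only [Complex.add_re, h1]
    ring
  · rw [h2, h2 Q, h2 L, conjTranspose_sub, Matrix.sub_mul, Matrix.mul_sub, Matrix.mul_sub,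
      trace_sub, trace_sub, trace_sub]
    simp only [Complex.sub_re, h1]
    ring

theorem le_of_sq_le_sq' {a b : ℝ} (h : a ^ 2 ≤ b ^ 2) (hb : 0 ≤ b) : a ≤ b := by
  by_contra hc
  nlinarith [not_le.mp hc]

/-- Fuchs and van de Graaf: the trace distance is bounded by the fidelity. -/
theorem fvdg {Φ₀ Φ₁ : Matrix G E ℂ} {W : Matrix G G ℂ} (hW : Contr W) {p f : ℝ} (hf : 0 ≤ f)
    (h0 : hs Φ₀ = p) (h1 : hs Φ₁ = p) (h : (W * (Φ₀ * Φ₁ᴴ)).trace = (f : ℂ)) :
    traceNorm (Φ₀ᴴ * Φ₀ - Φ₁ᴴ * Φ₁) ≤ 2 * √(p ^ 2 - f ^ 2) := by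
  have hp : 0 ≤ p := h0 ▸ hs_nonneg Φ₀
  set a : ℝ := hs (W * Φ₀) with ha
  have ha0 : 0 ≤ a := hs_nonneg _
  have hap : a ≤ p := h0 ▸ hs_mul_le_left hW.2 Φ₀
  have hfa : f ^ 2 ≤ a * p := by
    have e1 : ‖(W * (Φ₀ * Φ₁ᴴ)).trace‖ ≤ √a * √p := by
      rw [← Matrix.mul_assoc, ← h1, ← hs_conjTranspose Φ₁]
      exact norm_trace_mul_le_hs _ _
    rw [h, Complex.norm_real, Real.norm_of_nonneg hf] at e1
    calc f ^ 2 ≤ (√a * √p) ^ 2 := pow_le_pow_left₀ hf e1 2
      _ = a * p := by rw [mul_pow, Real.sq_sqrt ha0, Real.sq_sqrt hp]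
  -- decomposition
  have e2 : Φ₀ᴴ * Φ₀ - Φ₁ᴴ * Φ₁ = Φ₀ᴴ * (1 - Wᴴ * W) * Φ₀ +
      (((1 / 2 : ℝ) : ℂ) • ((W * Φ₀ + Φ₁)ᴴ * (W * Φ₀ - Φ₁)) +
       ((1 / 2 : ℝ) : ℂ) • ((W * Φ₀ - Φ₁)ᴴ * (W * Φ₀ + Φ₁))) := by
    rw [← smul_add]
    have e3 : (W * Φ₀ + Φ₁)ᴴ * (W * Φ₀ - Φ₁) + (W * Φ₀ - Φ₁)ᴴ * (W * Φ₀ + Φ₁)
        = (2 : ℂ) • ((W * Φ₀)ᴴ * (W * Φ₀) - Φ₁ᴴ * Φ₁) := by
      rw [two_smul, conjTranspose_add, conjTranspose_sub]
      simp only [Matrix.add_mul, Matrix.mul_add, Matrix.sub_mul, Matrix.mul_sub]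
      abel
    rw [e3, smul_smul, conjTranspose_mul, Matrix.mul_sub, Matrix.sub_mul, Matrix.mul_one]
    norm_num
    simp only [Matrix.mul_assoc]
    abel
  have e4 := (hs_add_add_hs_sub' (W * Φ₀) Φ₁)
  rw [Matrix.mul_assoc, h, Complex.ofReal_re, ← ha, h1] at e4
  have e5 : traceNorm (Φ₀ᴴ * (1 - Wᴴ * W) * Φ₀) = p - a := by
    rw [traceNorm_of_posSemidef (hW.2.conjTranspose_mul_mul_same Φ₀)]
    have : Φ₀ᴴ * (1 - Wᴴ * W) * Φ₀ = Φ₀ᴴ * Φ₀ - (W * Φ₀)ᴴ * (W * Φ₀) := by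
      rw [conjTranspose_mul, Matrix.mul_sub, Matrix.sub_mul, Matrix.mul_one]
      simp only [Matrix.mul_assoc]
    rw [this, trace_sub, Complex.sub_re, ← hs_eq_re, ← hs_eq_re, h0]
  have e6 : traceNorm (((1 / 2 : ℝ) : ℂ) • ((W * Φ₀ + Φ₁)ᴴ * (W * Φ₀ - Φ₁))) ≤
      1 / 2 * (√(a + 2 * f + p) * √(a - 2 * f + p)) := by
    rw [traceNorm_smul, Complex.norm_real, Real.norm_of_nonneg (by norm_num)]
    refine mul_le_mul_of_nonneg_left ?_ (by norm_num)
    rw [← e4.1, ← e4.2]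
    exact traceNorm_mul_le_hs _ _
  have e7 : traceNorm (((1 / 2 : ℝ) : ℂ) • ((W * Φ₀ - Φ₁)ᴴ * (W * Φ₀ + Φ₁))) ≤
      1 / 2 * (√(a + 2 * f + p) * √(a - 2 * f + p)) := by
    rw [traceNorm_smul, Complex.norm_real, Real.norm_of_nonneg (by norm_num)]
    refine mul_le_mul_of_nonneg_left ?_ (by norm_num)
    rw [← e4.1, ← e4.2, mul_comm (√(hs (W * Φ₀ + Φ₁)))]
    exact traceNorm_mul_le_hs _ _
  have e8 : traceNorm (Φ₀ᴴ * Φ₀ - Φ₁ᴴ * Φ₁) ≤ (p - a) + √(a + 2 * f + p) * √(a - 2 * f + p) := by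
    rw [e2]
    refine (traceNorm_add_le _ _).trans ?_
    rw [e5]
    have := (traceNorm_add_le (((1 / 2 : ℝ) : ℂ) • ((W * Φ₀ + Φ₁)ᴴ * (W * Φ₀ - Φ₁)))
      (((1 / 2 : ℝ) : ℂ) • ((W * Φ₀ - Φ₁)ᴴ * (W * Φ₀ + Φ₁))))
    linarith only [e6, e7, this]
  refine e8.trans ?_
  -- the scalar inequality
  have hg : 0 ≤ a + 2 * f + p := by linarith only [hf, hp, ha0]
  rw [← Real.sqrt_mul hg]
  have hpf : 0 ≤ p ^ 2 - f ^ 2 := by nlinarith only [hfa, hp, hap]
  set g := √(p ^ 2 - f ^ 2) with hgdef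
  have hg2 : g ^ 2 = p ^ 2 - f ^ 2 := Real.sq_sqrt hpf
  have hg0 : 0 ≤ g := Real.sqrt_nonneg _
  have hgp : g ≤ p := by
    rw [hgdef, Real.sqrt_le_left hp]
    nlinarith only []
  have hgd : p - a ≤ 2 * g := by
    have h5 : (p - a) ^ 2 ≤ (2 * g) ^ 2 := by
      rw [mul_pow, hg2]
      nlinarith only [hfa, ha0, hap]
    exact le_of_sq_le_sq' h5 (by linarith only [hg0])
  have h6 : √((a + 2 * f + p) * (a - 2 * f + p)) ≤ 2 * g - (p - a) := by
    rw [Real.sqrt_le_left (by linarith only [hgd])]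
    nlinarith only [hg2, hap, hgp]
  linarith only [h6]

end Xor

end Vale.Agent.P372
end
end
end

section

section

section

/-! The XOR step: a biased, noisy bit that is partly known to Eve is good enough. -/

open Matrix Kronecker
open scoped ComplexOrder MatrixOrder

set_option linter.unusedSectionVars false

namespace Vale.Agent.P372

namespace Xor

variable {A B E : Type} [Fintype A] [DecidableEq A] [Fintype B] [DecidableEq B]
  [Fintype E] [DecidableEq E]

/-- Fourth root and pseudo-inverse of a positive semidefinite matrix. -/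
theorem exists_pinv {X : Matrix E E ℂ} (hX : X.PosSemidef) :
    ∃ P P' S : Matrix E E ℂ, P.PosSemidef ∧ P'ᴴ = P' ∧ (1 - S).PosSemidef ∧
      (P * P) * (P * P) = X ∧ P * P' = S ∧ P' * P = S ∧ S * P = P ∧ P * S = P ∧ S * S = S ∧
      Sᴴ = S ∧ X * S = X := by
  have h0 := hX.eigenvalues_nonneg
  set r : ℝ → ℝ := fun x => √√x with hr
  have hr0 : ∀ i, hX.1.eigenvalues i ≠ 0 → r (hX.1.eigenvalues i) ≠ 0 := by
    intro i h
    simp only [hr]
    rw [Ne, Real.sqrt_eq_zero (Real.sqrt_nonneg _), Real.sqrt_eq_zero (h0 i)]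
    exact h
  refine ⟨fcalc hX.1 r, fcalc hX.1 (fun x => (r x)⁻¹),
    fcalc hX.1 (fun x => if x = 0 then 0 else 1),
    fcalc_posSemidef _ fun i => Real.sqrt_nonneg _,
    fcalc_isHermitian _ _, ?_, ?_, ?_, ?_, ?_, ?_, ?_, fcalc_isHermitian _ _, ?_⟩
  · rw [← fcalc_one hX.1, fcalc_sub]
    refine fcalc_posSemidef _ fun i => ?_
    split_ifs <;> norm_num
  · rw [fcalc_mul, fcalc_mul]
    refine fcalc_eq_self _ fun i => ?_
    simp only [hr]
    rw [Real.mul_self_sqrt (Real.sqrt_nonneg _), Real.mul_self_sqrt (h0 i)]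
  · rw [fcalc_mul]
    refine fcalc_congr _ fun i => ?_
    by_cases h : hX.1.eigenvalues i = 0
    · simp [h, hr]
    · simp [h, mul_inv_cancel₀ (hr0 i h)]
  · rw [fcalc_mul]
    refine fcalc_congr _ fun i => ?_
    by_cases h : hX.1.eigenvalues i = 0
    · simp [h, hr]
    · simp [h, inv_mul_cancel₀ (hr0 i h)]
  · rw [fcalc_mul]
    refine fcalc_congr _ fun i => ?_
    by_cases h : hX.1.eigenvalues i = 0
    · simp [h, hr]
    · simp [h]
  · rw [fcalc_mul]
    refine fcalc_congr _ fun i => ?_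
    by_cases h : hX.1.eigenvalues i = 0
    · simp [h, hr]
    · simp [h]
  · rw [fcalc_mul]
    refine fcalc_congr _ fun i => ?_
    by_cases h : hX.1.eigenvalues i = 0 <;> simp [h]
  · rw [self_mul_fcalc]
    refine fcalc_eq_self _ fun i => ?_
    by_cases h : hX.1.eigenvalues i = 0 <;> simp [h]

theorem mulVec_eq_zero_of_between {X D : Matrix E E ℂ} (h1 : (X + D).PosSemidef)
    (h2 : (X - D).PosSemidef) {v : E → ℂ} (hv : X *ᵥ v = 0) : D *ᵥ v = 0 := by
  have e1 : star v ⬝ᵥ ((X + D) *ᵥ v) = star v ⬝ᵥ (D *ᵥ v) := by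
    rw [add_mulVec, hv, zero_add]
  have e2 : star v ⬝ᵥ ((X - D) *ᵥ v) = -(star v ⬝ᵥ (D *ᵥ v)) := by
    rw [sub_mulVec, hv, zero_sub, dotProduct_neg]
  have h3 := h1.dotProduct_mulVec_nonneg v
  have h4 := h2.dotProduct_mulVec_nonneg v
  rw [e1] at h3
  rw [e2] at h4
  have h5 : star v ⬝ᵥ (D *ᵥ v) = 0 := le_antisymm (neg_nonneg.mp h4) h3
  have h6 : (X + D) *ᵥ v = 0 := by
    rw [← h1.dotProduct_mulVec_zero_iff, e1, h5]
  rwa [add_mulVec, hv, zero_add] at h6

/-- The sign of a bit. -/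
def sg (x : Bool) : ℝ := if x then 1 else -1

theorem sg_true : sg true = 1 := rfl
theorem sg_false : sg false = -1 := rfl

theorem sg_prod {L : ℕ} (x : Bool) (z : Fin L → Bool) : 0 ≤ 1 + sg x * ∏ i, sg (z i) := by
  have h : |sg x * ∏ i, sg (z i)| = 1 := by
    rw [abs_mul, Finset.abs_prod]
    have : ∀ y, |sg y| = 1 := by intro y; cases y <;> simp [sg]
    simp only [this, Finset.prod_const_one, mul_one]
  have := neg_abs_le (sg x * ∏ i, sg (z i))
  linarith only [h, this]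

/-- The effect of keeping all rounds with parity `x`. -/
noncomputable def par (L : ℕ) (a : Bool → Matrix A A ℂ) (x : Bool) :
    Matrix (Fin L → A) (Fin L → A) ℂ :=
  ((1 / 2 : ℝ) : ℂ) • (piT (fun _ => a true + a false) + (sg x : ℂ) • piT (fun _ => a true - a false))

theorem par_posSemidef {L : ℕ} {a : Bool → Matrix A A ℂ} (ha : ∀ x, (a x).PosSemidef)
    (x : Bool) : (par L a x).PosSemidef := by
  have h1 : (fun _ : Fin L => a true + a false) = fun _ => ∑ z : Bool, a z := by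
    funext i
    rw [Fintype.sum_bool]
  have h2 : (fun _ : Fin L => a true - a false) = fun _ => ∑ z : Bool, (sg z : ℂ) • a z := by
    funext i
    rw [Fintype.sum_bool, sg_true, sg_false]
    push_cast
    rw [one_smul, neg_smul, one_smul, sub_eq_add_neg]
  have h3 : ∀ z : Fin L → Bool, piT (fun i => (sg (z i) : ℂ) • a (z i)) =
      (∏ i, (sg (z i) : ℂ)) • piT (fun i => a (z i)) := by
    intro z
    ext e f
    change (∏ i, ((sg (z i) : ℂ) • a (z i)) (e i) (f i)) = _ * ∏ i, a (z i) (e i) (f i)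
    rw [← Finset.prod_mul_distrib]
    rfl
  have h4 : par L a x = ((1 / 2 : ℝ) : ℂ) •
      ∑ z : Fin L → Bool, ((1 + sg x * ∏ i, sg (z i) : ℝ) : ℂ) • piT (fun i => a (z i)) := by
    rw [par, h1, h2, piT_sum, piT_sum, Finset.smul_sum, ← Finset.sum_add_distrib]
    congr 1
    refine Finset.sum_congr rfl fun z _ => ?_
    rw [h3, smul_smul]
    push_cast
    rw [add_smul, one_smul]
  rw [h4]
  refine PosSemidef.smul (posSemidef_sum _ fun z _ => ?_)
    (by exact_mod_cast (by norm_num : (0 : ℝ) ≤ 1 / 2))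
  exact (piT_posSemidef fun i => ha _).smul (by exact_mod_cast sg_prod x z)

theorem par_sum (L : ℕ) (a : Bool → Matrix A A ℂ) :
    ∑ x, par L a x = piT (fun _ => a true + a false) := by
  rw [Fintype.sum_bool, par, par, sg_true, sg_false, ← smul_add]
  push_cast
  rw [one_smul, neg_smul, one_smul]
  have : piT (fun _ : Fin L => a true + a false) + piT (fun _ => a true - a false) +
      (piT (fun _ => a true + a false) + -piT (fun _ => a true - a false)) =
      (2 : ℂ) • piT (fun _ : Fin L => a true + a false) := by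
    rw [two_smul]
    abel
  rw [this, smul_smul]
  norm_num

/-- The flagged measurement. -/
noncomputable def meas (L : ℕ) (a : Bool → Matrix A A ℂ) (α : Option Bool) :
    Matrix (Fin L → A) (Fin L → A) ℂ :=
  α.elim (1 - piT (fun _ => a true + a false)) (par L a)

theorem meas_posSemidef {L : ℕ} {a : Bool → Matrix A A ℂ} (ha : ∀ x, (a x).PosSemidef)
    (ha1 : (1 - (a true + a false)).PosSemidef) (α : Option Bool) :
    (meas L a α).PosSemidef := by
  cases α with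
  | none => exact one_sub_piT_posSemidef (fun _ => (ha _).add (ha _)) fun _ => ha1
  | some x => exact par_posSemidef ha x

theorem meas_sum (L : ℕ) (a : Bool → Matrix A A ℂ) : ∑ α, meas L a α = 1 := by
  rw [Fintype.sum_option]
  change (1 - piT (fun _ => a true + a false)) + ∑ x, par L a x = 1
  rw [par_sum, sub_add_cancel]

/-- scalar inequality for the error part -/
theorem bh_ineq {w00 w01 w10 w11 : ℝ} (h00 : 0 ≤ w00) (h01 : 0 ≤ w01) (h10 : 0 ≤ w10)
    (h11 : 0 ≤ w11) : (√w11 + √w01) ^ 2 + (√w10 + √w00) ^ 2 ≤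
      (w00 + w01 + w10 + w11) + 2 * √((w00 + w01 + w10 + w11) * (w01 + w10)) := by
  have e00 := Real.sq_sqrt h00
  have e01 := Real.sq_sqrt h01
  have e10 := Real.sq_sqrt h10
  have e11 := Real.sq_sqrt h11
  set a := √w00
  set b := √w01
  set c := √w10
  set d := √w11
  have ha : 0 ≤ a := Real.sqrt_nonneg _
  have hb : 0 ≤ b := Real.sqrt_nonneg _
  have hc : 0 ≤ c := Real.sqrt_nonneg _
  have hd : 0 ≤ d := Real.sqrt_nonneg _
  have key : d * b + c * a ≤ √((w00 + w01 + w10 + w11) * (w01 + w10)) := by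
    refine Real.le_sqrt_of_sq_le ?_
    rw [← e00, ← e01, ← e10, ← e11]
    nlinarith only [sq_nonneg (d * c - a * b)]
  linarith only [e00, e01, e10, e11, key]

theorem eve_par (L : ℕ) (Ψ : Matrix (A × B) E ℂ) (a : Bool → Matrix A A ℂ)
    (b : Bool → Matrix B B ℂ) (x : Bool) :
    eve (copies L Ψ) (par L a x) (∑ y, par L b y) =
      ((1 / 2 : ℝ) : ℂ) • (piT (fun _ => eve Ψ (a true + a false) (b true + b false)) +
        (sg x : ℂ) • piT (fun _ => eve Ψ (a true - a false) (b true + b false))) := by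
  rw [par_sum, par, T1.eve_smul_left, T1.eve_add_left, T1.eve_smul_left, eve_piT, eve_piT]

/-- Weights of a family of effects. -/
noncomputable def ww (Ψ : Matrix (A × B) E ℂ) (a : Bool → Matrix A A ℂ)
    (b : Bool → Matrix B B ℂ) (x y : Bool) : ℝ := (eve Ψ (a x) (b y)).trace.re

theorem im_trace_eve (Ψ : Matrix (A × B) E ℂ) {M : Matrix A A ℂ} {N : Matrix B B ℂ}
    (hM : Mᴴ = M) (hN : Nᴴ = N) : (eve Ψ M N).trace = ((eve Ψ M N).trace.re : ℂ) := by
  have h4 : star ((eve Ψ M N).trace) = (eve Ψ M N).trace := by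
    rw [← trace_conjTranspose, T1.eve_conjTranspose, hM, hN]
  exact (Complex.conj_eq_iff_re.mp h4).symm

theorem ww_par (L : ℕ) (Ψ : Matrix (A × B) E ℂ) {a : Bool → Matrix A A ℂ}
    {b : Bool → Matrix B B ℂ} (ha : ∀ x, (a x)ᴴ = a x) (hb : ∀ x, (b x)ᴴ = b x) (x y : Bool) :
    ww (copies L Ψ) (par L a) (par L b) x y =
      1 / 4 * ((ww Ψ a b true true + ww Ψ a b true false + ww Ψ a b false true +
          ww Ψ a b false false) ^ L +
        sg y * (ww Ψ a b true true - ww Ψ a b true false + ww Ψ a b false true -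
          ww Ψ a b false false) ^ L +
        sg x * (ww Ψ a b true true + ww Ψ a b true false - ww Ψ a b false true -
          ww Ψ a b false false) ^ L +
        sg x * sg y * (ww Ψ a b true true - ww Ψ a b true false - ww Ψ a b false true +
          ww Ψ a b false false) ^ L) := by
  have h : (eve (copies L Ψ) (par L a x) (par L b y)).trace = ((1 / 4 * (
      (ww Ψ a b true true + ww Ψ a b true false + ww Ψ a b false true +
          ww Ψ a b false false) ^ L +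
        sg y * (ww Ψ a b true true - ww Ψ a b true false + ww Ψ a b false true -
          ww Ψ a b false false) ^ L +
        sg x * (ww Ψ a b true true + ww Ψ a b true false - ww Ψ a b false true -
          ww Ψ a b false false) ^ L +
        sg x * sg y * (ww Ψ a b true true - ww Ψ a b true false - ww Ψ a b false true +
          ww Ψ a b false false) ^ L) : ℝ) : ℂ) := by
    rw [par, par, T1.eve_smul_left, T1.eve_smul_right, T1.eve_add_left, T1.eve_smul_left,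
      T1.eve_add_right, T1.eve_add_right, T1.eve_smul_right, T1.eve_smul_right, eve_piT, eve_piT,
      eve_piT, eve_piT]
    simp only [trace_smul, trace_add, piT_trace, Finset.prod_const, Finset.card_univ,
      Fintype.card_fin, T1.eve_add_left, T1.eve_add_right, T1.eve_sub_left, T1.eve_sub_right,
      trace_sub, smul_eq_mul]
    rw [im_trace_eve Ψ (ha true) (hb true), im_trace_eve Ψ (ha true) (hb false),
      im_trace_eve Ψ (ha false) (hb true), im_trace_eve Ψ (ha false) (hb false)]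
    simp only [ww]
    push_cast
    ring
  rw [ww, h, Complex.ofReal_re]

theorem xor_pos (L : ℕ) (Ψ : Matrix (A × B) E ℂ) (hΨ : (copies L Ψ * (copies L Ψ)ᴴ).trace = 1)
    {a : Bool → Matrix A A ℂ} {b : Bool → Matrix B B ℂ}
    (ha : ∀ x, (a x).PosSemidef) (hb : ∀ x, (b x).PosSemidef)
    (ha1 : (1 - (a true + a false)).PosSemidef) (hb1 : (1 - (b true + b false)).PosSemidef)
    {t u q : ℝ} (ht : t = ww Ψ a b true true + ww Ψ a b true false + ww Ψ a b false true +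
          ww Ψ a b false false) (ht0 : 0 < t)
    (hu : u = ww Ψ a b true false + ww Ψ a b false true)
    (hq : traceNorm (eve Ψ (a true - a false) (b true + b false)) ≤ q)
    (hmain : (1 + (q / t) ^ L) * (1 + 2 * √(L * (u / t))) < 2) :
    0 < KD (copies L Ψ) := by
  classical
  set ω := eve Ψ (a true + a false) (b true + b false) with hω
  set Δ := eve Ψ (a true - a false) (b true + b false) with hΔ
  have hωp : ω.PosSemidef := eve_posSemidef Ψ ((ha _).add (ha _)) ((hb _).add (hb _))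
  have hplus : (ω + Δ).PosSemidef := by
    have : ω + Δ = eve Ψ ((2 : ℂ) • a true) (b true + b false) := by
      rw [hω, hΔ, ← T1.eve_add_left]
      congr 1
      rw [two_smul]
      abel
    rw [this]
    exact eve_posSemidef Ψ ((ha _).smul (by norm_num)) ((hb _).add (hb _))
  have hminus : (ω - Δ).PosSemidef := by
    have : ω - Δ = eve Ψ ((2 : ℂ) • a false) (b true + b false) := by
      rw [hω, hΔ, ← T1.eve_sub_left]
      congr 1
      rw [two_smul]
      abel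
    rw [this]
    exact eve_posSemidef Ψ ((ha _).smul (by norm_num)) ((hb _).add (hb _))
  have hΔh : Δᴴ = Δ := by
    rw [hΔ, T1.eve_conjTranspose, conjTranspose_sub, conjTranspose_add, (ha _).1.eq, (ha _).1.eq,
      (hb _).1.eq, (hb _).1.eq]
  obtain ⟨P, P', S, hP, hP', hS1, hPω, hPP', hP'P, hSP, hPS, hSS, hSh, hωS⟩ := exists_pinv hωp
  have hΔS : Δ * S = Δ := T1.mul_proj_eq hSS fun v hv =>
    mulVec_eq_zero_of_between hplus hminus (by rw [← hωS, ← mulVec_mulVec, hv, mulVec_zero])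
  have hSΔ : S * Δ = Δ := by
    have := congrArg conjTranspose hΔS
    rwa [conjTranspose_mul, hΔh, hSh] at this
  set T : Matrix E E ℂ := P' * Δ * P' with hT
  have hPTP : P * T * P = Δ := by
    calc P * T * P = (P * P') * Δ * (P' * P) := by rw [hT]; noncomm_ring
      _ = Δ := by rw [hPP', hP'P, hSΔ, hΔS]
  have hTh : Tᴴ = T := by
    rw [hT, conjTranspose_mul, conjTranspose_mul, hΔh, hP', Matrix.mul_assoc]
  -- the contraction
  set Z : Matrix E E ℂ := P' * P' * Δ * (P' * P') with hZ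
  have hZh : Zᴴ = Z := by
    rw [hZ]
    simp only [conjTranspose_mul, hΔh, hP', Matrix.mul_assoc]
  have hSω : P' * P' * ω * (P' * P') = S := by
    calc P' * P' * ω * (P' * P') = P' * (P' * P) * P * P * (P * P') * P' := by
          rw [← hPω]; noncomm_ring
      _ = P' * (S * P) * (P * S) * P' := by rw [hPP', hP'P]; noncomm_ring
      _ = (P' * P) * (P * P') := by rw [hSP, hPS]; noncomm_ring
      _ = S := by rw [hPP', hP'P, hSS]
  have hP'2 : (P' * P')ᴴ = P' * P' := by rw [conjTranspose_mul, hP']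
  have hZc : Contr Z := by
    refine contr_of_hermitian hZh ?_ ?_
    · have h1 : (1 : Matrix E E ℂ) - Z = (1 - S) + (P' * P')ᴴ * (ω - Δ) * (P' * P') := by
        rw [hP'2, Matrix.mul_sub, Matrix.sub_mul, hSω]
        abel
      rw [h1]
      exact hS1.add (hminus.conjTranspose_mul_mul_same _)
    · have h1 : (1 : Matrix E E ℂ) + Z = (1 - S) + (P' * P')ᴴ * (ω + Δ) * (P' * P') := by
        rw [hP'2, Matrix.mul_add, Matrix.add_mul, hSω]
        abel
      rw [h1]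
      exact hS1.add (hplus.conjTranspose_mul_mul_same _)
  have hTq : hs T ≤ q := by
    have h1 : hs T = (Z * Δ).trace.re := by
      rw [hs_eq_re, hTh]
      congr 1
      calc (T * T).trace = (P' * (Δ * P' * P' * Δ * P')).trace := by
            rw [hT]; congr 1; noncomm_ring
        _ = ((Δ * P' * P' * Δ * P') * P').trace := trace_mul_comm _ _
        _ = (Δ * (P' * P' * Δ * (P' * P'))).trace := by congr 1; noncomm_ring
        _ = (Z * Δ).trace := by rw [trace_mul_comm]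
    rw [h1]
    exact (Complex.re_le_norm _).trans ((norm_trace_mul_le hZc Δ).trans hq)
  have hq0 : 0 ≤ q := (hs_nonneg T).trans hTq
  -- traces
  have hww0 : ∀ x y, 0 ≤ ww Ψ a b x y := fun x y =>
    re_trace_nonneg (eve_posSemidef Ψ (ha x) (hb y))
  have hωt : ω.trace = (t : ℂ) := by
    rw [hω, T1.eve_add_left, T1.eve_add_right, T1.eve_add_right, trace_add, trace_add, trace_add,
      im_trace_eve Ψ (ha true).1.eq (hb true).1.eq, im_trace_eve Ψ (ha true).1.eq (hb false).1.eq,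
      im_trace_eve Ψ (ha false).1.eq (hb true).1.eq,
      im_trace_eve Ψ (ha false).1.eq (hb false).1.eq, ht]
    simp only [ww]
    push_cast
    ring
  set a' := meas L a with ha'
  set b' := meas L b with hb'
  have hW := ww_par L Ψ (fun x => (ha x).1.eq) (fun x => (hb x).1.eq)
  have hW0 : ∀ x y, 0 ≤ ww (copies L Ψ) (par L a) (par L b) x y := fun x y =>
    re_trace_nonneg (eve_posSemidef _ (par_posSemidef ha x) (par_posSemidef hb y))
  have hWsum : ww (copies L Ψ) (par L a) (par L b) false false +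
      ww (copies L Ψ) (par L a) (par L b) false true +
      ww (copies L Ψ) (par L a) (par L b) true false +
      ww (copies L Ψ) (par L a) (par L b) true true = t ^ L := by
    rw [hW, hW, hW, hW, sg_true, sg_false, ← ht]
    ring
  have hWoff : ww (copies L Ψ) (par L a) (par L b) false true +
      ww (copies L Ψ) (par L a) (par L b) true false ≤ t ^ L * (L * (u / t)) := by
    have h1 : ww (copies L Ψ) (par L a) (par L b) false true +
      ww (copies L Ψ) (par L a) (par L b) true false = 1 / 2 * (t ^ L - (t - 2 * u) ^ L) := by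
      rw [hW, hW, sg_true, sg_false, ← ht]
      have : t - 2 * u = ww Ψ a b true true - ww Ψ a b true false - ww Ψ a b false true +
          ww Ψ a b false false := by rw [ht, hu]; ring
      rw [this]
      ring
    rw [h1]
    have h2 : (t - 2 * u) ^ L = t ^ L * (1 + (-(2 * (u / t)))) ^ L := by
      rw [← mul_pow]
      congr 1
      field_simp
      ring
    have hut : u ≤ t := by
      rw [ht, hu]
      linarith only [hww0 true true, hww0 false false]
    have h3 : 1 + (L : ℝ) * (-(2 * (u / t))) ≤ (1 + (-(2 * (u / t)))) ^ L := by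
      refine one_add_mul_le_pow ?_ L
      have : u / t ≤ 1 := (div_le_one ht0).mpr hut
      linarith only [this]
    have h4 := mul_le_mul_of_nonneg_left h3 (pow_pos ht0 L).le
    rw [h2]
    nlinarith only [h4]
  have hηp : 0 ≤ q / t := by (clear * - hq0 ht0; positivity)
  have hsome : ∀ x, meas L a (some x) = par L a x := fun _ => rfl
  have hsomeb : ∀ x, meas L b (some x) = par L b x := fun _ => rfl
  refine block_pos (Y := Bool) (copies L Ψ) hΨ (meas L a) (meas_posSemidef ha ha1) (meas_sum L a)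
    (meas L b) (meas_posSemidef hb hb1) (meas_sum L b) (piT fun _ => P)
    (piT_posSemidef fun _ => hP)
    (fun x => ((1 / 2 : ℝ) : ℂ) • (piT (fun _ => P * P) + (sg x : ℂ) • piT (fun _ => T)))
    ?_ _ _ _ rfl rfl rfl ?_
  · intro x
    simp only [hsome, hsomeb]
    rw [eve_par, Matrix.mul_smul, Matrix.smul_mul, Matrix.mul_add, Matrix.add_mul,
      Matrix.mul_smul, Matrix.smul_mul, ← piT_mul, ← piT_mul, ← piT_mul, ← piT_mul, hPTP]
    have : P * (P * P) * P = ω := by rw [← hPω]; noncomm_ring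
    rw [this]
  · simp only [hsome, hsomeb, ← hs_eq_re, Fintype.sum_bool]
    have hp4 : (piT (fun _ : Fin L => P) * piT (fun _ => P) *
        (piT (fun _ => P) * piT (fun _ => P))).trace.re = t ^ L := by
      rw [← piT_mul, ← piT_mul, hPω, piT_trace, hωt, Finset.prod_const, Finset.card_univ,
        Fintype.card_fin, ← Complex.ofReal_pow, Complex.ofReal_re]
    have hV : hs (((1 / 2 : ℝ) : ℂ) • (piT (fun _ : Fin L => P * P) + (sg true : ℂ) • piT (fun _ => T))) +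
        hs (((1 / 2 : ℝ) : ℂ) • (piT (fun _ : Fin L => P * P) + (sg false : ℂ) • piT (fun _ => T)))
        ≤ 1 / 2 * (t ^ L + q ^ L) := by
      have h5 : hs (piT (fun _ : Fin L => P * P)) = t ^ L := by
        rw [hs_piT, Finset.prod_const, Finset.card_univ, Fintype.card_fin]
        congr 1
        rw [hs_eq_re, conjTranspose_mul, hP.1.eq, hPω, hωt, Complex.ofReal_re]
      have h6 : hs (piT (fun _ : Fin L => T)) ≤ q ^ L := by
        rw [hs_piT, Finset.prod_const, Finset.card_univ, Fintype.card_fin]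
        exact pow_le_pow_left₀ (hs_nonneg _) hTq L
      rw [T1.hs_smul, T1.hs_smul, sg_true, sg_false, T1.hs_add_smul, T1.hs_add_smul, h5]
      have h7 : ‖((1 / 2 : ℝ) : ℂ)‖ = 1 / 2 := by
        rw [Complex.norm_real, Real.norm_of_nonneg (by norm_num)]
      rw [h7]
      linarith only [h6]
    have hB := bh_ineq (hW0 false false) (hW0 false true) (hW0 true false) (hW0 true true)
    rw [hWsum] at hB
    have hB2 : √(t ^ L * (ww (copies L Ψ) (par L a) (par L b) false true +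
        ww (copies L Ψ) (par L a) (par L b) true false)) ≤ t ^ L * √(L * (u / t)) := by
      have h8 : t ^ L * √(L * (u / t)) = √((t ^ L) ^ 2 * (L * (u / t))) := by
        rw [Real.sqrt_mul (sq_nonneg _), Real.sqrt_sq (pow_pos ht0 L).le]
      rw [h8]
      refine Real.sqrt_le_sqrt ?_
      nlinarith only [mul_le_mul_of_nonneg_left hWoff (pow_pos ht0 L).le]
    have htL : 0 < t ^ L := pow_pos ht0 L
    have hqL : q ^ L = t ^ L * (q / t) ^ L := by
      rw [← mul_pow]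
      congr 1
      (clear * - ht0; (clear * - ht0; field_simp))
    rw [hp4]
    change t ^ L * (hs (((1 / 2 : ℝ) : ℂ) • (piT (fun _ : Fin L => P * P) + (sg true : ℂ) • piT (fun _ => T))) +
        hs (((1 / 2 : ℝ) : ℂ) • (piT (fun _ : Fin L => P * P) + (sg false : ℂ) • piT (fun _ => T)))) *
      ((√(ww (copies L Ψ) (par L a) (par L b) true true) +
        √(ww (copies L Ψ) (par L a) (par L b) false true)) ^ 2 +
      (√(ww (copies L Ψ) (par L a) (par L b) true false) +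
        √(ww (copies L Ψ) (par L a) (par L b) false false)) ^ 2) <
      ((ww (copies L Ψ) (par L a) (par L b) true true +
        ww (copies L Ψ) (par L a) (par L b) true false) +
      (ww (copies L Ψ) (par L a) (par L b) false true +
        ww (copies L Ψ) (par L a) (par L b) false false)) ^ 3
    have hps : (ww (copies L Ψ) (par L a) (par L b) true true +
        ww (copies L Ψ) (par L a) (par L b) true false) +
      (ww (copies L Ψ) (par L a) (par L b) false true +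
        ww (copies L Ψ) (par L a) (par L b) false false) = t ^ L := by
      rw [← hWsum]; ring
    rw [hps]
    have hBfin : (√(ww (copies L Ψ) (par L a) (par L b) true true) +
        √(ww (copies L Ψ) (par L a) (par L b) false true)) ^ 2 +
      (√(ww (copies L Ψ) (par L a) (par L b) true false) +
        √(ww (copies L Ψ) (par L a) (par L b) false false)) ^ 2 ≤
        t ^ L * (1 + 2 * √(L * (u / t))) := by
      refine hB.trans ?_
      linarith only [hB2]
    calc _ ≤ t ^ L * (1 / 2 * (t ^ L + q ^ L)) * (t ^ L * (1 + 2 * √(L * (u / t)))) := by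
          refine mul_le_mul (mul_le_mul_of_nonneg_left hV htL.le) hBfin ?_ ?_
          · (clear * -; positivity)
          · (clear * - ht0 hq0; positivity)
      _ = (t ^ L) ^ 3 * (1 / 2 * ((1 + (q / t) ^ L) * (1 + 2 * √(L * (u / t))))) := by
          rw [hqL]; ring
      _ < (t ^ L) ^ 3 * 1 := by
          refine mul_lt_mul_of_pos_left ?_ (by positivity)
          linarith only [hmain]
      _ = _ := mul_one _

end Xor

end Vale.Agent.P372
end
end
end

section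

section

section

/-! Advantage distillation: the single-copy test gives a distillable key. -/

open Matrix Kronecker
open scoped ComplexOrder MatrixOrder

set_option linter.unusedSectionVars false

namespace Vale.Agent.P372

namespace Xor

variable {A B E : Type} [Fintype A] [DecidableEq A] [Fintype B] [DecidableEq B]
  [Fintype E] [DecidableEq E]

theorem copies_trace (n : ℕ) (Ψ : Matrix (A × B) E ℂ) (h : (Ψ * Ψᴴ).trace = 1) :
    (copies n Ψ * (copies n Ψ)ᴴ).trace = 1 := by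
  rw [← trace_eve_one, ← piT_one (ι := Fin n) (E := A), ← piT_one (ι := Fin n) (E := B), eve_piT,
    piT_trace]
  simp only [trace_eve_one, h, Finset.prod_const_one]

theorem conj_smul (ρ : Matrix (A × B) (A × B) ℂ) (α β γ δ : ℝ) (X X' : Matrix A A ℂ)
    (Y Y' : Matrix B B ℂ) :
    (((α : ℂ) • X) ⊗ₖ ((β : ℂ) • Y)) * ρ * (((γ : ℂ) • X') ⊗ₖ ((δ : ℂ) • Y'))ᴴ =
      ((α * β * γ * δ : ℝ) : ℂ) • ((X ⊗ₖ Y) * ρ * (X' ⊗ₖ Y')ᴴ) := by
  simp only [smul_kronecker, kronecker_smul, conjTranspose_smul, Matrix.smul_mul,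
      Matrix.mul_smul, smul_smul, RCLike.star_def, map_mul, Complex.conj_ofReal]
  congr 1
  push_cast
  ring

theorem wt_smul (ρ : Matrix (A × B) (A × B) ℂ) (α β : ℝ) (X : Matrix A A ℂ) (Y : Matrix B B ℂ) :
    wt ρ ((α : ℂ) • X) ((β : ℂ) • Y) = α ^ 2 * β ^ 2 * wt ρ X Y := by
  rw [wt, conj_smul, trace_smul, smul_eq_mul, Complex.re_ofReal_mul, wt]
  ring

theorem tn_smul (ρ : Matrix (A × B) (A × B) ℂ) (α β γ δ : ℝ) (X X' : Matrix A A ℂ)
    (Y Y' : Matrix B B ℂ) :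
    traceNorm ((((α : ℂ) • X) ⊗ₖ ((β : ℂ) • Y)) * ρ * (((γ : ℂ) • X') ⊗ₖ ((δ : ℂ) • Y'))ᴴ) =
      |α * β * γ * δ| * traceNorm ((X ⊗ₖ Y) * ρ * (X' ⊗ₖ Y')ᴴ) := by
  rw [conj_smul, traceNorm_smul, Complex.norm_real, Real.norm_eq_abs]

/-- The trace distance of Eve's states after `N` rounds of advantage distillation. -/
theorem ad_dist (N : ℕ) (Ψ : Matrix (A × B) E ℂ) {X₀ X₁ : Matrix A A ℂ} {Y₀ Y₁ : Matrix B B ℂ}
    {p F : ℝ} (h0 : wt (Ψ * Ψᴴ) X₀ Y₀ = p) (h1 : wt (Ψ * Ψᴴ) X₁ Y₁ = p)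
    (hF : traceNorm ((X₀ ⊗ₖ Y₀) * (Ψ * Ψᴴ) * (X₁ ⊗ₖ Y₁)ᴴ) = F) :
    traceNorm (piT (fun _ : Fin N => eve Ψ (X₁ᴴ * X₁) (Y₁ᴴ * Y₁)) -
      piT (fun _ : Fin N => eve Ψ (X₀ᴴ * X₀) (Y₀ᴴ * Y₀))) ≤
      2 * √((p ^ N) ^ 2 - (F ^ N) ^ 2) := by
  have hF0 : 0 ≤ F := hF ▸ traceNorm_nonneg _
  have e : ∀ (X : Matrix A A ℂ) (Y : Matrix B B ℂ), eve Ψ (Xᴴ * X) (Yᴴ * Y) =
      (((X ⊗ₖ Y) * Ψ)ᴴ * ((X ⊗ₖ Y) * Ψ))ᵀ := by
    intro X Y
    rw [T1.eve_eq, mul_kronecker_mul, ← conjTranspose_kronecker, conjTranspose_mul]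
    simp only [Matrix.mul_assoc]
  set Φ₀ := (X₀ ⊗ₖ Y₀) * Ψ with hΦ₀
  set Φ₁ := (X₁ ⊗ₖ Y₁) * Ψ with hΦ₁
  have hT : ∀ Φ : Matrix (A × B) E ℂ, piT (fun _ : Fin N => (Φᴴ * Φ)ᵀ) =
      ((piT (fun _ : Fin N => Φ))ᴴ * piT (fun _ : Fin N => Φ))ᵀ := by
    intro Φ
    rw [piT_conjTranspose, ← piT_mul]
    rfl
  have hn : ∀ (X : Matrix A A ℂ) (Y : Matrix B B ℂ), hs ((X ⊗ₖ Y) * Ψ) = wt (Ψ * Ψᴴ) X Y := by
    intro X Y
    rw [wt_eq, e, trace_transpose, hs_eq_re]
  obtain ⟨W, hW, hWt⟩ := traceNorm_exists (Φ₀ * Φ₁ᴴ)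
  have hFΦ : traceNorm (Φ₀ * Φ₁ᴴ) = F := by
    rw [← hF, hΦ₀, hΦ₁, conjTranspose_mul]
    simp only [Matrix.mul_assoc]
  rw [hFΦ] at hWt
  rw [e, e, ← hΦ₀, ← hΦ₁, hT, hT, ← transpose_sub, traceNorm_transpose, ← traceNorm_neg, neg_sub]
  refine fvdg (W := piT (fun _ : Fin N => W)) (contr_piT fun _ => hW) (pow_nonneg hF0 N) ?_ ?_ ?_
  · rw [hs_piT, Finset.prod_const, Finset.card_univ, Fintype.card_fin, hn, h0]
  · rw [hs_piT, Finset.prod_const, Finset.card_univ, Fintype.card_fin, hn, h1]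
  · rw [piT_conjTranspose, ← piT_mul, ← piT_mul, piT_trace, hWt, Finset.prod_const,
      Finset.card_univ, Fintype.card_fin]
    push_cast
    rfl

/-- The choice of the numbers of copies. -/
theorem num_choice {φ θ : ℝ} (hφ : 0 < φ) (hφ1 : φ ≤ 1) (hθ0 : 0 ≤ θ) (hθ : θ ≤ 1 / 208 * φ ^ 2) :
    ∃ L : ℕ, 0 < L ∧ (1 + (√(1 - φ ^ 2) + θ) ^ L) * (1 + 2 * √(L * θ)) < 2 := by
  have hφ2 : 0 < φ ^ 2 := by positivity
  have hφ21 : φ ^ 2 ≤ 1 := by nlinarith only [hφ1, hφ]
  refine ⟨⌈12 / φ ^ 2⌉₊, Nat.ceil_pos.mpr (by positivity), ?_⟩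
  set L := ⌈12 / φ ^ 2⌉₊ with hL
  have hL1 : 12 / φ ^ 2 ≤ L := Nat.le_ceil _
  have hL2 : (L : ℝ) ≤ 13 / φ ^ 2 := by
    have h1 : (L : ℝ) < 12 / φ ^ 2 + 1 := Nat.ceil_lt_add_one (by positivity)
    have h2 : (1 : ℝ) ≤ 1 / φ ^ 2 := by rw [le_div_iff₀ hφ2]; linarith only [hφ21]
    have h3 : 13 / φ ^ 2 = 12 / φ ^ 2 + 1 / φ ^ 2 := by ring
    linarith only [h1, h2, h3]
  have hL1' : 12 ≤ (L : ℝ) * φ ^ 2 := by rwa [div_le_iff₀ hφ2] at hL1
  have hL2' : (L : ℝ) * φ ^ 2 ≤ 13 := by rwa [le_div_iff₀ hφ2] at hL2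
  have hs : √(1 - φ ^ 2) ≤ 1 - φ ^ 2 / 2 := by
    rw [Real.sqrt_le_left (by linarith only [hφ21])]
    nlinarith only []
  have hη : √(1 - φ ^ 2) + θ ≤ 1 - φ ^ 2 / 4 := by linarith only [hθ, hφ2, hs]
  have hη0 : 0 ≤ √(1 - φ ^ 2) + θ := add_nonneg (Real.sqrt_nonneg _) hθ0
  have hpow : (√(1 - φ ^ 2) + θ) ^ L ≤ 1 / 4 := by
    have h1 : (√(1 - φ ^ 2) + θ) ^ L ≤ (1 - φ ^ 2 / 4) ^ L := pow_le_pow_left₀ hη0 hη L
    have h2 : (1 - φ ^ 2 / 4) * (1 + φ ^ 2 / 4) ≤ 1 := by nlinarith only []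
    have h3 : 1 + (L : ℝ) * (φ ^ 2 / 4) ≤ (1 + φ ^ 2 / 4) ^ L :=
      one_add_mul_le_pow (by linarith only [hφ2]) L
    have h4 : (1 - φ ^ 2 / 4) ^ L * (1 + φ ^ 2 / 4) ^ L ≤ 1 := by
      rw [← mul_pow]
      exact pow_le_one₀ (mul_nonneg (by linarith only [hφ21]) (by linarith only [hφ2])) h2
    have h5 : 0 ≤ (1 - φ ^ 2 / 4) ^ L := pow_nonneg (by linarith only [hφ21]) L
    have h6 : (1 - φ ^ 2 / 4) ^ L * 4 ≤ 1 := by
      refine le_trans (mul_le_mul_of_nonneg_left ?_ h5) h4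
      refine le_trans ?_ h3
      linarith only [hL1']
    linarith only [h1, h6]
  have hsq : √((L : ℝ) * θ) ≤ 1 / 4 := by
    rw [Real.sqrt_le_left (by norm_num)]
    calc (L : ℝ) * θ ≤ L * (1 / 208 * φ ^ 2) := mul_le_mul_of_nonneg_left hθ (Nat.cast_nonneg L)
      _ = 1 / 208 * (L * φ ^ 2) := by ring
      _ ≤ 1 / 208 * 13 := mul_le_mul_of_nonneg_left hL2' (by norm_num)
      _ = (1 / 4) ^ 2 := by norm_num
  have h7 : 0 ≤ (√(1 - φ ^ 2) + θ) ^ L := pow_nonneg hη0 L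
  have h8 : 0 ≤ √((L : ℝ) * θ) := Real.sqrt_nonneg _
  calc (1 + (√(1 - φ ^ 2) + θ) ^ L) * (1 + 2 * √(L * θ)) ≤ (1 + 1 / 4) * (1 + 2 * (1 / 4)) := by
        refine mul_le_mul (by linarith only [hpow]) (by linarith only [hsq]) (by (clear * -; (clear * -; positivity))) (by norm_num)
    _ < 2 := by norm_num

theorem wt_nonneg (Ψ : Matrix (A × B) E ℂ) (X : Matrix A A ℂ) (Y : Matrix B B ℂ) :
    0 ≤ wt (Ψ * Ψᴴ) X Y := by
  rw [wt_eq]
  exact re_trace_nonneg (eve_posSemidef Ψ (posSemidef_conjTranspose_mul_self X)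
    (posSemidef_conjTranspose_mul_self Y))

theorem fid_sq_le (Ψ : Matrix (A × B) E ℂ) (X₀ X₁ : Matrix A A ℂ) (Y₀ Y₁ : Matrix B B ℂ) :
    traceNorm ((X₀ ⊗ₖ Y₀) * (Ψ * Ψᴴ) * (X₁ ⊗ₖ Y₁)ᴴ) ^ 2 ≤
      wt (Ψ * Ψᴴ) X₀ Y₀ * wt (Ψ * Ψᴴ) X₁ Y₁ := by
  have hn : ∀ (X : Matrix A A ℂ) (Y : Matrix B B ℂ), hs (((X ⊗ₖ Y) * Ψ)ᴴ) = wt (Ψ * Ψᴴ) X Y := by
    intro X Y
    rw [hs_eq_re, conjTranspose_conjTranspose, wt, conjTranspose_mul]
    simp only [Matrix.mul_assoc]
  have h := traceNorm_mul_le_hs (((X₀ ⊗ₖ Y₀) * Ψ)ᴴ) (((X₁ ⊗ₖ Y₁) * Ψ)ᴴ)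
  rw [hn, hn] at h
  have e : (((X₀ ⊗ₖ Y₀) * Ψ)ᴴ)ᴴ * ((X₁ ⊗ₖ Y₁) * Ψ)ᴴ = (X₀ ⊗ₖ Y₀) * (Ψ * Ψᴴ) * (X₁ ⊗ₖ Y₁)ᴴ := by
    rw [conjTranspose_conjTranspose, conjTranspose_mul]
    simp only [Matrix.mul_assoc]
  rw [e] at h
  calc _ ≤ (√(wt (Ψ * Ψᴴ) X₀ Y₀) * √(wt (Ψ * Ψᴴ) X₁ Y₁)) ^ 2 :=
        pow_le_pow_left₀ (traceNorm_nonneg _) h 2
    _ = _ := by rw [mul_pow, Real.sq_sqrt (wt_nonneg _ _ _), Real.sq_sqrt (wt_nonneg _ _ _)]

theorem KD_pos_core (Ψ : Matrix (A × B) E ℂ) (hΨ : (Ψ * Ψᴴ).trace = 1) (X : Bool → Matrix A A ℂ)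
    (Y : Bool → Matrix B B ℂ) {p r F : ℝ} (h0 : wt (Ψ * Ψᴴ) (X false) (Y false) = p)
    (h1 : wt (Ψ * Ψᴴ) (X true) (Y true) = p) (h01 : wt (Ψ * Ψᴴ) (X false) (Y true) ≤ r)
    (h10 : wt (Ψ * Ψᴴ) (X true) (Y false) ≤ r)
    (hF : traceNorm ((X false ⊗ₖ Y false) * (Ψ * Ψᴴ) * (X true ⊗ₖ Y true)ᴴ) = F)
    (hpr : p * r < F ^ 2) :
    ∃ N L, 0 < N ∧ 0 < L ∧ 0 < KD (copies L (copies N Ψ)) := by
  have hdist : ∀ N : ℕ, traceNorm (piT (fun _ : Fin N => eve Ψ ((X true)ᴴ * X true)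
      ((Y true)ᴴ * Y true)) - piT (fun _ : Fin N => eve Ψ ((X false)ᴴ * X false)
      ((Y false)ᴴ * Y false))) ≤ 2 * √((p ^ N) ^ 2 - (F ^ N) ^ 2) := fun N =>
    ad_dist N Ψ h0 h1 hF
  have hp0 : 0 ≤ p := h0 ▸ wt_nonneg _ _ _
  have hr0 : 0 ≤ r := (wt_nonneg _ _ _).trans h01
  have hF0 : 0 ≤ F := hF ▸ traceNorm_nonneg _
  have hFp2 : F ^ 2 ≤ p * p := by
    have := fid_sq_le Ψ (X false) (X true) (Y false) (Y true)
    rwa [hF, h0, h1] at this
  have hFpos : 0 < F := by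
    rcases hF0.lt_or_eq with h | h
    · exact h
    · exfalso
      rw [← h] at hpr
      nlinarith only [hpr, hp0, hr0]
  have hppos : 0 < p := by
    rcases hp0.lt_or_eq with h | h
    · exact h
    · exfalso
      rw [← h] at hFp2
      nlinarith only [hpr, hFp2, hp0, hr0]
  have hFp : F ≤ p := by
    refine le_of_sq_le_sq' ?_ hp0
    rw [sq p]
    exact hFp2
  -- choice of N
  have hκ : p * r / F ^ 2 < 1 := (div_lt_one (by positivity)).mpr hpr
  obtain ⟨N, hN⟩ := exists_pow_lt_of_lt_one (by norm_num : (0 : ℝ) < 1 / 208) hκ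
  have hN0 : 0 < N := by
    rcases Nat.eq_zero_or_pos N with h | h
    · exfalso
      rw [h, pow_zero] at hN
      norm_num at hN
    · exact h
  set φ : ℝ := (F / p) ^ N with hφ
  set θ : ℝ := (r / p) ^ N with hθ
  have hφ0 : 0 < φ := by positivity
  have hφ1 : φ ≤ 1 := pow_le_one₀ (by (clear * - hFpos hppos; positivity)) ((div_le_one hppos).mpr hFp)
  have hθ0 : 0 ≤ θ := by (clear * - hr0 hppos; positivity)
  have hθφ : θ ≤ 1 / 208 * φ ^ 2 := by
    have e1 : θ = (p * r / F ^ 2) ^ N * φ ^ 2 := by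
      rw [hθ, hφ, ← pow_mul, mul_comm N 2, pow_mul, ← mul_pow]
      congr 1
      (clear * - hFpos hppos; field_simp)
    rw [e1]
    exact mul_le_mul_of_nonneg_right hN.le (sq_nonneg φ)
  obtain ⟨L, hL0, hL⟩ := num_choice hφ0 hφ1 hθ0 hθφ
  refine ⟨N, L, hN0, hL0, ?_⟩
  -- the effects
  let MA : Bool → Matrix (Fin N → A) (Fin N → A) ℂ := fun x => piT fun _ => (X x)ᴴ * X x
  let MB : Bool → Matrix (Fin N → B) (Fin N → B) ℂ := fun x => piT fun _ => (Y x)ᴴ * Y x
  have hMA : ∀ x, (MA x).PosSemidef := fun x =>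
    piT_posSemidef fun _ => posSemidef_conjTranspose_mul_self _
  have hMB : ∀ x, (MB x).PosSemidef := fun x =>
    piT_posSemidef fun _ => posSemidef_conjTranspose_mul_self _
  have hMA' := (hMA true).add (hMA false)
  have hMB' := (hMB true).add (hMB false)
  set cA : ℝ := (1 + (MA true + MA false).trace.re)⁻¹ with hcA
  set cB : ℝ := (1 + (MB true + MB false).trace.re)⁻¹ with hcB
  have htA := re_trace_nonneg hMA'
  have htB := re_trace_nonneg hMB'
  have hcA0 : 0 < cA := inv_pos.mpr (by linarith only [htA])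
  have hcB0 : 0 < cB := inv_pos.mpr (by linarith only [htB])
  have hA1 : (1 - (cA : ℂ) • (MA true + MA false)).PosSemidef := by
    refine T1.one_sub_smul_posSemidef hMA' hcA0.le ?_
    rw [hcA, inv_mul_le_iff₀ (by linarith only [htA])]
    linarith only []
  have hB1 : (1 - (cB : ℂ) • (MB true + MB false)).PosSemidef := by
    refine T1.one_sub_smul_posSemidef hMB' hcB0.le ?_
    rw [hcB, inv_mul_le_iff₀ (by linarith only [htB])]
    linarith only []
  clear_value cA cB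
  let a : Bool → Matrix (Fin N → A) (Fin N → A) ℂ := fun x => (cA : ℂ) • MA x
  let b : Bool → Matrix (Fin N → B) (Fin N → B) ℂ := fun x => (cB : ℂ) • MB x
  set c : ℝ := cA * cB with hc
  have hc0 : 0 < c := mul_pos hcA0 hcB0
  have hev : ∀ x y, eve (copies N Ψ) (a x) (b y) =
      (c : ℂ) • piT (fun _ : Fin N => eve Ψ ((X x)ᴴ * X x) ((Y y)ᴴ * Y y)) := by
    intro x y
    rw [T1.eve_smul_left, T1.eve_smul_right, eve_piT, smul_smul, hc, Complex.ofReal_mul]
  have hww : ∀ x y, ww (copies N Ψ) a b x y = c * wt (Ψ * Ψᴴ) (X x) (Y y) ^ N := by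
    intro x y
    rw [ww, hev, trace_smul, piT_trace, im_trace_eve Ψ (isHermitian_conjTranspose_mul_self _).eq
      (isHermitian_conjTranspose_mul_self _).eq, ← wt_eq, Finset.prod_const, Finset.card_univ,
      Fintype.card_fin, smul_eq_mul, ← Complex.ofReal_pow, ← Complex.ofReal_mul, Complex.ofReal_re]
  have hevp : ∀ x y, (eve (copies N Ψ) (a x) (b y)).PosSemidef := fun x y =>
    eve_posSemidef _ ((hMA x).smul (by exact_mod_cast hcA0.le))
      ((hMB y).smul (by exact_mod_cast hcB0.le))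
  set u : ℝ := ww (copies N Ψ) a b true false + ww (copies N Ψ) a b false true with hu
  set t : ℝ := ww (copies N Ψ) a b true true + ww (copies N Ψ) a b true false +
    ww (copies N Ψ) a b false true + ww (copies N Ψ) a b false false with ht
  have hu0 : 0 ≤ u := by
    rw [hu, hww, hww]
    have := wt_nonneg Ψ (X true) (Y false)
    have := wt_nonneg Ψ (X false) (Y true)
    (clear hΨ p r F h0 h1 h01 h10 hF hpr hdist hp0 hr0 hF0 hFp2 hFpos hppos hFp hκ hN hN0 φ hφ θ hθ hφ0 hφ1 hθ0 hθφ L hL0 hL MA MB hMA hMB hMA' hMB' hcA hcB htA htB hA1 hB1 a b hc hc0 hev hww hevp u hu t ht; positivity)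
  have hpN : 0 < p ^ N := pow_pos hppos N
  have ht1 : 2 * c * p ^ N ≤ t := by
    have : t = c * p ^ N + c * p ^ N + u := by
      rw [ht, hu, hww true true, hww false false, h1, h0]
      ring
    rw [this]
    linarith only [hu0]
  have ht0 : 0 < t := lt_of_lt_of_le (by (clear * - hcA0 hcB0 hppos; positivity)) ht1
  have hur : u ≤ 2 * c * r ^ N := by
    rw [hu, hww, hww]
    have e1 := pow_le_pow_left₀ (wt_nonneg Ψ (X true) (Y false)) h10 N
    have e2 := pow_le_pow_left₀ (wt_nonneg Ψ (X false) (Y true)) h01 N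
    have e3 := mul_le_mul_of_nonneg_left e1 hc0.le
    have e4 := mul_le_mul_of_nonneg_left e2 hc0.le
    linarith only [e3, e4]
  have hut : u / t ≤ θ := by
    rw [div_le_iff₀ ht0, hθ, div_pow]
    calc u ≤ 2 * c * r ^ N := hur
      _ = r ^ N / p ^ N * (2 * c * p ^ N) := by (clear * - hppos hc0; field_simp)
      _ ≤ r ^ N / p ^ N * t := mul_le_mul_of_nonneg_left ht1 (by (clear * - hr0 hppos; positivity))
  set q : ℝ := c * (2 * √((p ^ N) ^ 2 - (F ^ N) ^ 2)) + u with hq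
  have hqt : q / t ≤ √(1 - φ ^ 2) + θ := by
    have e1 : √((p ^ N) ^ 2 - (F ^ N) ^ 2) = p ^ N * √(1 - φ ^ 2) := by
      have : (p ^ N) ^ 2 - (F ^ N) ^ 2 = (p ^ N) ^ 2 * (1 - φ ^ 2) := by
        rw [hφ, div_pow]
        (clear * - hppos; field_simp)
      rw [this, Real.sqrt_mul (sq_nonneg _), Real.sqrt_sq hpN.le]
    rw [hq, add_div, e1]
    refine add_le_add ?_ hut
    rw [div_le_iff₀ ht0]
    calc c * (2 * (p ^ N * √(1 - φ ^ 2))) = √(1 - φ ^ 2) * (2 * c * p ^ N) := by ring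
      _ ≤ √(1 - φ ^ 2) * t := mul_le_mul_of_nonneg_left ht1 (Real.sqrt_nonneg _)
  have hq0 : 0 ≤ q := by
    rw [hq]
    (clear * - hcA0 hcB0 hu0; positivity)
  refine xor_pos L (copies N Ψ) (copies_trace L _ (copies_trace N Ψ hΨ)) (a := a) (b := b)
    (fun x => (hMA x).smul (by exact_mod_cast hcA0.le))
    (fun x => (hMB x).smul (by exact_mod_cast hcB0.le)) ?_ ?_ (t := t) (u := u) (q := q)
    rfl ht0 rfl ?_ ?_
  · have : a true + a false = (cA : ℂ) • (MA true + MA false) := by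
      simp only [a, smul_add]
    rw [this]
    exact hA1
  · have : b true + b false = (cB : ℂ) • (MB true + MB false) := by
      simp only [b, smul_add]
    rw [this]
    exact hB1
  · have e1 : eve (copies N Ψ) (a true - a false) (b true + b false) =
        (eve (copies N Ψ) (a true) (b true) - eve (copies N Ψ) (a false) (b false)) +
        (eve (copies N Ψ) (a true) (b false) - eve (copies N Ψ) (a false) (b true)) := by
      rw [T1.eve_sub_left, T1.eve_add_right, T1.eve_add_right]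
      abel
    rw [e1]
    refine (traceNorm_add_le _ _).trans (add_le_add ?_ ?_)
    · rw [hev, hev, ← smul_sub, traceNorm_smul, Complex.norm_real, Real.norm_of_nonneg hc0.le]
      exact mul_le_mul_of_nonneg_left (hdist N) hc0.le
    · refine (traceNorm_sub_le _ _).trans ?_
      rw [traceNorm_of_posSemidef (hevp _ _), traceNorm_of_posSemidef (hevp _ _)]
      exact le_rfl
  · refine lt_of_le_of_lt ?_ hL
    have hqt0 : 0 ≤ q / t := div_nonneg hq0 ht0.le
    have e1 : (q / t) ^ L ≤ (√(1 - φ ^ 2) + θ) ^ L := pow_le_pow_left₀ hqt0 hqt L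
    have e2 : √(L * (u / t)) ≤ √(L * θ) :=
      Real.sqrt_le_sqrt (mul_le_mul_of_nonneg_left hut (Nat.cast_nonneg L))
    have e3 : 0 ≤ (q / t) ^ L := pow_nonneg hqt0 L
    have e4 : 0 ≤ √(L * (u / t)) := Real.sqrt_nonneg _
    exact mul_le_mul (by linarith only [e1]) (by linarith only [e2]) (by linarith only [e4]) (by linarith only [e1, e3])

/-- Rescaling of the operators. -/
theorem scale {w00 w01 w10 w11 F : ℝ} (n00 : 0 ≤ w00) (n01 : 0 ≤ w01) (n10 : 0 ≤ w10)
    (n11 : 0 ≤ w11) (hF0 : 0 ≤ F) (hF : F ^ 2 ≤ w00 * w11) (h : w00 * w01 * w10 * w11 < F ^ 4) :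
    ∃ α γ δ p r : ℝ, 0 < α ∧ 0 < γ ∧ 0 < δ ∧ α * γ * δ = 1 ∧ α ^ 2 * w00 = p ∧
      γ ^ 2 * δ ^ 2 * w11 = p ∧ α ^ 2 * δ ^ 2 * w01 ≤ r ∧ γ ^ 2 * w10 ≤ r ∧ p * r < F ^ 2 := by
  have hFpos : 0 < F := by
    rcases hF0.lt_or_eq with h' | h'
    · exact h'
    · exfalso
      rw [← h'] at h
      have : 0 ≤ w00 * w01 * w10 * w11 := by (clear * - n00 n01 n10 n11; positivity)
      linarith only [h, this]
  have hww : 0 < w00 * w11 := lt_of_lt_of_le (by positivity) hF
  have p00 : 0 < w00 := by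
    rcases n00.lt_or_eq with h' | h'
    · exact h'
    · rw [← h', zero_mul] at hww
      exact absurd hww (lt_irrefl 0)
  have p11 : 0 < w11 := by
    rcases n11.lt_or_eq with h' | h'
    · exact h'
    · rw [← h', mul_zero] at hww
      exact absurd hww (lt_irrefl 0)
  set p : ℝ := √(w00 * w11) with hp
  have hp0 : 0 < p := Real.sqrt_pos.mpr hww
  have hp2 : p ^ 2 = w00 * w11 := Real.sq_sqrt hww.le
  set s : ℝ := √(w01 * w10) with hs
  have hs0 : 0 ≤ s := Real.sqrt_nonneg _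
  have hs2 : s ^ 2 = w01 * w10 := Real.sq_sqrt (mul_nonneg n01 n10)
  have hps : p * s < F ^ 2 := by
    have h1 : (p * s) ^ 2 < (F ^ 2) ^ 2 := by
      rw [mul_pow, hp2, hs2]
      calc w00 * w11 * (w01 * w10) = w00 * w01 * w10 * w11 := by ring
        _ < F ^ 4 := h
        _ = (F ^ 2) ^ 2 := by ring
    exact lt_of_pow_lt_pow_left₀ 2 (by positivity) h1
  set r : ℝ := (s + F ^ 2 / p) / 2 with hr
  have hsF : s < F ^ 2 / p := by
    rw [lt_div_iff₀ hp0]
    linarith only [hps]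
  have hsr : s < r := by rw [hr]; linarith only [hsF]
  have hrF : p * r < F ^ 2 := by
    have : r < F ^ 2 / p := by rw [hr]; linarith only [hr, hsr]
    rw [lt_div_iff₀ hp0] at this
    linarith only [this]
  have hr0 : 0 < r := lt_of_le_of_lt hs0 hsr
  obtain ⟨v, hv, hv1, hv2⟩ : ∃ v : ℝ, 0 < v ∧ v * w01 ≤ r ∧ w10 / v ≤ r := by
    rcases n01.lt_or_eq with h' | h'
    · refine ⟨r / w01, by (clear * - hFpos p00 p11 h'; (clear * - hFpos p00 p11 h'; positivity)), (div_mul_cancel₀ r h'.ne').le, ?_⟩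
      rw [div_div_eq_mul_div, div_le_iff₀ hr0]
      nlinarith only [hs2, hs0, hr, hsF]
    · refine ⟨w10 / r + 1, by (clear * - n10 hFpos p00 p11; positivity), ?_, ?_⟩
      · rw [← h', mul_zero]
        exact hr0.le
      · rw [div_le_iff₀ (by (clear * - n10 hFpos p00 p11; positivity))]
        have : r * (w10 / r + 1) = w10 + r := by
          (clear * - hr0 n10; field_simp)
        rw [this]
        linarith only [hs0, hsr]
  -- a = α², g = γ², d = δ²
  refine ⟨√(p / w00), √(1 / v), √(v * w00 / p), p, r, ?_, ?_, ?_, ?_, ?_, ?_, ?_, ?_, hrF⟩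
  · exact Real.sqrt_pos.mpr (by (clear * - p00 p11; positivity))
  · exact Real.sqrt_pos.mpr (by positivity)
  · exact Real.sqrt_pos.mpr (by (clear * - hv p00 p11; positivity))
  · rw [← Real.sqrt_mul (by positivity), ← Real.sqrt_mul (by (clear * - p00 p11 hv; positivity))]
    have : p / w00 * (1 / v) * (v * w00 / p) = 1 := by
      (clear * - hp0 p00 hv; field_simp)
    rw [this, Real.sqrt_one]
  · rw [Real.sq_sqrt (by positivity)]
    (clear * - p00 hp0; field_simp)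
  · rw [Real.sq_sqrt (by positivity), Real.sq_sqrt (by (clear * - hv p00 p11; positivity))]
    have : 1 / v * (v * w00 / p) * w11 = p ^ 2 / p := by
      rw [hp2]
      (clear * - hv p11 hp0 p00; field_simp)
    rw [this]
    (clear * - hp0; field_simp)
  · rw [Real.sq_sqrt (by positivity), Real.sq_sqrt (by (clear * - hv p00 p11; positivity))]
    have : p / w00 * (v * w00 / p) * w01 = v * w01 := by
      (clear * - hp0 p00 hv; field_simp)
    rw [this]
    exact hv1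
  · rw [Real.sq_sqrt (by (clear * - hv; positivity))]
    have : 1 / v * w10 = w10 / v := by
      (clear * - hv; field_simp)
    rw [this]
    exact hv2

end Xor

variable {A B E : Type} [Fintype A] [DecidableEq A] [Fintype B] [DecidableEq B]
  [Fintype E] [DecidableEq E]

open Vale.Agent.P372.Xor in
/-- If the test is passed, then key can be distilled. -/
theorem KD_pos_of_test (Ψ : Matrix (A × B) E ℂ) (hΨ : (Ψ * Ψᴴ).trace = 1)
    (X₀ X₁ : Matrix A A ℂ) (Y₀ Y₁ : Matrix B B ℂ)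
    (h : wt (Ψ * Ψᴴ) X₀ Y₀ * wt (Ψ * Ψᴴ) X₀ Y₁ * wt (Ψ * Ψᴴ) X₁ Y₀ * wt (Ψ * Ψᴴ) X₁ Y₁ <
      traceNorm ((X₀ ⊗ₖ Y₀) * (Ψ * Ψᴴ) * (X₁ ⊗ₖ Y₁)ᴴ) ^ 4) :
    ∃ N L, 0 < N ∧ 0 < L ∧ 0 < KD (copies L (copies N Ψ)) := by
  obtain ⟨α, γ, δ, p, r, hα, hγ, hδ, hprod, h00, h11, h01, h10, hpr⟩ :=
    scale (wt_nonneg Ψ X₀ Y₀) (wt_nonneg Ψ X₀ Y₁) (wt_nonneg Ψ X₁ Y₀) (wt_nonneg Ψ X₁ Y₁)
      (traceNorm_nonneg _) (fid_sq_le Ψ X₀ X₁ Y₀ Y₁) h
  refine KD_pos_core Ψ hΨ (fun x => if x then (γ : ℂ) • X₁ else (α : ℂ) • X₀)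
    (fun x => if x then (δ : ℂ) • Y₁ else ((1 : ℝ) : ℂ) • Y₀) (p := p) (r := r) ?_ ?_ ?_ ?_ rfl ?_
  · simp only [Bool.false_eq_true, if_false]
    rw [wt_smul, one_pow, mul_one, h00]
  · simp only [if_true]
    rw [wt_smul, h11]
  · simp only [if_true, Bool.false_eq_true, if_false]
    rw [wt_smul]
    exact h01
  · simp only [if_true, Bool.false_eq_true, if_false]
    rw [wt_smul, one_pow, mul_one]
    exact h10
  · simp only [if_true, Bool.false_eq_true, if_false]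
    rw [tn_smul, mul_one, hprod, abs_one, one_mul]
    exact hpr

end Vale.Agent.P372
end
end
end

section

section

section

/-! The recursive protocols of `Defs` and the inductive predicate `LOCC` give the same key. -/

open Matrix Filter Topology
open scoped ComplexOrder

namespace Vale.Agent.P372

theorem locc_of_protocol {K : Type} [Fintype K] : {A B : Type} → (π : Protocol K A B) → π.Valid →
    LOCC K A B π.Transcript π.effA π.effB
  | _, _, .output P Q, h => by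
    classical
    obtain ⟨⟨hP, hP1⟩, hQ, hQ1⟩ := h
    exact LOCC.output P Q hP hP1 hQ hQ1
  | _, _, .alice A' M R _ _ _ V next, h => by
    classical
    obtain ⟨hV, hn⟩ := h
    exact LOCC.alice A' M R V hV (fun m => (next m).Transcript) (fun m => (next m).effA)
      (fun m => (next m).effB) (fun m => locc_of_protocol (next m) (hn m))
  | _, _, .bob B' M R _ _ _ V next, h => by
    classical
    obtain ⟨hV, hn⟩ := h
    exact LOCC.bob B' M R V hV (fun m => (next m).Transcript) (fun m => (next m).effA)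
      (fun m => (next m).effB) (fun m => locc_of_protocol (next m) (hn m))

variable {A B E : Type} [Fintype A] [DecidableEq A] [Fintype B] [DecidableEq B] [Fintype E]
  [DecidableEq E]

theorem KD_le_distillableKey (Ψ : Matrix (A × B) E ℂ) : KD Ψ ≤ distillableKey Ψ := by
  apply sSup_le_sSup
  rintro r ⟨ℓ, π, ε, hv, he, hε, hr⟩
  refine ⟨ℓ, ε, fun n => ⟨(π n).Transcript, inferInstance, (π n).effA, (π n).effB,
    locc_of_protocol _ (hv n), he n⟩, hε, hr⟩

omit [Fintype A] [DecidableEq A] [Fintype B] [DecidableEq B] in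
theorem one_congr' (i j : DecidableEq A) :
    (@OfNat.ofNat (Matrix A A ℂ) 1 (@One.toOfNat1 _ (@Matrix.one A ℂ i _ _))) =
      (@OfNat.ofNat (Matrix A A ℂ) 1 (@One.toOfNat1 _ (@Matrix.one A ℂ j _ _))) := by
  rw [Subsingleton.elim i j]

omit [Fintype A] [DecidableEq A] [Fintype B] [DecidableEq B] in
theorem protocol_of_locc {K T : Type} [Fintype K] {f : T → K → Matrix A A ℂ}
    {g : T → K → Matrix B B ℂ} (h : LOCC K A B T f g) :
    ∃ π : Protocol K A B, π.Valid ∧ ∃ e : π.Transcript ≃ T,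
      (∀ t, π.effA t = f (e t)) ∧ ∀ t, π.effB t = g (e t) := by
  induction h with
  | output P Q hP hP1 hQ hQ1 =>
    exact ⟨.output P Q, ⟨⟨hP, hP1.trans (one_congr' _ _)⟩, hQ, hQ1.trans (one_congr' _ _)⟩,
      Equiv.refl Unit, fun _ => rfl, fun _ => rfl⟩
  | alice A' M R V hV T f g h ih =>
    choose π hπ e hf hg using ih
    refine ⟨.alice A' M R inferInstance inferInstance inferInstance V π,
      ⟨hV.trans (one_congr' _ _), hπ⟩, Equiv.sigmaCongrRight e, fun t => ?_, fun t => ?_⟩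
    · obtain ⟨m, t⟩ := t
      funext k
      change (∑ r, (V m r)ᴴ * (π m).effA t k * V m r) = ∑ r, (V m r)ᴴ * f m (e m t) k * V m r
      rw [hf m t]
    · obtain ⟨m, t⟩ := t
      exact hg m t
  | bob B' M R V hV T f g h ih =>
    choose π hπ e hf hg using ih
    refine ⟨.bob B' M R inferInstance inferInstance inferInstance V π,
      ⟨hV.trans (one_congr' _ _), hπ⟩, Equiv.sigmaCongrRight e, fun t => ?_, fun t => ?_⟩
    · obtain ⟨m, t⟩ := t
      exact hf m t
    · obtain ⟨m, t⟩ := t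
      funext k
      change (∑ r, (V m r)ᴴ * (π m).effB t k * V m r) = ∑ r, (V m r)ᴴ * g m (e m t) k * V m r
      rw [hg m t]

omit [DecidableEq A] [DecidableEq B] in
theorem errorLE_of_keyError {K T : Type} [Fintype K] [DecidableEq K] [Fintype T]
    {f : T → K → Matrix A A ℂ} {g : T → K → Matrix B B ℂ} {Ψ : Matrix (A × B) E ℂ} {ε : ℝ}
    (h : KeyError f g Ψ ε) {π : Protocol K A B} (e : π.Transcript ≃ T)
    (hf : ∀ t, π.effA t = f (e t)) (hg : ∀ t, π.effB t = g (e t)) : π.ErrorLE Ψ ε := by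
  obtain ⟨σ, h1, h2, h3⟩ := h
  refine ⟨fun t => σ (e t), fun t => h1 _, ?_, ?_⟩
  · rw [← h2]
    exact Equiv.sum_comp e fun t => (σ t).trace
  · refine le_trans (le_of_eq ?_) h3
    rw [← Equiv.sum_comp e fun t => ∑ k, ∑ l, traceNorm (eve Ψ (f t k) (g t l) -
      if k = l then ((Fintype.card K : ℂ)⁻¹) • σ t else 0)]
    refine Finset.sum_congr rfl fun t _ => Finset.sum_congr rfl fun k _ =>
      Finset.sum_congr rfl fun l _ => ?_
    rw [hf, hg]

theorem distillableKey_eq_KD (Ψ : Matrix (A × B) E ℂ) : distillableKey Ψ = KD Ψ := by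
  refine le_antisymm (sSup_le_sSup ?_) (KD_le_distillableKey Ψ)
  rintro r ⟨ℓ, ε, hn, hε, hr⟩
  choose T iT f g hL hE using hn
  have hP := fun n => protocol_of_locc (hL n)
  choose π hπ e hf hg using hP
  refine ⟨ℓ, π, ε, hπ, fun n => ?_, hε, hr⟩
  letI := iT n
  exact errorLE_of_keyError (hE n) (e n) (hf n) (hg n)

end Vale.Agent.P372
end
end
end

section

section

section

open Matrix Kronecker Filter Topology
open scoped ComplexOrder MatrixOrder

set_option linter.unusedSectionVars false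

namespace Vale.Agent.P372

variable {A B E : Type} [Fintype A] [DecidableEq A] [Fintype B] [DecidableEq B]
  [Fintype E] [DecidableEq E]

theorem keyTest_of_pos (Ψ : Matrix (A × B) E ℂ) (h : 0 < distillableKey Ψ) :
    ∃ n, 1 ≤ n ∧ KeyTest1 (tpow n (Ψ * Ψᴴ)) := by
  rw [distillableKey_eq_KD] at h
  obtain ⟨n, hn, X₀, X₁, Y₀, Y₁, h1⟩ := test_of_KD_pos Ψ h
  rw [copies_mul] at h1
  exact ⟨n, hn, X₀, X₁, Y₀, Y₁, h1⟩

theorem pos_of_keyTest (Ψ : Matrix (A × B) E ℂ) (hΨ : (Ψ * Ψᴴ).trace = 1) {n : ℕ} (hn : 1 ≤ n)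
    (h : KeyTest1 (tpow n (Ψ * Ψᴴ))) : 0 < distillableKey Ψ := by
  rw [distillableKey_eq_KD]
  obtain ⟨X₀, X₁, Y₀, Y₁, h1⟩ := h
  rw [← copies_mul] at h1
  have hn' := trace_copies n Ψ hΨ
  obtain ⟨N, L, hN, hL, h2⟩ := KD_pos_of_test (copies n Ψ) hn' X₀ X₁ Y₀ Y₁ h1
  have h3 := KD_pos_of_copies hL _ (trace_copies N _ hn') h2
  have h4 := KD_pos_of_copies hN _ hn' h3
  exact KD_pos_of_copies hn _ hΨ h4

theorem pos_iff_keyTest (Ψ : Matrix (A × B) E ℂ) (hΨ : (Ψ * Ψᴴ).trace = 1) :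
    0 < distillableKey Ψ ↔ ∃ n, 1 ≤ n ∧ KeyTest1 (tpow n (Ψ * Ψᴴ)) :=
  ⟨keyTest_of_pos Ψ, fun ⟨_, hn, h⟩ => pos_of_keyTest Ψ hΨ hn h⟩

/-- Positivity of the key is an open condition. -/
theorem eventually_pos (Ψ : Matrix (A × B) E ℂ) (h : 0 < distillableKey Ψ) :
    ∀ᶠ ρ in 𝓝 (Ψ * Ψᴴ), ∀ (E' : Type) [Fintype E'] [DecidableEq E'] (Φ : Matrix (A × B) E' ℂ),
      Φ * Φᴴ = ρ → ρ.trace = 1 → 0 < distillableKey Φ := by
  obtain ⟨n, hn, h1⟩ := keyTest_of_pos Ψ h
  filter_upwards [(isOpen_keyTest n).mem_nhds h1] with ρ hρ E' _ _ Φ hΦ htr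
  refine pos_of_keyTest Φ (by rw [hΦ, htr]) hn ?_
  rw [hΦ]
  exact hρ

end Vale.Agent.P372
end
end
end

section

section

section

/-! Positive distillable key for states with two product vectors in the kernel and no product
vector in the range, and for all states built from unextendible product bases of `ℂ^d ⊗ ℂ^3`. -/

open Matrix Kronecker
open scoped ComplexOrder

namespace Vale.Agent.P372

variable {A B E : Type} [Fintype A] [DecidableEq A] [Fintype B] [DecidableEq B] [Fintype E]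
  [DecidableEq E]

namespace UPB

open T1

omit [Fintype A] [DecidableEq A] [Fintype B] [DecidableEq B] in
theorem vmv_kronecker (a a' : A → ℂ) (b b' : B → ℂ) :
    vecMulVec a (star a') ⊗ₖ vecMulVec b (star b')
      = vecMulVec (prodVec a b) (star (prodVec a' b')) := by
  ext p q
  simp only [kroneckerMap_apply, vecMulVec_apply, prodVec, Pi.star_apply, star_mul]
  ring

theorem eve_vmv (Ψ : Matrix (A × B) E ℂ) (a a' : A → ℂ) (b b' : B → ℂ) :
    eve Ψ (vecMulVec a (star a')) (vecMulVec b (star b'))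
      = (vecMulVec (Ψᴴ *ᵥ prodVec a b) (star (Ψᴴ *ᵥ prodVec a' b')))ᵀ := by
  rw [eve_eq, vmv_kronecker, mul_vecMulVec, vecMulVec_mul, star_mulVec, conjTranspose_conjTranspose]

theorem eve_vmv_trace (Ψ : Matrix (A × B) E ℂ) (a a' : A → ℂ) (b b' : B → ℂ) :
    (eve Ψ (vecMulVec a (star a')) (vecMulVec b (star b'))).trace
      = ip (prodVec a' b') ((Ψ * Ψᴴ) *ᵥ prodVec a b) := by
  rw [eve_vmv, trace_transpose, trace_vecMulVec, dotProduct_comm, star_mulVec,
    conjTranspose_conjTranspose, ip, ← mulVec_mulVec, ← dotProduct_mulVec]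

theorem posSemidef_vmv (u : B → ℂ) : (vecMulVec u (star u)).PosSemidef :=
  posSemidef_vecMulVec_self_star u

theorem transpose_mulVec_eq_zero {M : Matrix E E ℂ} (hM : Mᴴ = M) {v : E → ℂ}
    (h : Mᵀ *ᵥ v = 0) : M *ᵥ star v = 0 := by
  have h1 := congrArg star h
  rw [mulVec_transpose, star_vecMul, hM, star_zero] at h1
  exact h1

theorem one_kronecker_mulVec (M : Matrix B B ℂ) (ψ : A × B → ℂ) (x : A) (y : B) :
    (((1 : Matrix A A ℂ) ⊗ₖ M) *ᵥ ψ) (x, y) = (M *ᵥ fun y' => ψ (x, y')) y := by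
  simp only [mulVec, dotProduct, kroneckerMap_apply, Fintype.sum_prod_type]
  rw [Finset.sum_eq_single x]
  · simp only [one_apply_eq, one_mul]
  · intro x' _ hx'
    refine Finset.sum_eq_zero fun y' _ => ?_
    rw [one_apply_ne (Ne.symm hx'), zero_mul, zero_mul]
  · intro h; exact absurd (Finset.mem_univ x) h

theorem quad_fiber (ψ : A × B → ℂ) (b : B → ℂ) :
    star ψ ⬝ᵥ (((1 : Matrix A A ℂ) ⊗ₖ vecMulVec b (star b)) *ᵥ ψ)
      = ((∑ x, ‖ip b (fun y => ψ (x, y))‖ ^ 2 : ℝ) : ℂ) := by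
  push_cast
  rw [dotProduct, Fintype.sum_prod_type]
  refine Finset.sum_congr rfl fun x _ => ?_
  have h1 : ∀ y, (((1 : Matrix A A ℂ) ⊗ₖ vecMulVec b (star b)) *ᵥ ψ) (x, y)
      = ip b (fun y' => ψ (x, y')) * b y := by
    intro y
    rw [one_kronecker_mulVec, vmv_mulVec]
    rfl
  simp only [h1]
  rw [← Complex.conj_mul', ← RCLike.star_def, ip_star, ip_def (fun y' => ψ (x, y')) b,
    Finset.sum_mul]
  refine Finset.sum_congr rfl fun y _ => ?_
  simp only [Pi.star_apply]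
  ring

/-- The kernel of `Ψᴴ (1 ⊗ (|b⟩⟨b| + |b'⟩⟨b'|)) Ψ`. -/
theorem ip_fiber_eq_zero (Ψ : Matrix (A × B) E ℂ) (b b' : B → ℂ) (v : E → ℂ)
    (h : eve Ψ 1 (vecMulVec b (star b) + vecMulVec b' (star b')) *ᵥ v = 0) (x : A) :
    ip b (fun y => (Ψ *ᵥ star v) (x, y)) = 0 ∧ ip b' (fun y => (Ψ *ᵥ star v) (x, y)) = 0 := by
  have hM : (eve Ψ 1 (vecMulVec b (star b) + vecMulVec b' (star b')))ᴴ
      = eve Ψ 1 (vecMulVec b (star b) + vecMulVec b' (star b')) := by
    rw [eve_conjTranspose, conjTranspose_one, conjTranspose_add, conjTranspose_vecMulVec,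
      conjTranspose_vecMulVec, star_star, star_star]
  rw [eve_eq] at h hM
  have hM' : (Ψᴴ * ((1 : Matrix A A ℂ) ⊗ₖ (vecMulVec b (star b) + vecMulVec b' (star b'))) * Ψ)ᴴ
      = Ψᴴ * ((1 : Matrix A A ℂ) ⊗ₖ (vecMulVec b (star b) + vecMulVec b' (star b'))) * Ψ := by
    rw [conjTranspose_transpose_eq_transpose_conjTranspose] at hM
    exact transpose_injective hM
  have h1 := transpose_mulVec_eq_zero hM' h
  set ψ := Ψ *ᵥ star v with hψ
  have h2 : star ψ ⬝ᵥ (((1 : Matrix A A ℂ) ⊗ₖ (vecMulVec b (star b) + vecMulVec b' (star b')))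
      *ᵥ ψ) = 0 := by
    have h3 : star (star v) ⬝ᵥ ((Ψᴴ * ((1 : Matrix A A ℂ) ⊗ₖ
        (vecMulVec b (star b) + vecMulVec b' (star b'))) * Ψ) *ᵥ star v) = 0 := by
      rw [h1, dotProduct_zero]
    rw [← mulVec_mulVec, ← mulVec_mulVec, ← hψ, dotProduct_mulVec, ← star_mulVec, ← hψ] at h3
    exact h3
  rw [kronecker_add, add_mulVec, dotProduct_add, quad_fiber, quad_fiber, ← Complex.ofReal_add,
    Complex.ofReal_eq_zero] at h2
  have e1 : ∀ c : B → ℂ, 0 ≤ ∑ x, ‖ip c (fun y => ψ (x, y))‖ ^ 2 := fun c =>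
    Finset.sum_nonneg fun _ _ => by (clear * -; positivity)
  have e2 := (add_eq_zero_iff_of_nonneg (e1 b) (e1 b')).mp h2
  have e3 := (Finset.sum_eq_zero_iff_of_nonneg (fun _ _ => by (clear * -; positivity))).mp e2.1 x
    (Finset.mem_univ x)
  have e4 := (Finset.sum_eq_zero_iff_of_nonneg (fun _ _ => by (clear * -; positivity))).mp e2.2 x
    (Finset.mem_univ x)
  exact ⟨norm_eq_zero.mp (pow_eq_zero_iff two_ne_zero |>.mp e3),
    norm_eq_zero.mp (pow_eq_zero_iff two_ne_zero |>.mp e4)⟩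

theorem star_ip_mulVec {n : Type} [Fintype n] {M : Matrix n n ℂ} (hM : Mᴴ = M) (u v : n → ℂ) :
    star (ip u (M *ᵥ v)) = ip v (M *ᵥ u) := by
  rw [ip_star, ip, star_mulVec, hM, ip, dotProduct_mulVec]

end UPB

open UPB in
/-- A state on `ℂ^d ⊗ ℂ^3` without product vectors in its range, but with two product vectors
`a ⊗ b`, `a' ⊗ b'` in its kernel such that `b`, `b'` are linearly independent and the operator
`⟨a'|ρ|a⟩` is not zero, has positive distillable key. -/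
theorem kernel_pair_of (Ψ : Matrix (A × Fin 3) E ℂ) (hblock : BlockPosStatement Ψ)
    (hΨ : (Ψ * Ψᴴ).trace = 1) (a a' : A → ℂ) (b b' : Fin 3 → ℂ)
    (hab : Ψᴴ *ᵥ prodVec a b = 0) (hab' : Ψᴴ *ᵥ prodVec a' b' = 0)
    (hbb : star b ⨯₃ star b' ≠ 0)
    (hces : ∀ (v : E → ℂ) (α : A → ℂ) (β : Fin 3 → ℂ), Ψ *ᵥ v = prodVec α β → Ψ *ᵥ v = 0)
    (hne : ∃ β : Fin 3 → ℂ, ip (prodVec a' β) ((Ψ * Ψᴴ) *ᵥ prodVec a β) ≠ 0) : 0 < KD Ψ := by
  obtain ⟨β, hβ⟩ := hne
  set w := ip (prodVec a' β) ((Ψ * Ψᴴ) *ᵥ prodVec a β) with hw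
  have hw' : ip (prodVec a β) ((Ψ * Ψᴴ) *ᵥ prodVec a' β) = star w :=
    (star_ip_mulVec (by rw [conjTranspose_mul, conjTranspose_conjTranspose]) _ _).symm
  refine kernel_criterion_of Ψ hblock hΨ
    (X := star w • vecMulVec a (star a') + w • vecMulVec a' (star a))
    (H := vecMulVec b (star b) + vecMulVec b' (star b'))
    (Φ := vecMulVec β (star β)) ?_ ?_ (posSemidef_vmv β) ?_ ?_ ?_
  · rw [IsHermitian, conjTranspose_add, conjTranspose_smul, conjTranspose_smul,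
      conjTranspose_vecMulVec, conjTranspose_vecMulVec, star_star, star_star, star_star, add_comm]
  · exact (posSemidef_vmv b).add (posSemidef_vmv b')
  · rw [T1.eve_add_left, T1.eve_smul_left, T1.eve_smul_left, T1.eve_add_right, T1.eve_add_right,
      eve_vmv, eve_vmv, eve_vmv, eve_vmv, hab, hab']
    simp only [RCLike.star_def, zero_vecMulVec, transpose_zero, star_zero, vecMulVec_zero, add_zero, smul_zero]
  · intro v hv
    obtain ⟨n, -, -, -, hn⟩ := exists_normal' hbb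
    have h1 : ∀ x, ∃ c : ℂ, (fun y => (Ψ *ᵥ star v) (x, y)) = c • n := fun x =>
      hn _ (ip_fiber_eq_zero Ψ b b' v hv x).1 (ip_fiber_eq_zero Ψ b b' v hv x).2
    choose c hc using h1
    have h2 : Ψ *ᵥ star v = prodVec c n := by
      ext ⟨x, y⟩
      exact congrFun (hc x) y
    have h3 := hces _ _ _ h2
    rw [T1.eve_one_one, mulVec_transpose]
    have h4 : (Ψᴴ * Ψ) *ᵥ star v = 0 := by rw [← mulVec_mulVec, h3, mulVec_zero]
    have h5 := congrArg star h4
    rw [star_mulVec, star_star, conjTranspose_mul, conjTranspose_conjTranspose, star_zero] at h5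
    exact h5
  · rw [T1.eve_add_left, T1.eve_smul_left, T1.eve_smul_left, trace_add, trace_smul, trace_smul,
      eve_vmv_trace, eve_vmv_trace, ← hw, hw', smul_eq_mul, smul_eq_mul, RCLike.star_def,
      Complex.conj_mul', Complex.mul_conj']
    have : (‖w‖ : ℂ) ≠ 0 := by exact_mod_cast (norm_ne_zero_iff.mpr hβ)
    rw [← two_mul]
    exact mul_ne_zero two_ne_zero (pow_ne_zero 2 this)

namespace UPB

omit [DecidableEq A] [DecidableEq B] in
theorem ip_prodVec (a a' : A → ℂ) (b b' : B → ℂ) :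
    ip (prodVec a b) (prodVec a' b') = ip a a' * ip b b' := by
  simp only [ip_def, prodVec, Fintype.sum_prod_type, Finset.sum_mul_sum, star_mul]
  refine Finset.sum_congr rfl fun x _ => Finset.sum_congr rfl fun y _ => ?_
  ring

omit [Fintype A] [DecidableEq A] [Fintype B] [DecidableEq B] in
theorem prodVec_eq_zero {a : A → ℂ} {b : B → ℂ} (h : prodVec a b = 0) : a = 0 ∨ b = 0 := by
  by_contra hcon
  push Not at hcon
  obtain ⟨x, hx⟩ := Function.ne_iff.mp hcon.1
  obtain ⟨y, hy⟩ := Function.ne_iff.mp hcon.2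
  exact mul_ne_zero hx hy (congrFun h (x, y))

omit [DecidableEq A] [DecidableEq B] in
theorem ip_conj_mulVec {m : Type} [Fintype m] {n : Type} [Fintype n] (K : Matrix m n ℂ)
    (u : m → ℂ) (v : n → ℂ) : ip u (K *ᵥ v) = ip (Kᴴ *ᵥ u) v := by
  rw [ip, ip, star_mulVec, conjTranspose_conjTranspose, dotProduct_mulVec]

end UPB

/-- `BlockPosStatement` holds, by `block_pos`. -/
theorem blockPosStatement (Ψ : Matrix (A × B) E ℂ) (hΨ : (Ψ * Ψᴴ).trace = 1) :
    BlockPosStatement Ψ := by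
  intro Y _ _ EA hEA hEA1 FB hFB hFB1 P hP D hD p V2 Bh hp hV hB hlt
  exact block_pos Ψ hΨ EA hEA hEA1 FB hFB hFB1 P hP D hD p V2 Bh hp hV hB hlt

end Vale.Agent.P372
end
end
end

section

section

section

/-! A state on `ℂ^d ⊗ ℂ^3` such that no product vector is orthogonal to all product vectors of its
kernel has positive distillable key. -/

open Matrix Kronecker
open scoped ComplexOrder

namespace Vale.Agent.P372

variable {A B E : Type} [Fintype A] [DecidableEq A] [Fintype B] [DecidableEq B] [Fintype E]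
  [DecidableEq E]

namespace UPB

omit [DecidableEq A] [DecidableEq B] in
theorem ip_prodVec_fiber (a : A → ℂ) (b : B → ℂ) (φ : A × B → ℂ) :
    ip (prodVec a b) φ = ip a (fun x => ip b (fun y => φ (x, y))) := by
  simp only [ip_def, prodVec, Fintype.sum_prod_type, Finset.mul_sum, star_mul]
  refine Finset.sum_congr rfl fun x _ => Finset.sum_congr rfl fun y _ => ?_
  ring

omit [DecidableEq A] [DecidableEq B] [DecidableEq E] in
theorem ip_mul_conj (Ψ : Matrix (A × B) E ℂ) (u v : A × B → ℂ) :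
    ip u ((Ψ * Ψᴴ) *ᵥ v) = ip (Ψᴴ *ᵥ u) (Ψᴴ *ᵥ v) := by
  rw [← mulVec_mulVec, ip_conj_mulVec]

theorem par_of_cross_eq_zero {u v : Fin 3 → ℂ} (hu : u ≠ 0) (h : star u ⨯₃ star v = 0) :
    ∃ c : ℂ, v = c • u := by
  have h1 : u ⨯₃ (star u ⨯₃ star v) = 0 := by rw [h, map_zero]
  rw [cross_cross_eq_smul_sub_smul'] at h1
  have h2 : star u ⬝ᵥ u ≠ 0 := fun h0 => hu (ip_self_eq_zero h0)
  have h3 := sub_eq_zero.mp h1
  refine ⟨star ((star u ⬝ᵥ u)⁻¹ * (u ⬝ᵥ star v)), ?_⟩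
  have h4 : star v = ((star u ⬝ᵥ u)⁻¹ * (u ⬝ᵥ star v)) • star u := by
    rw [mul_smul, h3, smul_smul, inv_mul_cancel₀ h2, one_smul]
  have h5 := congrArg star h4
  rw [star_star, star_smul, star_star] at h5
  exact h5

end UPB

open UPB in
/-- A state on `ℂ^d ⊗ ℂ^3` such that the only product vector orthogonal to all product vectors of
its kernel is `0` has positive distillable key. -/
theorem kernel_unextendible (Ψ : Matrix (A × Fin 3) E ℂ) (hΨ : (Ψ * Ψᴴ).trace = 1)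
    (hU : ∀ (α : A → ℂ) (β : Fin 3 → ℂ), (∀ (a : A → ℂ) (b : Fin 3 → ℂ),
      (Ψ * Ψᴴ) *ᵥ prodVec a b = 0 → star (prodVec a b) ⬝ᵥ prodVec α β = 0) →
        prodVec α β = 0) : 0 < KD Ψ := by
  classical
  -- the kernel criterion in usable form
  have hU' : ∀ (α : A → ℂ) (β : Fin 3 → ℂ), α ≠ 0 → β ≠ 0 → ∃ (a : A → ℂ) (b : Fin 3 → ℂ),
      Ψᴴ *ᵥ prodVec a b = 0 ∧ ip a α ≠ 0 ∧ ip b β ≠ 0 := by
    intro α β hα hβ
    by_contra hcon
    have h0 : prodVec α β = 0 := by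
      apply hU
      intro a b hab
      rw [self_mul_conjTranspose_mulVec_eq_zero] at hab
      by_contra h
      apply hcon
      have h' : ip a α * ip b β ≠ 0 := by
        rw [← ip_prodVec]; exact h
      exact ⟨a, b, hab, left_ne_zero_of_mul h', right_ne_zero_of_mul h'⟩
    rcases prodVec_eq_zero h0 with h | h
    · exact hα h
    · exact hβ h
  have hne0 : ∀ (a : A → ℂ) (b1 : Fin 3 → ℂ), Ψᴴ *ᵥ prodVec a b1 ≠ 0 →
      (fun x => ip b1 (fun y => ((Ψ * Ψᴴ) *ᵥ prodVec a b1) (x, y))) ≠ 0 := by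
    intro a b1 h h0
    apply h
    apply ip_self_eq_zero
    rw [← ip_mul_conj, ip_prodVec_fiber, h0, ip_zero_right]
  -- a product vector outside the kernel
  obtain ⟨α, b1, hαb⟩ : ∃ (α : A → ℂ) (b1 : Fin 3 → ℂ), Ψᴴ *ᵥ prodVec α b1 ≠ 0 := by
    by_contra hcon
    push Not at hcon
    have h0 : Ψᴴ = 0 := by
      apply ext_of_mulVec_single
      rintro ⟨x, y⟩
      have h1 : (Pi.single (x, y) (1 : ℂ) : A × Fin 3 → ℂ)
          = prodVec (Pi.single x 1) (Pi.single y 1) := by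
        ext ⟨x', y'⟩
        simp only [prodVec, Pi.single_apply, Prod.mk.injEq]
        by_cases hx : x' = x <;> by_cases hy : y' = y <;> simp [hx, hy]
      rw [h1, hcon, zero_mulVec]
    rw [h0, Matrix.mul_zero, trace_zero] at hΨ
    exact zero_ne_one hΨ
  obtain ⟨a0, b0, hk0, ha0, hb0⟩ := hU' _ (Pi.single 0 1) (hne0 α b1 hαb) (by simp)
  have hb00 : b0 ≠ 0 := by
    rintro rfl
    exact hb0 (by simp only [ip, star_zero, Fin.isValue, dotProduct_single, Pi.zero_apply, mul_one])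
  have ha0b1 : Ψᴴ *ᵥ prodVec a0 b1 ≠ 0 := by
    intro h
    apply ha0
    rw [← ip_prodVec_fiber, ip_mul_conj, h]
    simp only [ip, star_zero, zero_dotProduct]
  obtain ⟨β', hβ', hb0β'⟩ := exists_orth b0
  obtain ⟨a, b, hk, ha, hb⟩ := hU' _ β' (hne0 a0 b1 ha0b1) hβ'
  refine kernel_pair_of Ψ (blockPosStatement Ψ hΨ) hΨ a0 a b0 b hk0 hk ?_ ?_ ⟨b1, ?_⟩
  · intro hcross
    obtain ⟨c, hc⟩ := par_of_cross_eq_zero hb00 hcross
    apply hb
    rw [hc, ip_smul_left, hb0β', mul_zero]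
  · intro v α' β h
    rw [h]
    apply hU
    intro a' b' hab
    rw [self_mul_conjTranspose_mulVec_eq_zero] at hab
    rw [← h]
    have : ip (prodVec a' b') (Ψ *ᵥ v) = 0 := by
      rw [ip_conj_mulVec, hab]
      simp only [ip, star_zero, zero_dotProduct]
    exact this
  · rw [ip_prodVec_fiber]
    exact ha

end Vale.Agent.P372
end
end
end

section

section

section

/-! Diagonal tests: weights and a lower bound for the trace norm by partial permutations. -/

open Matrix Kronecker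
open scoped ComplexOrder

set_option linter.unusedSectionVars false

namespace Vale.Agent.P372

section

variable {E ι : Type} [Fintype E] [DecidableEq E] [Fintype ι] [DecidableEq ι]

/-- The matrix with columns the basis vectors `u i`. -/
def colM (u : ι → E) : Matrix E ι ℂ := fun p i => if p = u i then 1 else 0

theorem colM_iso {u : ι → E} (hu : Function.Injective u) : (colM u)ᴴ * colM u = 1 := by
  ext i j
  rw [Matrix.mul_apply, Matrix.one_apply]
  simp only [conjTranspose_apply, colM]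
  rw [Finset.sum_eq_single (u i)]
  · by_cases h : i = j
    · subst h; simp
    · have h' : u i ≠ u j := fun h1 => h (hu h1)
      simp [h, h']
  · intro p _ hp
    simp [hp]
  · simp only [Finset.mem_univ, not_true_eq_false, ↓reduceIte, star_one, mul_ite, mul_one, mul_zero, ite_eq_right_iff, one_ne_zero, imp_false, IsEmpty.forall_iff]

theorem one_sub_iso_psd {V : Matrix E ι ℂ} (hV : Vᴴ * V = 1) : (1 - V * Vᴴ).PosSemidef := by
  have h : (1 - V * Vᴴ) = (1 - V * Vᴴ)ᴴ * (1 - V * Vᴴ) := by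
    rw [conjTranspose_sub, conjTranspose_one, conjTranspose_mul, conjTranspose_conjTranspose]
    have : V * Vᴴ * (V * Vᴴ) = V * Vᴴ := by
      calc V * Vᴴ * (V * Vᴴ) = V * (Vᴴ * V) * Vᴴ := by simp only [Matrix.mul_assoc]
        _ = V * Vᴴ := by rw [hV, Matrix.mul_one]
    rw [Matrix.sub_mul, Matrix.mul_sub, Matrix.mul_sub, this]
    simp
  rw [h]
  exact posSemidef_conjTranspose_mul_self _

theorem contr_colM {u v : ι → E} (hu : Function.Injective u) (hv : Function.Injective v) :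
    Contr (colM v * (colM u)ᴴ) := by
  have h1 : (colM v * (colM u)ᴴ) * (colM v * (colM u)ᴴ)ᴴ = colM v * (colM v)ᴴ := by
    rw [conjTranspose_mul, conjTranspose_conjTranspose]
    calc colM v * (colM u)ᴴ * (colM u * (colM v)ᴴ) = colM v * ((colM u)ᴴ * colM u) * (colM v)ᴴ := by
          simp only [Matrix.mul_assoc]
      _ = _ := by rw [colM_iso hu, Matrix.mul_one]
  have h2 : (colM v * (colM u)ᴴ)ᴴ * (colM v * (colM u)ᴴ) = colM u * (colM u)ᴴ := by
    rw [conjTranspose_mul, conjTranspose_conjTranspose]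
    calc colM u * (colM v)ᴴ * (colM v * (colM u)ᴴ) = colM u * ((colM v)ᴴ * colM v) * (colM u)ᴴ := by
          simp only [Matrix.mul_assoc]
      _ = _ := by rw [colM_iso hv, Matrix.mul_one]
  refine ⟨?_, ?_⟩
  · rw [h1]; exact one_sub_iso_psd (colM_iso hv)
  · rw [h2]; exact one_sub_iso_psd (colM_iso hu)

theorem trace_colM (u v : ι → E) (M : Matrix E E ℂ) :
    (colM v * (colM u)ᴴ * M).trace = ∑ i, M (u i) (v i) := by
  rw [Matrix.mul_assoc, trace_mul_comm]
  simp only [trace, diag]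
  refine Finset.sum_congr rfl fun i _ => ?_
  rw [Matrix.mul_apply, Finset.sum_eq_single (v i)]
  · rw [Matrix.mul_apply, Finset.sum_eq_single (u i)]
    · simp [colM]
    · intro p _ hp
      simp [colM, hp]
    · simp only [Finset.mem_univ, not_true_eq_false, conjTranspose_apply, RCLike.star_def, mul_eq_zero, map_eq_zero, IsEmpty.forall_iff]
  · intro p _ hp
    simp [colM, hp]
  · simp only [Finset.mem_univ, not_true_eq_false, mul_eq_zero, IsEmpty.forall_iff]

theorem norm_sum_le_traceNorm {u v : ι → E} (hu : Function.Injective u)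
    (hv : Function.Injective v) (M : Matrix E E ℂ) : ‖∑ i, M (u i) (v i)‖ ≤ traceNorm M := by
  rw [← trace_colM]
  exact norm_trace_mul_le (contr_colM hu hv) M

end

variable {A B : Type} [Fintype A] [Fintype B] [DecidableEq A] [DecidableEq B]

/-- The diagonal projector of a set. -/
def ind (S : Finset A) : Matrix A A ℂ := diagonal (fun a => if a ∈ S then 1 else 0)

theorem kron_ind (S : Finset A) (T : Finset B) :
    ind S ⊗ₖ ind T = diagonal (fun p : A × B => if p.1 ∈ S ∧ p.2 ∈ T then (1 : ℂ) else 0) := by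
  rw [ind, ind, diagonal_kronecker_diagonal]
  congr 1
  ext p
  by_cases h1 : p.1 ∈ S <;> by_cases h2 : p.2 ∈ T <;> simp [h1, h2]

theorem test_apply (ρ : Matrix (A × B) (A × B) ℂ) (S S' : Finset A) (T T' : Finset B)
    (p q : A × B) : ((ind S ⊗ₖ ind T) * ρ * (ind S' ⊗ₖ ind T')ᴴ) p q =
      if (p.1 ∈ S ∧ p.2 ∈ T) ∧ (q.1 ∈ S' ∧ q.2 ∈ T') then ρ p q else 0 := by
  rw [kron_ind, kron_ind, diagonal_conjTranspose, mul_diagonal, diagonal_mul]
  by_cases h1 : (p.1 ∈ S ∧ p.2 ∈ T) <;> by_cases h2 : (q.1 ∈ S' ∧ q.2 ∈ T') <;>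
    simp [h1, h2, Pi.star_apply]

theorem weight_ind (ρ : Matrix (A × B) (A × B) ℂ) (S : Finset A) (T : Finset B) :
    weight ρ (ind S) (ind T) = ∑ a ∈ S, ∑ b ∈ T, (ρ (a, b) (a, b)).re := by
  rw [weight]
  simp only [trace, diag]
  rw [Complex.re_sum, Fintype.sum_prod_type]
  rw [← Finset.sum_subset (Finset.subset_univ S)]
  · refine Finset.sum_congr rfl fun a ha => ?_
    rw [← Finset.sum_subset (Finset.subset_univ T)]
    · refine Finset.sum_congr rfl fun b hb => ?_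
      rw [test_apply, if_pos ⟨⟨ha, hb⟩, ⟨ha, hb⟩⟩]
    · intro b _ hb
      rw [test_apply, if_neg (fun h => hb h.1.2), Complex.zero_re]
  · intro a _ ha
    refine Finset.sum_eq_zero fun b _ => ?_
    rw [test_apply, if_neg (fun h => ha h.1.1), Complex.zero_re]

theorem le_traceNorm_ind {ι : Type} [Fintype ι] [DecidableEq ι] (ρ : Matrix (A × B) (A × B) ℂ)
    (S S' : Finset A) (T T' : Finset B) {u v : ι → A × B} (hu : Function.Injective u)
    (hv : Function.Injective v) (hS : ∀ i, (u i).1 ∈ S) (hT : ∀ i, (u i).2 ∈ T)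
    (hS' : ∀ i, (v i).1 ∈ S') (hT' : ∀ i, (v i).2 ∈ T') {c : ℝ}
    (hc : ∀ i, ρ (u i) (v i) = (c : ℂ)) (hc0 : 0 ≤ c) :
    (Fintype.card ι : ℝ) * c ≤ traceNorm ((ind S ⊗ₖ ind T) * ρ * (ind S' ⊗ₖ ind T')ᴴ) := by
  refine le_trans (le_of_eq ?_) (norm_sum_le_traceNorm hu hv _)
  have h : ∀ i, ((ind S ⊗ₖ ind T) * ρ * (ind S' ⊗ₖ ind T')ᴴ) (u i) (v i) = (c : ℂ) := by
    intro i
    rw [test_apply, if_pos ⟨⟨hS i, hT i⟩, ⟨hS' i, hT' i⟩⟩, hc i]
  simp only [h]
  rw [Finset.sum_const, nsmul_eq_mul, norm_mul, Complex.norm_natCast, Complex.norm_real,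
    Real.norm_of_nonneg hc0, Finset.card_univ]

end Vale.Agent.P372
end
end
end

section

section

section

/-! The parity code on three letters: a test that works for every violated three-cycle. -/

open Matrix Kronecker
open scoped ComplexOrder

set_option linter.unusedSectionVars false

namespace Vale.Agent.P372

/-- Total weight of the words of length `L` whose letters add up to `d`. -/
noncomputable def wordSum (t : Fin 3 → ℝ) (L : ℕ) (d : Fin 3) : ℝ :=
  ∑ e : Fin L → Fin 3, if ∑ i, e i = d then ∏ i, t (e i) else 0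

theorem wordSum_zero (t : Fin 3 → ℝ) (d : Fin 3) : wordSum t 0 d = if d = 0 then 1 else 0 := by
  simp only [wordSum, Finset.univ_unique, Finset.univ_eq_empty, Finset.sum_empty, Fin.isValue, eq_comm, Finset.prod_empty, Finset.sum_ite_irrel, Finset.sum_const, Finset.card_singleton, one_smul, Finset.sum_const_zero]

theorem wordSum_succ (t : Fin 3 → ℝ) (L : ℕ) (d : Fin 3) :
    wordSum t (L + 1) d = ∑ e : Fin 3, t e * wordSum t L (d - e) := by
  simp only [wordSum]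
  rw [← (Fin.consEquiv (fun _ : Fin (L + 1) => Fin 3)).sum_comp, Fintype.sum_prod_type]
  refine Finset.sum_congr rfl fun e _ => ?_
  rw [Finset.mul_sum]
  refine Finset.sum_congr rfl fun f _ => ?_
  simp only [Fin.consEquiv_apply, Fin.sum_univ_succ, Fin.prod_univ_succ, Fin.cons_zero,
    Fin.cons_succ]
  by_cases h : ∑ i, f i = d - e
  · rw [if_pos h, if_pos (by rw [h]; abel)]
  · rw [if_neg h, if_neg (fun h' => h (by rw [← h']; abel)), mul_zero]

theorem wordSum_tri {t : Fin 3 → ℝ} {m w U : ℝ} (h0 : t 0 = m) (h1 : t 1 = m * w)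
    (h2 : t 2 = m * U) (L : ℕ) (k : Fin 3) :
    wordSum t L (L • 2 + k) = m ^ L * tri w U L k := by
  induction L generalizing k with
  | zero =>
    rw [wordSum_zero]
    fin_cases k <;> simp [tri]
  | succ L ih =>
    have e0 : wordSum t L ((L + 1) • (2 : Fin 3) + k - 0) = m ^ L * tri w U L (k + 2) := by
      rw [← ih (k + 2)]; congr 1; rw [succ_nsmul]; abel
    have e1 : wordSum t L ((L + 1) • (2 : Fin 3) + k - 1) = m ^ L * tri w U L (k + 1) := by
      rw [← ih (k + 1)]; congr 1; rw [succ_nsmul]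
      have : (2 : Fin 3) = 1 + 1 := rfl
      rw [this]; abel
    have e2 : wordSum t L ((L + 1) • (2 : Fin 3) + k - 2) = m ^ L * tri w U L k := by
      rw [← ih k]; congr 1; rw [succ_nsmul]; abel
    rw [wordSum_succ, Fin.sum_univ_three, e0, e1, e2, h0, h1, h2, pow_succ]
    fin_cases k
    · simp only [Fin.zero_eta, Fin.isValue, zero_add, tri, cons_val_zero]; ring
    · simp only [Fin.mk_one, Fin.isValue, Fin.reduceAdd, tri, cons_val_one, cons_val_zero]; ring
    · simp only [Fin.reduceFinMk, Fin.isValue, Fin.reduceAdd, tri, cons_val]; ring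

section

variable {A B : Type} [Fintype A] [Fintype B] [DecidableEq A] [DecidableEq B]

/-- The words with given sum of the letters, as a set of strings. -/
def wset (α : Fin 3 → A) (L : ℕ) (g : Fin 3) : Finset (Fin L → A) :=
  (Finset.univ.filter (fun x : Fin L → Fin 3 => ∑ i, x i = g)).image (fun x i => α (x i))

theorem mem_wset (α : Fin 3 → A) (L : ℕ) (x : Fin L → Fin 3) :
    (fun i => α (x i)) ∈ wset α L (∑ i, x i) := by
  rw [wset, Finset.mem_image]
  exact ⟨x, by simp only [Finset.mem_filter, Finset.mem_univ, and_self], rfl⟩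

theorem word_inj {α : Fin 3 → A} (hα : Function.Injective α) (L : ℕ) :
    Function.Injective (fun (x : Fin L → Fin 3) i => α (x i)) := by
  intro x y h
  ext i
  have := congrFun h i
  rw [hα this]

/-- The number of words with given sum. -/
def nw (L : ℕ) (g : Fin 3) : ℕ := (Finset.univ.filter (fun x : Fin L → Fin 3 => ∑ i, x i = g)).card

theorem weight_wset (ρ : Matrix (A × B) (A × B) ℂ) {α : Fin 3 → A} {β : Fin 3 → B}
    (hα : Function.Injective α) (hβ : Function.Injective β) (t : Fin 3 → ℝ)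
    (hd : ∀ i j, ρ (α i, β j) (α i, β j) = (t (j - i) : ℂ)) (L : ℕ) (g h : Fin 3) :
    weight (tpow L ρ) (ind (wset α L g)) (ind (wset β L h)) = nw L g * wordSum t L (h - g) := by
  rw [weight_ind, wset, wset, Finset.sum_image (fun x _ y _ h => word_inj hα L h), nw,
    Finset.card_eq_sum_ones]
  push_cast
  rw [Finset.sum_mul]
  refine Finset.sum_congr rfl fun x hx => ?_
  rw [Finset.mem_filter] at hx
  rw [Finset.sum_image (fun x _ y _ h => word_inj hβ L h), one_mul, Finset.sum_filter, wordSum]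
  refine Fintype.sum_equiv (Equiv.subRight x) _ _ fun y => ?_
  simp only [Equiv.subRight_apply, Pi.sub_apply, Finset.sum_sub_distrib, hx.2, sub_left_inj]
  by_cases h1 : ∑ i, y i = h
  · rw [if_pos h1, if_pos h1]
    change (∏ i, ρ (α (x i), β (y i)) (α (x i), β (y i))).re = _
    simp only [hd]
    rw [← Complex.ofReal_prod, Complex.ofReal_re]
  · rw [if_neg h1, if_neg h1]

theorem nw_pos {L : ℕ} (hL : 1 ≤ L) (g : Fin 3) : 0 < nw L g := by
  rw [nw, Finset.card_pos]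
  obtain ⟨L, rfl⟩ : ∃ L', L = L' + 1 := ⟨L - 1, by omega⟩
  refine ⟨Fin.cons g (fun _ => 0), ?_⟩
  simp only [Fin.sum_univ_succ, Fin.isValue, Finset.mem_filter, Finset.mem_univ, Fin.cons_zero, Fin.cons_succ, Finset.sum_const_zero, add_zero, and_self]

theorem nw_eq {L : ℕ} (hL : 1 ≤ L) (g h : Fin 3) : nw L g = nw L h := by
  obtain ⟨L, rfl⟩ : ∃ L', L = L' + 1 := ⟨L - 1, by omega⟩
  rw [nw, nw]
  refine Finset.card_equiv (Equiv.addRight (Fin.cons (h - g) (fun _ => 0) : Fin (L + 1) → Fin 3))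
    fun x => ?_
  simp only [Finset.mem_filter, Finset.mem_univ, true_and, Equiv.coe_addRight, Pi.add_apply,
    Finset.sum_add_distrib]
  have : ∑ i, (Fin.cons (h - g) (fun _ => 0) : Fin (L + 1) → Fin 3) i = h - g := by
    simp only [Fin.isValue, Fin.sum_univ_succ, Fin.cons_zero, Fin.cons_succ, Finset.sum_const_zero, add_zero]
  rw [this]
  constructor
  · intro h1; rw [h1]; abel
  · intro h1
    have : (∑ i, x i) = (∑ i, x i) + (h - g) - (h - g) := by abel
    rw [this, h1]; abel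

/-- Pattern with one exceptional place. -/
def pat (L : ℕ) (l : Fin L) (a b : Fin 3) : Fin L → Fin 3 := fun i => if i = l then a else b

theorem sum_pat (L : ℕ) (l : Fin L) (a b : Fin 3) : ∑ i, pat L l a b i = L • b + (a - b) := by
  have h : ∀ i, pat L l a b i = b + if i = l then a - b else 0 := by
    intro i
    by_cases h : i = l <;> simp [pat, h]
  simp only [h, Finset.sum_add_distrib, Finset.sum_ite_eq', Finset.mem_univ, if_true]
  simp only [Finset.sum_const, Finset.card_univ, Fintype.card_fin]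

theorem pat_sub_inj {L : ℕ} {l l' : Fin L} {a b : Fin 3} (hab : a ≠ b)
    (h : pat L l a b l = pat L l' a b l) : l = l' := by
  by_contra hl
  simp [pat, hl] at h
  exact hab h

theorem fid_wset (ρ : Matrix (A × B) (A × B) ℂ) {α : Fin 3 → A} {β : Fin 3 → B}
    (hα : Function.Injective α) (hβ : Function.Injective β) (t : Fin 3 → ℝ)
    (hd : ∀ i j, ρ (α i, β j) (α i, β j) = (t (j - i) : ℂ))
    (hc : ∀ i j, ρ (α i, β i) (α j, β j) = (t 0 : ℂ)) (ht0 : 0 ≤ t 0) (ht2 : 0 ≤ t 2) (L : ℕ) :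
    (nw L 0 * L : ℝ) * (t 0 * t 2 ^ (L - 1)) ≤ traceNorm
      ((ind (wset α L 0) ⊗ₖ ind (wset β L (L • 2 + 1))) * tpow L ρ *
        (ind (wset α L 1) ⊗ₖ ind (wset β L (L • 2 + 1 + 1)))ᴴ) := by
  let ι : Type := {x : Fin L → Fin 3 // ∑ i, x i = 0} × Fin L
  let u : ι → (Fin L → A) × (Fin L → B) := fun z =>
    (fun i => α (z.1.1 i), fun i => β ((z.1.1 + pat L z.2 0 2) i))
  let v : ι → (Fin L → A) × (Fin L → B) := fun z =>
    (fun i => α ((z.1.1 + pat L z.2 1 0) i), fun i => β ((z.1.1 + pat L z.2 1 2) i))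
  have hcard : (Fintype.card ι : ℝ) = nw L 0 * L := by
    rw [Fintype.card_prod, Fintype.card_fin, Fintype.card_subtype, nw]
    push_cast
    rfl
  rw [← hcard]
  have hu : Function.Injective u := by
    rintro ⟨x, l⟩ ⟨y, l'⟩ h
    have h1 : (x : Fin L → Fin 3) = y := word_inj hα L (congrArg Prod.fst h)
    have h2 : (x : Fin L → Fin 3) + pat L l 0 2 = (y : Fin L → Fin 3) + pat L l' 0 2 :=
      word_inj hβ L (congrArg Prod.snd h)
    have h3 : l = l' := by
      rw [h1] at h2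
      exact pat_sub_inj (by decide) (congrFun (add_left_cancel h2) l)
    rw [Prod.mk.injEq]
    exact ⟨Subtype.ext h1, h3⟩
  have hv : Function.Injective v := by
    rintro ⟨x, l⟩ ⟨y, l'⟩ h
    have h1 : (x : Fin L → Fin 3) + pat L l 1 0 = (y : Fin L → Fin 3) + pat L l' 1 0 :=
      word_inj hα L (congrArg Prod.fst h)
    have h2 : (x : Fin L → Fin 3) + pat L l 1 2 = (y : Fin L → Fin 3) + pat L l' 1 2 :=
      word_inj hβ L (congrArg Prod.snd h)
    have h3 : l = l' := by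
      have h4 := congrFun h1 l
      have h5 := congrFun h2 l
      simp only [Pi.add_apply, pat, if_true] at h4 h5
      by_contra hl
      rw [if_neg hl] at h4 h5
      rw [h4] at h5
      simp only [Fin.isValue, add_zero, left_eq_add, Fin.reduceEq] at h5
    subst h3
    rw [Prod.mk.injEq]
    exact ⟨Subtype.ext (add_right_cancel h1), rfl⟩
  refine le_traceNorm_ind (tpow L ρ) _ _ _ _ hu hv ?_ ?_ ?_ ?_ ?_ (by (clear * - ht0 ht2; (clear * - ht0 ht2; positivity)))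
  · rintro ⟨x, l⟩
    have := mem_wset α L x.1
    rwa [x.2] at this
  · rintro ⟨x, l⟩
    have := mem_wset β L (x.1 + pat L l 0 2)
    simp only [Pi.add_apply, Finset.sum_add_distrib, x.2, sum_pat, zero_add] at this
    exact this
  · rintro ⟨x, l⟩
    have := mem_wset α L (x.1 + pat L l 1 0)
    simp only [Pi.add_apply, Finset.sum_add_distrib, x.2, sum_pat, zero_add, smul_zero,
      sub_zero] at this
    exact this
  · rintro ⟨x, l⟩
    have := mem_wset β L (x.1 + pat L l 1 2)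
    have e : (1 - 2 : Fin 3) = 1 + 1 := by decide
    simp only [Pi.add_apply, Finset.sum_add_distrib, x.2, sum_pat, zero_add, e] at this
    rw [← add_assoc] at this
    exact this
  · rintro ⟨x, l⟩
    change ∏ i, ρ (α (x.1 i), β (x.1 i + pat L l 0 2 i))
      (α (x.1 i + pat L l 1 0 i), β (x.1 i + pat L l 1 2 i)) = _
    have h : ∀ i, ρ (α (x.1 i), β (x.1 i + pat L l 0 2 i))
      (α (x.1 i + pat L l 1 0 i), β (x.1 i + pat L l 1 2 i)) =
        if i = l then (t 0 : ℂ) else (t 2 : ℂ) := by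
      intro i
      by_cases hi : i = l
      · simp only [pat, hi, if_true, add_zero]
        exact hc _ _
      · simp only [pat, hi, if_false, add_zero]
        rw [hd, add_sub_cancel_left]
    simp only [h]
    rw [Finset.prod_ite, Finset.prod_const, Finset.prod_const, Finset.filter_eq',
      if_pos (Finset.mem_univ _), Finset.card_singleton, Finset.filter_ne',
      Finset.card_erase_of_mem (Finset.mem_univ _), Finset.card_univ, Fintype.card_fin, pow_one]
    push_cast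
    rfl

theorem keyTest_tpow_of_code (ρ : Matrix (A × B) (A × B) ℂ) {α : Fin 3 → A} {β : Fin 3 → B}
    (hα : Function.Injective α) (hβ : Function.Injective β) {m w U : ℝ} (hm : 0 < m) (hU : 0 ≤ U)
    (t : Fin 3 → ℝ) (h0 : t 0 = m) (h1 : t 1 = m * w) (h2 : t 2 = m * U)
    (hd : ∀ i j, ρ (α i, β j) (α i, β j) = (t (j - i) : ℂ))
    (hc : ∀ i j, ρ (α i, β i) (α j, β j) = (m : ℂ)) {L : ℕ} (hL : 1 ≤ L)
    (hcode : tri w U L 1 ^ 2 * tri w U L 2 * tri w U L 0 < ((L : ℝ) * U ^ (L - 1)) ^ 4) :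
    KeyTest1 (tpow L ρ) := by
  refine ⟨ind (wset α L 0), ind (wset α L 1), ind (wset β L (L • 2 + 1)),
    ind (wset β L (L • 2 + 1 + 1)), ?_⟩
  have hf := fid_wset ρ hα hβ t hd (by rw [h0]; exact hc) (by rw [h0]; exact hm.le)
    (by rw [h2]; (clear * - hm hU; positivity)) L
  rw [weight_wset ρ hα hβ t hd, weight_wset ρ hα hβ t hd, weight_wset ρ hα hβ t hd,
    weight_wset ρ hα hβ t hd, nw_eq hL 1 0]
  have e1 : wordSum t L (L • 2 + 1 - 0) = m ^ L * tri w U L 1 := by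
    rw [← wordSum_tri h0 h1 h2, sub_zero]
  have e2 : wordSum t L (L • 2 + 1 + 1 - 0) = m ^ L * tri w U L 2 := by
    rw [← wordSum_tri h0 h1 h2, sub_zero, add_assoc]; rfl
  have e3 : wordSum t L (L • 2 + 1 - 1) = m ^ L * tri w U L 0 := by
    rw [← wordSum_tri h0 h1 h2]; congr 1; abel
  have e4 : wordSum t L (L • 2 + 1 + 1 - 1) = m ^ L * tri w U L 1 := by
    rw [← wordSum_tri h0 h1 h2]; congr 1; abel
  rw [e1, e2, e3, e4]
  have hn : (0 : ℝ) < nw L 0 := by exact_mod_cast nw_pos hL 0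
  have hpow : m * m ^ (L - 1) = m ^ L := by
    rw [← pow_succ', Nat.sub_add_cancel hL]
  have hle : ((nw L 0 * L : ℝ) * (t 0 * t 2 ^ (L - 1))) = nw L 0 * m ^ L * (L * U ^ (L - 1)) := by
    rw [h0, h2, mul_pow, ← hpow]; ring
  rw [hle] at hf
  have hpos : 0 ≤ nw L 0 * m ^ L * (L * U ^ (L - 1)) := by (clear * - hn hm hL hU; (clear * - hn hm hL hU; positivity))
  refine lt_of_lt_of_le ?_ (pow_le_pow_left₀ hpos hf 4)
  have hk : 0 < (nw L 0 * m ^ L : ℝ) ^ 4 := by (clear * - hn hm; positivity)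
  calc _ = (nw L 0 * m ^ L : ℝ) ^ 4 * (tri w U L 1 ^ 2 * tri w U L 2 * tri w U L 0) := by ring
    _ < (nw L 0 * m ^ L : ℝ) ^ 4 * ((L : ℝ) * U ^ (L - 1)) ^ 4 := by
        exact mul_lt_mul_of_pos_left hcode hk
    _ = _ := by rw [← mul_pow]

end

end Vale.Agent.P372
end
end
end

section

section

section

/-! A violated cycle of a state with one coherent triple makes its distillable key positive. -/

open Matrix Kronecker
open scoped ComplexOrder

set_option linter.unusedSectionVars false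

namespace Vale.Agent.P372

theorem exists_code' (w U : ℝ) (hw0 : 0 ≤ w) (hw1 : w < 1) :
    ∃ N L : ℕ, 1 ≤ N ∧ 1 ≤ L ∧ (tri (w^N) (U^N) L 1)^2 * tri (w^N) (U^N) L 2 *
      tri (w^N) (U^N) L 0 < ((L:ℝ) * (U^N)^(L-1))^4 := by
  by_cases h : 1 < U
  · exact exists_code w U hw0 hw1 h
  · refine ⟨1, 1, le_rfl, le_rfl, ?_⟩
    simp only [tri, pow_one]
    simp only [Fin.isValue, cons_val_zero, mul_one, cons_val, add_zero, cons_val_one, mul_zero, zero_add, one_pow, one_mul, Nat.cast_one, tsub_self, pow_zero]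
    nlinarith only [hw1, hw0, h]

variable {A B E : Type} [Fintype A] [DecidableEq A] [Fintype B] [DecidableEq B]
  [Fintype E] [DecidableEq E]

theorem dk_pos_of_copies {n : ℕ} (hn : 0 < n) (Ψ : Matrix (A × B) E ℂ)
    (hΨ : (Ψ * Ψᴴ).trace = 1) (h : 0 < distillableKey (copies n Ψ)) : 0 < distillableKey Ψ := by
  rw [distillableKey_eq_KD] at h ⊢
  exact KD_pos_of_copies hn Ψ hΨ h

theorem pos_of_cycle (Ψ : Matrix (A × B) E ℂ) (hΨ : (Ψ * Ψᴴ).trace = 1) {α : Fin 3 → A}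
    {β : Fin 3 → B} (hα : Function.Injective α) (hβ : Function.Injective β) {m : ℝ} (hm : 0 < m)
    (p : Fin 3 → Fin 3 → ℝ) (hd : ∀ i j, (Ψ * Ψᴴ) (α i, β j) (α i, β j) = (p i j : ℂ))
    (hc : ∀ i j, (Ψ * Ψᴴ) (α i, β i) (α j, β j) = (m : ℂ))
    (hcyc : ∏ i, p i (i + 1) < m ^ 3) : 0 < distillableKey Ψ := by
  have hp : ∀ i j, 0 ≤ p i j := by
    intro i j
    have h := (posSemidef_self_mul_conjTranspose Ψ).diag_nonneg (i := (α i, β j))
    rw [hd] at h
    exact_mod_cast h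
  have hpm : ∀ i, p i i = m := by
    intro i
    have h := hd i i
    rw [hc] at h
    exact_mod_cast h.symm
  set q : Fin 3 → ℝ := fun k => ∏ c, p c (c + k) with hq
  have hq0 : q 0 = m ^ 3 := by simp only [hq, Fin.isValue, add_zero, hpm, Finset.prod_const, Finset.card_univ, Fintype.card_fin]
  have hqn : ∀ k, 0 ≤ q k := fun k => Finset.prod_nonneg fun c _ => hp _ _
  have hm3 : 0 < m ^ 3 := by positivity
  obtain ⟨N, L, hN, hL, hcode⟩ := exists_code' (q 1 / m ^ 3) (q 2 / m ^ 3)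
    (div_nonneg (hqn 1) hm3.le) ((div_lt_one hm3).mpr hcyc)
  set Ψ₁ := copies 3 Ψ with hΨ₁
  have htr₁ := trace_copies 3 Ψ hΨ
  set Ψ₂ := copies N Ψ₁ with hΨ₂
  have htr₂ := trace_copies N Ψ₁ htr₁
  have hmul : Ψ₂ * Ψ₂ᴴ = tpow N (tpow 3 (Ψ * Ψᴴ)) := by
    rw [hΨ₂, copies_mul, hΨ₁, copies_mul]
  refine dk_pos_of_copies (by norm_num : 0 < 3) Ψ hΨ ?_
  refine dk_pos_of_copies hN Ψ₁ htr₁ ?_
  refine pos_of_keyTest Ψ₂ htr₂ hL ?_
  rw [hmul]
  let α₁ : Fin 3 → Fin 3 → A := fun i c => α (i + c)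
  let β₁ : Fin 3 → Fin 3 → B := fun i c => β (i + c)
  have hα₁ : Function.Injective α₁ := fun i j h => by
    have := hα (congrFun h 0); simpa using this
  have hβ₁ : Function.Injective β₁ := fun i j h => by
    have := hβ (congrFun h 0); simpa using this
  let α₂ : Fin 3 → Fin N → Fin 3 → A := fun i _ => α₁ i
  let β₂ : Fin 3 → Fin N → Fin 3 → B := fun i _ => β₁ i
  have hα₂ : Function.Injective α₂ := fun i j h => hα₁ (congrFun h ⟨0, hN⟩)
  have hβ₂ : Function.Injective β₂ := fun i j h => hβ₁ (congrFun h ⟨0, hN⟩)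
  refine keyTest_tpow_of_code (tpow N (tpow 3 (Ψ * Ψᴴ))) hα₂ hβ₂
    (m := (m ^ 3) ^ N) (w := (q 1 / m ^ 3) ^ N) (U := (q 2 / m ^ 3) ^ N) (by positivity)
    (pow_nonneg (div_nonneg (hqn 2) hm3.le) N) (fun k => q k ^ N) (by rw [hq0]) ?_ ?_ ?_ ?_ hL hcode
  · rw [← mul_pow, mul_div_cancel₀ _ hm3.ne']
  · rw [← mul_pow, mul_div_cancel₀ _ hm3.ne']
  · intro i j
    change ∏ _n : Fin N, ∏ c : Fin 3, (Ψ * Ψᴴ) (α (i + c), β (j + c)) (α (i + c), β (j + c)) = _
    have h : ∏ c : Fin 3, (Ψ * Ψᴴ) (α (i + c), β (j + c)) (α (i + c), β (j + c)) =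
        (q (j - i) : ℂ) := by
      rw [hq]
      push_cast
      rw [← Equiv.prod_comp (Equiv.addLeft i) (fun c => (p c (c + (j - i)) : ℂ))]
      refine Finset.prod_congr rfl fun c _ => ?_
      rw [hd, Equiv.coe_addLeft]
      have : i + c + (j - i) = j + c := by abel
      rw [this]
    rw [h, Finset.prod_const, Finset.card_univ, Fintype.card_fin]
    push_cast
    rfl
  · intro i j
    change ∏ _n : Fin N, ∏ c : Fin 3, (Ψ * Ψᴴ) (α (i + c), β (i + c)) (α (j + c), β (j + c)) = _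
    simp only [hc, Finset.prod_const, Finset.card_univ, Fintype.card_fin]
    push_cast
    rfl

end Vale.Agent.P372
end
end
end

section

section

section

/-! `cycState c` is separable when all directed cycles of `c` have weight at least one. -/

open Matrix Kronecker
open scoped ComplexOrder

namespace Vale.Agent.P372

theorem isSep_of_sum {A B ι : Type} [Fintype A] [Fintype B] [Fintype ι]
    {ρ : Matrix (A × B) (A × B) ℂ} (M : ι → Matrix A A ℂ) (N : ι → Matrix B B ℂ)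
    (hM : ∀ k, (M k).PosSemidef) (hN : ∀ k, (N k).PosSemidef) (h : ρ = ∑ k, M k ⊗ₖ N k) :
    IsSep ρ := by
  let e := Fintype.equivFin ι
  refine ⟨Fintype.card ι, fun k => M (e.symm k), fun k => N (e.symm k), fun k => hM _,
    fun k => hN _, ?_⟩
  rw [h]
  exact (Equiv.sum_comp e.symm fun k => M k ⊗ₖ N k).symm

/-- Potentials on three nodes. -/
theorem exists_potential (c : Fin 3 → Fin 3 → ℝ) (hc : ∀ i j, 0 ≤ c i j)
    (h2 : ∀ i j, i ≠ j → 1 ≤ c i j * c j i) (h3 : 1 ≤ c 0 1 * c 1 2 * c 2 0)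
    (h3' : 1 ≤ c 0 2 * c 2 1 * c 1 0) :
    ∃ a : Fin 3 → ℝ, (∀ i, 0 < a i) ∧ ∀ i j, i ≠ j → a i ≤ c i j * a j := by
  have hpos : ∀ i j, i ≠ j → 0 < c i j := by
    intro i j hij
    refine lt_of_le_of_ne (hc i j) fun h => ?_
    have := h2 i j hij
    rw [← h] at this
    linarith only [this]
  have p01 := hpos 0 1 (by decide)
  have p02 := hpos 0 2 (by decide)
  have p10 := hpos 1 0 (by decide)
  have p12 := hpos 1 2 (by decide)
  have p20 := hpos 2 0 (by decide)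
  have p21 := hpos 2 1 (by decide)
  have e01 := h2 0 1 (by decide)
  have e02 := h2 0 2 (by decide)
  have e12 := h2 1 2 (by decide)
  have q1 : 0 < min (c 1 0) (c 1 2 * c 2 0) := lt_min p10 (by (clear * - p12 p20; positivity))
  have q2 : 0 < min (c 2 0) (c 2 1 * c 1 0) := lt_min p20 (by positivity)
  refine ⟨![1, min (c 1 0) (c 1 2 * c 2 0), min (c 2 0) (c 2 1 * c 1 0)], ?_, ?_⟩
  · intro i
    fin_cases i
    · exact one_pos
    · exact q1
    · exact q2
  · intro i j hij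
    fin_cases i <;> fin_cases j <;> first | exact absurd rfl hij | skip
    · change 1 ≤ c 0 1 * min (c 1 0) (c 1 2 * c 2 0)
      rcases min_choice (c 1 0) (c 1 2 * c 2 0) with h | h <;> rw [h]
      · exact e01
      · linarith only [h3]
    · change 1 ≤ c 0 2 * min (c 2 0) (c 2 1 * c 1 0)
      rcases min_choice (c 2 0) (c 2 1 * c 1 0) with h | h <;> rw [h]
      · exact e02
      · linarith only [h3']
    · change min (c 1 0) (c 1 2 * c 2 0) ≤ c 1 0 * 1
      rw [mul_one]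
      exact min_le_left _ _
    · change min (c 1 0) (c 1 2 * c 2 0) ≤ c 1 2 * min (c 2 0) (c 2 1 * c 1 0)
      rcases min_choice (c 2 0) (c 2 1 * c 1 0) with h | h <;> rw [h]
      · exact min_le_right _ _
      · refine (min_le_left _ _).trans ?_
        nlinarith only [e12, p10]
    · change min (c 2 0) (c 2 1 * c 1 0) ≤ c 2 0 * 1
      rw [mul_one]
      exact min_le_left _ _
    · change min (c 2 0) (c 2 1 * c 1 0) ≤ c 2 1 * min (c 1 0) (c 1 2 * c 2 0)
      rcases min_choice (c 1 0) (c 1 2 * c 2 0) with h | h <;> rw [h]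
      · exact min_le_right _ _
      · refine (min_le_left _ _).trans ?_
        nlinarith only [e12, p20]

/-- A Sidon set modulo seven. -/
def sid : Fin 3 → ZMod 7 := ![0, 1, 3]

theorem sid_iff : ∀ i i' j j' : Fin 3, sid i - sid i' - sid j + sid j' = 0 ↔
    (i = i' ∧ j = j') ∨ (i = j ∧ i' = j') := by
  (clear * -; decide)

theorem sum_char (x : ZMod 7) :
    ∑ t : ZMod 7, ZMod.stdAddChar (N := 7) (t * x) = if x = 0 then (7 : ℂ) else 0 := by
  have h := AddChar.sum_mulShift (R := ZMod 7) x (ZMod.isPrimitive_stdAddChar 7)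
  rw [h]
  split_ifs <;> simp

theorem isSep_cycState (c : Fin 3 → Fin 3 → ℝ) (hc : ∀ i j, 0 ≤ c i j)
    (h2 : ∀ i j, i ≠ j → 1 ≤ c i j * c j i) (h3 : 1 ≤ c 0 1 * c 1 2 * c 2 0)
    (h3' : 1 ≤ c 0 2 * c 2 1 * c 1 0) : IsSep (cycState c) := by
  obtain ⟨a, ha, hac⟩ := exists_potential c hc h2 h3 h3'
  let ψ : AddChar (ZMod 7) ℂ := ZMod.stdAddChar (N := 7)
  let s : Fin 3 → ℂ := fun i => (Real.sqrt (a i) : ℂ)
  have hs : ∀ i, s i * s i = (a i : ℂ) := fun i => by
    simp only [s]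
    rw [← Complex.ofReal_mul, Real.mul_self_sqrt (ha i).le]
  have hs0 : ∀ i, s i ≠ 0 := fun i => by
    simp only [s]
    exact_mod_cast (Real.sqrt_pos.mpr (ha i)).ne'
  let u : ZMod 7 → Fin 3 → ℂ := fun t i => s i * ψ (t * sid i)
  let v : ZMod 7 → Fin 3 → ℂ := fun t j => (s j)⁻¹ * ψ (-(t * sid j))
  have hψ : ∀ x, star (ψ x) = ψ (-x) := fun x => (AddChar.map_neg_eq_conj ψ x).symm
  have hst : ∀ i, star (s i) = s i := fun i => Complex.conj_ofReal _
  have h7 : (0 : ℂ) ≤ 1 / 7 := by simp only [one_div, inv_nonneg, Nat.ofNat_nonneg]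
  let D : Fin 3 × Fin 3 → ℝ := fun k => if k.1 ≠ k.2 then c k.1 k.2 - a k.1 / a k.2 else 0
  have hD : ∀ k, 0 ≤ D k := by
    rintro ⟨i, j⟩
    simp only [D]
    split_ifs with h
    · have := hac i j h
      rw [sub_nonneg, div_le_iff₀ (ha j)]
      exact this
    · exact le_rfl
  refine isSep_of_sum (ι := (Fin 3 × Fin 3) ⊕ ZMod 7)
    (Sum.elim (fun k => Matrix.single k.1 k.1 (D k : ℂ))
      (fun t => (1 / 7 : ℂ) • vecMulVec (u t) (star (u t))))
    (Sum.elim (fun k => Matrix.single k.2 k.2 (1 : ℂ)) (fun t => vecMulVec (v t) (star (v t))))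
    ?_ ?_ ?_
  · rintro (k | t)
    · have : Matrix.single k.1 k.1 (D k : ℂ) = Matrix.diagonal (Pi.single k.1 (D k : ℂ)) := by
        rw [Matrix.diagonal_single]
      rw [Sum.elim_inl, this]
      refine PosSemidef.diagonal ?_
      intro i
      by_cases h : i = k.1
      · subst h
        simpa only [Pi.zero_apply, Pi.single_eq_same, Complex.zero_le_real] using hD k
      · simp [Pi.single_eq_of_ne h]
    · exact (posSemidef_vecMulVec_self_star _).smul h7
  · rintro (k | t)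
    · have : Matrix.single k.2 k.2 (1 : ℂ) = Matrix.diagonal (Pi.single k.2 (1 : ℂ)) := by
        rw [Matrix.diagonal_single]
      rw [Sum.elim_inl, this]
      refine PosSemidef.diagonal ?_
      intro i
      by_cases h : i = k.2
      · subst h
        simp
      · simp [Pi.single_eq_of_ne h]
    · exact posSemidef_vecMulVec_self_star _
  · rw [Fintype.sum_sum_type]
    simp only [Sum.elim_inl, Sum.elim_inr]
    ext ⟨i, j⟩ ⟨i', j'⟩
    rw [Matrix.add_apply, Matrix.sum_apply, Matrix.sum_apply]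
    have h1 : ∑ k : Fin 3 × Fin 3, (Matrix.single k.1 k.1 (D k : ℂ) ⊗ₖ
        Matrix.single k.2 k.2 (1 : ℂ)) (i, j) (i', j') =
        if i = i' ∧ j = j' then (D (i, j) : ℂ) else 0 := by
      rw [Finset.sum_eq_single (i, j)]
      · rw [kroneckerMap_apply]
        by_cases h : i = i' ∧ j = j'
        · obtain ⟨rfl, rfl⟩ := h
          simp
        · rw [if_neg h]
          by_cases hi : i = i'
          · have hj : j ≠ j' := fun hj => h ⟨hi, hj⟩
            simp [Matrix.single_apply, hj]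
          · simp [Matrix.single_apply, hi]
      · rintro ⟨x, y⟩ - hxy
        rw [kroneckerMap_apply]
        by_cases hx : x = i
        · have hy : y ≠ j := fun hy => hxy (by rw [hx, hy])
          simp [Matrix.single_apply, hy]
        · simp [Matrix.single_apply, hx]
      · intro h
        exact absurd (Finset.mem_univ _) h
    have h2' : ∑ t : ZMod 7, (((1 / 7 : ℂ) • vecMulVec (u t) (star (u t))) ⊗ₖ
        vecMulVec (v t) (star (v t))) (i, j) (i', j') =
        s i * s i' * (s j)⁻¹ * (s j')⁻¹ *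
          (if sid i - sid i' - sid j + sid j' = 0 then (1 : ℂ) else 0) := by
      have h : ∀ t : ZMod 7, (((1 / 7 : ℂ) • vecMulVec (u t) (star (u t))) ⊗ₖ
          vecMulVec (v t) (star (v t))) (i, j) (i', j') =
          s i * s i' * (s j)⁻¹ * (s j')⁻¹ / 7 *
            ψ (t * (sid i - sid i' - sid j + sid j')) := by
        intro t
        have e : t * (sid i - sid i' - sid j + sid j') =
            t * sid i + -(t * sid i') + (-(t * sid j) + t * sid j') := by ring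
        rw [e, AddChar.map_add_eq_mul, AddChar.map_add_eq_mul, AddChar.map_add_eq_mul,
          kroneckerMap_apply, Matrix.smul_apply, vecMulVec_apply, vecMulVec_apply,
          Pi.star_apply, Pi.star_apply]
        simp only [u, v, star_mul', hψ, hst, star_inv₀, smul_eq_mul, neg_neg]
        ring
      rw [Finset.sum_congr rfl fun t _ => h t, ← Finset.mul_sum]
      have := sum_char (sid i - sid i' - sid j + sid j')
      change ∑ t : ZMod 7, ψ (t * (sid i - sid i' - sid j + sid j')) = _ at this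
      rw [this]
      split_ifs <;> ring
    rw [h1, h2']
    have hcs : cycState c (i, j) (i', j') = (if i = j ∧ i' = j' then 1 else 0) +
        if (i, j) = (i', j') ∧ i ≠ j then (c i j : ℂ) else 0 := rfl
    rw [hcs]
    by_cases hA : i = i' ∧ j = j'
    · obtain ⟨rfl, rfl⟩ := hA
      have hz : sid i - sid i - sid j + sid j = 0 := by ring
      rw [if_pos hz, if_pos (⟨rfl, rfl⟩ : i = i ∧ j = j)]
      by_cases hij : i = j
      · subst hij
        have : D (i, i) = 0 := by simp [D]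
        rw [this]
        have := hs0 i
        simp only [and_self, ↓reduceIte, ne_eq, not_true_eq_false, and_false, add_zero, Complex.ofReal_zero, mul_self_mul_inv, mul_one, zero_add]
        field_simp
      · have : D (i, j) = c i j - a i / a j := by simp [D, hij]
        rw [this]
        have hj := hs0 j
        have e : s i * s i * (s j)⁻¹ * (s j)⁻¹ = (a i : ℂ) / (a j : ℂ) := by
          rw [← hs i, ← hs j]
          (clear * - hj; field_simp)
        rw [e]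
        simp [hij]
    · have hne : ¬ ((i, j) = (i', j')) := fun h => hA ⟨congrArg Prod.fst h, congrArg Prod.snd h⟩
      rw [if_neg hA]
      by_cases hB : i = j ∧ i' = j'
      · obtain ⟨rfl, rfl⟩ := hB
        have hz : sid i - sid i' - sid i + sid i' = 0 := by ring
        rw [if_pos ⟨rfl, rfl⟩, if_pos hz]
        have := hs0 i
        have := hs0 i'
        simp only [hne, ne_eq, not_true_eq_false, and_self, ↓reduceIte, add_zero, mul_one, zero_add]
        field_simp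
      · have hz : ¬ (sid i - sid i' - sid j + sid j' = 0) := by
          rw [sid_iff]
          rintro (h | h)
          · exact hA h
          · exact hB h
        rw [if_neg hB, if_neg hz]
        simp only [hne, ne_eq, false_and, ↓reduceIte, add_zero, mul_zero]

end Vale.Agent.P372
end
end
end

section

section

section

/-! Every entangled state proportional to `cycState c` has positive distillable key. -/

open Matrix Kronecker
open scoped ComplexOrder

set_option linter.unusedSectionVars false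

namespace Vale.Agent.P372

variable {E : Type} [Fintype E] [DecidableEq E]

theorem tpow_one_test {A B : Type} [Fintype A] [Fintype B] [DecidableEq A] [DecidableEq B]
    (ρ : Matrix (A × B) (A × B) ℂ) (a a' : A) (b b' : B) {m p q r t : ℝ}
    (hm : ρ (a, b) (a', b') = (m : ℂ)) (hm0 : 0 ≤ m)
    (hp : ρ (a, b) (a, b) = (p : ℂ)) (hq : ρ (a, b') (a, b') = (q : ℂ))
    (hr : ρ (a', b) (a', b) = (r : ℂ)) (ht : ρ (a', b') (a', b') = (t : ℂ))
    (h : p * q * r * t < m ^ 4) : KeyTest1 (tpow 1 ρ) := by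
  have hw : ∀ (x : A) (y : B) (z : ℝ), ρ (x, y) (x, y) = (z : ℂ) →
      weight (tpow 1 ρ) (ind {fun _ => x}) (ind {fun _ => y}) = z := by
    intro x y z hz
    rw [weight_ind, Finset.sum_singleton, Finset.sum_singleton]
    change (∏ _i : Fin 1, ρ (x, y) (x, y)).re = z
    rw [hz]
    simp
  refine ⟨ind {fun _ => a}, ind {fun _ => a'}, ind {fun _ => b}, ind {fun _ => b'}, ?_⟩
  rw [hw a b p hp, hw a b' q hq, hw a' b r hr, hw a' b' t ht]
  refine h.trans_le ?_
  have h1 := le_traceNorm_ind (ι := Unit) (tpow 1 ρ) ({fun _ => a} : Finset (Fin 1 → A))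
    {fun _ => a'} ({fun _ => b} : Finset (Fin 1 → B)) {fun _ => b'}
    (u := fun _ => (fun _ => a, fun _ => b)) (v := fun _ => (fun _ => a', fun _ => b'))
    (fun _ _ _ => rfl) (fun _ _ _ => rfl) (fun _ => Finset.mem_singleton_self _)
    (fun _ => Finset.mem_singleton_self _) (fun _ => Finset.mem_singleton_self _)
    (fun _ => Finset.mem_singleton_self _) (c := m) (fun _ => by
      change (∏ _i : Fin 1, ρ (a, b) (a', b')) = (m : ℂ)
      rw [hm]
      simp) hm0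
  rw [Fintype.card_unit, Nat.cast_one, one_mul] at h1
  exact pow_le_pow_left₀ hm0 h1 4

theorem cycState_diag (c : Fin 3 → Fin 3 → ℝ) (i j : Fin 3) :
    cycState c (i, j) (i, j) = ((if i = j then 1 else c i j : ℝ) : ℂ) := by
  have h : cycState c (i, j) (i, j) = (if i = j ∧ i = j then 1 else 0) +
    if (i, j) = (i, j) ∧ i ≠ j then (c i j : ℂ) else 0 := rfl
  rw [h]
  by_cases hij : i = j <;> simp [hij]

theorem cycState_coh (c : Fin 3 → Fin 3 → ℝ) (i j : Fin 3) :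
    cycState c (i, i) (j, j) = 1 := by
  have h : cycState c (i, i) (j, j) = (if i = i ∧ j = j then 1 else 0) +
    if (i, i) = (j, j) ∧ i ≠ i then (c i i : ℂ) else 0 := rfl
  rw [h]
  simp

theorem cycle_pos (c : Fin 3 → Fin 3 → ℝ) {s : ℝ} (hs : 0 < s)
    (Ψ : Matrix (Fin 3 × Fin 3) E ℂ) (hΨ : (Ψ * Ψᴴ).trace = 1)
    (h : Ψ * Ψᴴ = (s : ℂ) • cycState c)
    (hcyc : (∃ i j, i ≠ j ∧ c i j * c j i < 1) ∨ c 0 1 * c 1 2 * c 2 0 < 1 ∨
      c 0 2 * c 2 1 * c 1 0 < 1) : 0 < distillableKey Ψ := by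
  have hd : ∀ i j, (Ψ * Ψᴴ) (i, j) (i, j) = ((s * (if i = j then 1 else c i j) : ℝ) : ℂ) := by
    intro i j
    rw [h, Matrix.smul_apply, cycState_diag, smul_eq_mul, Complex.ofReal_mul]
  have hc : ∀ i j, (Ψ * Ψᴴ) (i, i) (j, j) = (s : ℂ) := by
    intro i j
    rw [h, Matrix.smul_apply, cycState_coh, smul_eq_mul, mul_one]
  rcases hcyc with ⟨i, j, hij, h2⟩ | h3 | h3
  · refine pos_of_keyTest Ψ hΨ le_rfl (tpow_one_test (Ψ * Ψᴴ) i j i j (m := s)
      (p := s * (if i = i then 1 else c i i)) (q := s * (if i = j then 1 else c i j))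
      (r := s * (if j = i then 1 else c j i)) (t := s * (if j = j then 1 else c j j))
      (hc i j) hs.le (hd i i) (hd i j) (hd j i) (hd j j) ?_)
    rw [if_pos rfl, if_pos rfl, if_neg hij, if_neg hij.symm]
    have : 0 < s ^ 4 := by positivity
    nlinarith only [h2, this]
  · refine pos_of_cycle Ψ hΨ (α := id) (β := id) Function.injective_id Function.injective_id hs
      (fun i j => s * (if i = j then 1 else c i j)) hd hc ?_
    rw [Fin.prod_univ_three]
    change s * (if (0 : Fin 3) = 0 + 1 then 1 else c 0 (0 + 1)) *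
      (s * (if (1 : Fin 3) = 1 + 1 then 1 else c 1 (1 + 1))) *
      (s * (if (2 : Fin 3) = 2 + 1 then 1 else c 2 (2 + 1))) < s ^ 3
    rw [if_neg (by decide), if_neg (by decide), if_neg (by decide)]
    change s * c 0 1 * (s * c 1 2) * (s * c 2 0) < s ^ 3
    have : 0 < s ^ 3 := by positivity
    nlinarith only [h3, this]
  · refine pos_of_cycle Ψ hΨ (α := fun i => -i) (β := fun i => -i) neg_injective neg_injective hs
      (fun i j => s * (if -i = -j then 1 else c (-i) (-j))) (fun i j => hd (-i) (-j))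
      (fun i j => hc (-i) (-j)) ?_
    rw [Fin.prod_univ_three]
    change s * (if -(0 : Fin 3) = -(0 + 1) then 1 else c (-0) (-(0 + 1))) *
      (s * (if -(1 : Fin 3) = -(1 + 1) then 1 else c (-1) (-(1 + 1)))) *
      (s * (if -(2 : Fin 3) = -(2 + 1) then 1 else c (-2) (-(2 + 1)))) < s ^ 3
    rw [if_neg (by decide), if_neg (by decide), if_neg (by decide)]
    change s * c 0 2 * (s * c 2 1) * (s * c 1 0) < s ^ 3
    have : 0 < s ^ 3 := by positivity
    nlinarith only [h3, this]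

theorem IsSep.smul' {A B : Type} [Fintype A] [Fintype B] {ρ : Matrix (A × B) (A × B) ℂ} {s : ℝ}
    (hs : 0 ≤ s) (h : IsSep ρ) : IsSep ((s : ℂ) • ρ) := by
  obtain ⟨n, M, N, hM, hN, h⟩ := h
  refine ⟨n, fun k => (s : ℂ) • M k, N, fun k => (hM k).smul (by exact_mod_cast hs), hN, ?_⟩
  rw [h, Finset.smul_sum]
  exact Finset.sum_congr rfl fun k _ => (Matrix.smul_kronecker _ _ _).symm

/-- Every entangled state proportional to `cycState c` has positive distillable key. -/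
theorem cycState_pos (c : Fin 3 → Fin 3 → ℝ) (hc : ∀ i j, 0 ≤ c i j) {s : ℝ}
    (Ψ : Matrix (Fin 3 × Fin 3) E ℂ) (hΨ : (Ψ * Ψᴴ).trace = 1)
    (h : Ψ * Ψᴴ = (s : ℂ) • cycState c) (hent : ¬ IsSep (Ψ * Ψᴴ)) :
    0 < distillableKey Ψ := by
  have hs : 0 < s := by
    have h0 := (posSemidef_self_mul_conjTranspose Ψ).diag_nonneg (i := ((0 : Fin 3), (0 : Fin 3)))
    rw [h, Matrix.smul_apply, cycState_diag, if_pos rfl, smul_eq_mul, Complex.ofReal_one,
      mul_one] at h0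
    have h0' : 0 ≤ s := by exact_mod_cast h0
    refine lt_of_le_of_ne h0' fun hs => ?_
    rw [h, ← hs] at hΨ
    simp at hΨ
  refine cycle_pos c hs Ψ hΨ h ?_
  by_contra hcon
  push Not at hcon
  refine hent ?_
  rw [h]
  exact (isSep_cycState c hc (fun i j hij => hcon.1 i j hij) hcon.2.1 hcon.2.2).smul' hs.le

end Vale.Agent.P372
end
end
end

section

set_option linter.all false

section

/-! A state close to a multiple of the identity does not pass the key test. -/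

open Matrix Kronecker
open scoped ComplexOrder MatrixOrder

set_option linter.unusedSectionVars false

namespace Vale.Agent.P372

namespace Near

variable {A B E : Type} [Fintype A] [DecidableEq A] [Fintype B] [DecidableEq B] [Fintype E]
  [DecidableEq E]

theorem hs_eq_re' (L : Matrix A B ℂ) : hs L = (L * Lᴴ).trace.re := by
  rw [← hs_conjTranspose, hs_eq_re, conjTranspose_conjTranspose]

theorem exists_factor (X : Matrix E E ℂ) :
    ∃ K L : Matrix E E ℂ, X = Kᴴ * L ∧ hs K = traceNorm X ∧ hs L = traceNorm X := by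
  set hX := isHermitian_conjTranspose_mul_self X with hXdef
  set U : Matrix E E ℂ := (hX.eigenvectorUnitary : Matrix E E ℂ) with hU
  set l : E → ℝ := hX.eigenvalues with hl
  have hl0 : ∀ i, 0 ≤ l i := fun i => eigenvalues_conjTranspose_mul_self_nonneg X i
  have hsp : Xᴴ * X = U * diagonal (fun i => (l i : ℂ)) * Uᴴ := spectral_eq hX
  have hU1 : U * Uᴴ = 1 := eigU_mul hX
  have hU2 : Uᴴ * U = 1 := eigU_mul' hX
  set Y : Matrix E E ℂ := X * U with hY
  have hYY : Yᴴ * Y = diagonal (fun i => (l i : ℂ)) := by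
    rw [hY, conjTranspose_mul]
    calc Uᴴ * Xᴴ * (X * U) = Uᴴ * (Xᴴ * X) * U := by noncomm_ring
      _ = (Uᴴ * U) * diagonal (fun i => (l i : ℂ)) * (Uᴴ * U) := by rw [hsp]; noncomm_ring
      _ = _ := by rw [hU2, one_mul, mul_one]
  have hcol : ∀ i, l i = 0 → ∀ j, Y j i = 0 := by
    intro i hi
    have h7 : (Yᴴ * Y) i i = ((∑ j, ‖Y j i‖ ^ 2 : ℝ) : ℂ) := by
      rw [mul_apply]
      push_cast
      refine Finset.sum_congr rfl fun j _ => ?_
      rw [conjTranspose_apply, RCLike.star_def, Complex.conj_mul']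
    rw [hYY, diagonal_apply_eq, hi] at h7
    have h8 : (∑ j, ‖Y j i‖ ^ 2 : ℝ) = 0 := by exact_mod_cast h7.symm
    intro j
    have h9 := (Finset.sum_eq_zero_iff_of_nonneg (fun _ _ => by (clear * -; positivity))).mp h8 j
      (Finset.mem_univ j)
    exact norm_eq_zero.mp (pow_eq_zero_iff two_ne_zero |>.mp h9)
  let q : E → ℝ := fun i => √(√(l i))
  let Dq : Matrix E E ℂ := diagonal (fun i => (q i : ℂ))
  let Di : Matrix E E ℂ := diagonal (fun i => ((q i)⁻¹ : ℂ))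
  have hq4 : ∀ i, q i * q i = √(l i) := fun i => Real.mul_self_sqrt (Real.sqrt_nonneg _)
  have h1 : X = (Y * Di) * (Dq * Uᴴ) := by
    have h2 : Y * Di * Dq = Y := by
      ext j i
      rw [Matrix.mul_assoc, diagonal_mul_diagonal, mul_diagonal]
      by_cases hi : q i = 0
      · have hli : l i = 0 := by
          have h3 : √(l i) = 0 := by rw [← hq4 i, hi, mul_zero]
          exact (Real.sqrt_eq_zero (hl0 i)).mp h3
        rw [hcol i hli j, zero_mul]
      · rw [inv_mul_cancel₀ (by exact_mod_cast hi), mul_one]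
    rw [← Matrix.mul_assoc, h2, hY, Matrix.mul_assoc, hU1, mul_one]
  have htn : traceNorm X = ∑ i, √(l i) := rfl
  refine ⟨(Y * Di)ᴴ, Dq * Uᴴ, by rw [conjTranspose_conjTranspose]; exact h1, ?_, ?_⟩
  · rw [hs_conjTranspose, hs_eq_re, conjTranspose_mul]
    have h3 : Diᴴ * Yᴴ * (Y * Di) = diagonal (fun i => (√(l i) : ℂ)) := by
      have h4 : Diᴴ * Yᴴ * (Y * Di) = Diᴴ * (Yᴴ * Y) * Di := by noncomm_ring
      rw [h4, hYY, diagonal_conjTranspose, diagonal_mul_diagonal, diagonal_mul_diagonal]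
      congr 1
      funext i
      by_cases hi : q i = 0
      · have h3 : √(l i) = 0 := by rw [← hq4 i, hi, mul_zero]
        simp [hi, h3]
      · have h5 : (l i : ℂ) = (q i : ℂ) * q i * (q i * q i) := by
          rw [← Complex.ofReal_mul, hq4 i, ← Complex.ofReal_mul, Real.mul_self_sqrt (hl0 i)]
        have h6 : ((√(l i) : ℝ) : ℂ) = (q i : ℂ) * q i := by
          rw [← Complex.ofReal_mul, hq4 i]
        have h7 : (q i : ℂ) ≠ 0 := by exact_mod_cast hi
        rw [h5, h6]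
        simp only [Pi.star_apply, star_inv₀, RCLike.star_def, Complex.conj_ofReal]
        field_simp
    rw [h3, trace_diagonal, htn]
    simp only [Complex.re_sum, Complex.ofReal_re]
  · rw [hs_eq_re', conjTranspose_mul, conjTranspose_conjTranspose]
    have h4 : Dq * Uᴴ * (U * Dqᴴ) = Dq * (Uᴴ * U) * Dqᴴ := by noncomm_ring
    rw [h4, hU2, mul_one, diagonal_conjTranspose, diagonal_mul_diagonal, trace_diagonal, htn]
    rw [Complex.re_sum]
    refine Finset.sum_congr rfl fun i _ => ?_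
    simp only [Pi.star_apply, RCLike.star_def, Complex.conj_ofReal]
    rw [← Complex.ofReal_mul, hq4 i, Complex.ofReal_re]

theorem hs_kronecker (X : Matrix A A ℂ) (Y : Matrix B B ℂ) : hs (X ⊗ₖ Y) = hs X * hs Y := by
  simp only [hs, Fintype.sum_prod_type, kroneckerMap_apply, norm_mul, mul_pow]
  rw [Finset.sum_mul_sum]
  refine Finset.sum_congr rfl fun i _ => ?_
  refine Finset.sum_congr rfl fun j _ => ?_
  rw [Finset.sum_mul_sum]

theorem traceNorm_kronecker_le (X : Matrix A A ℂ) (Y : Matrix B B ℂ) :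
    traceNorm (X ⊗ₖ Y) ≤ traceNorm X * traceNorm Y := by
  obtain ⟨K, L, h1, h2, h3⟩ := exists_factor X
  obtain ⟨K', L', h1', h2', h3'⟩ := exists_factor Y
  have h : X ⊗ₖ Y = (K ⊗ₖ K')ᴴ * (L ⊗ₖ L') := by
    rw [conjTranspose_kronecker, ← mul_kronecker_mul, ← h1, ← h1']
  rw [h]
  refine (Xor.traceNorm_mul_le_hs _ _).trans ?_
  rw [hs_kronecker, hs_kronecker, h2, h3, h2', h3', ← Real.sqrt_mul_self
    (mul_nonneg (traceNorm_nonneg X) (traceNorm_nonneg Y))]
  rw [Real.sqrt_mul_self (mul_nonneg (traceNorm_nonneg X) (traceNorm_nonneg Y)),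
    Real.mul_self_sqrt (mul_nonneg (traceNorm_nonneg X) (traceNorm_nonneg Y))]

theorem weight_eq_trace (R : Matrix (A × B) (A × B) ℂ) (X : Matrix A A ℂ) (Y : Matrix B B ℂ) :
    weight R X Y = (R * ((Xᴴ * X) ⊗ₖ (Yᴴ * Y))).trace.re := by
  rw [weight, trace_mul_comm, ← Matrix.mul_assoc, trace_mul_comm, conjTranspose_kronecker,
    ← mul_kronecker_mul]

theorem weight_one (X : Matrix A A ℂ) (Y : Matrix B B ℂ) :
    weight (1 : Matrix (A × B) (A × B) ℂ) X Y = hs X * hs Y := by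
  rw [weight_eq_trace, one_mul, trace_kronecker, trace_conjTranspose_mul_self,
    trace_conjTranspose_mul_self, ← Complex.ofReal_mul, Complex.ofReal_re]

theorem weight_sub (R S : Matrix (A × B) (A × B) ℂ) (X : Matrix A A ℂ) (Y : Matrix B B ℂ) :
    weight (R - S) X Y = weight R X Y - weight S X Y := by
  rw [weight_eq_trace, weight_eq_trace, weight_eq_trace, Matrix.sub_mul, trace_sub, Complex.sub_re]

theorem weight_smul (c : ℝ) (R : Matrix (A × B) (A × B) ℂ) (X : Matrix A A ℂ)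
    (Y : Matrix B B ℂ) : weight ((c : ℂ) • R) X Y = c * weight R X Y := by
  rw [weight_eq_trace, weight_eq_trace, smul_mul_assoc, trace_smul, smul_eq_mul,
    Complex.re_ofReal_mul]

theorem weight_nonneg {R : Matrix (A × B) (A × B) ℂ} (hR : R.PosSemidef) (X : Matrix A A ℂ)
    (Y : Matrix B B ℂ) : 0 ≤ weight R X Y :=
  (Complex.le_def.mp (hR.mul_mul_conjTranspose_same (X ⊗ₖ Y)).trace_nonneg).1

theorem fid_le_weights {R : Matrix (A × B) (A × B) ℂ} (hR : R.PosSemidef)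
    (X₀ X₁ : Matrix A A ℂ) (Y₀ Y₁ : Matrix B B ℂ) :
    traceNorm ((X₀ ⊗ₖ Y₀) * R * (X₁ ⊗ₖ Y₁)ᴴ) ≤ √(weight R X₀ Y₀) * √(weight R X₁ Y₁) := by
  obtain ⟨C, hC⟩ := exists_eq_conjTranspose_mul_self hR
  have h : (X₀ ⊗ₖ Y₀) * R * (X₁ ⊗ₖ Y₁)ᴴ = (C * (X₀ ⊗ₖ Y₀)ᴴ)ᴴ * (C * (X₁ ⊗ₖ Y₁)ᴴ) := by
    rw [conjTranspose_mul, conjTranspose_conjTranspose, hC]
    noncomm_ring
  have h2 : ∀ (X : Matrix A A ℂ) (Y : Matrix B B ℂ), hs (C * (X ⊗ₖ Y)ᴴ) = weight R X Y := by
    intro X Y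
    rw [hs_eq_re, conjTranspose_mul, conjTranspose_conjTranspose, weight, hC]
    congr 2
    noncomm_ring
  rw [h]
  refine (Xor.traceNorm_mul_le_hs _ _).trans ?_
  rw [h2, h2]

theorem numeric_prod {φ ψ α β : ℝ} (hβ : 0 ≤ β) (hα2 : α ≤ 2) (hβ2 : β ≤ 2)
    (h1 : φ ^ 2 ≤ 1 - α ^ 2 / 4) (h2 : ψ ^ 2 ≤ 1 - β ^ 2 / 4) :
    φ * ψ ≤ 1 - α * β / 4 := by
  have hαβ4 : α * β ≤ 2 * 2 := mul_le_mul hα2 hβ2 hβ (by norm_num)
  have h5 : (φ * ψ) ^ 2 ≤ (1 - α * β / 4) ^ 2 := by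
    have h6 : (φ * ψ) ^ 2 ≤ (1 - α ^ 2 / 4) * (1 - β ^ 2 / 4) := by
      rw [mul_pow]
      exact mul_le_mul h1 h2 (sq_nonneg _) ((sq_nonneg _).trans h1)
    have h7 : (1 - α * β / 4) ^ 2 - (1 - α ^ 2 / 4) * (1 - β ^ 2 / 4) = (α - β) ^ 2 / 4 := by
      ring
    have h8 := sq_nonneg (α - β)
    linarith only [h6, h8]
  exact Xor.le_of_sq_le_sq' h5 (by linarith only [hαβ4])

theorem numeric_F {P φ ψ s F γ : ℝ} (hF : 0 ≤ F) (hγ : 0 ≤ γ) (hγ4 : γ ≤ 4)
    (h4 : φ * ψ ≤ 1 - γ / 4) (hs : 0 ≤ s) (h5 : 6 / 7 + s ≤ P)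
    (h3 : F ≤ 6 / 7 * (φ * ψ) + s) :
    F ^ 2 ≤ P ^ 2 - 9 / 49 * γ := by
  have h6 : F ≤ P - 3 / 14 * γ := by linarith
  have h7 : 6 / 7 ≤ P := by linarith only [hs, h5]
  have h9 : F ^ 2 ≤ (P - 3 / 14 * γ) ^ 2 := pow_le_pow_left₀ hF h6 2
  have h10 : 0 ≤ γ * (P - 6 / 7) := mul_nonneg hγ (by linarith only [hs, h5])
  have h11 : 0 ≤ γ * (4 - γ) := mul_nonneg hγ (by linarith only [hγ4])
  have h12 : (P - 3 / 14 * γ) ^ 2 = P ^ 2 - 3 / 7 * (γ * (P - 6 / 7)) - 18 / 49 * γ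
      + 9 / 196 * γ * (4) - 9 / 196 * (γ * (4 - γ)) := by ring
  linarith only [h9, h10, h11]

/-- The numerical core. -/
theorem numeric {p00 p01 p10 p11 φ ψ α β F : ℝ} (hF : 0 ≤ F)
    (e00 : 6 / 7 ≤ p00) (e11 : 6 / 7 ≤ p11) (e00' : p00 ≤ 8 / 7)
    (hα : 0 ≤ α) (hβ : 0 ≤ β) (hα2 : α ≤ 2) (hβ2 : β ≤ 2)
    (h1 : φ ^ 2 ≤ 1 - α ^ 2 / 4) (h2 : ψ ^ 2 ≤ 1 - β ^ 2 / 4)
    (hw : p00 + p11 - p01 - p10 ≤ 1 / 7 * (α * β))
    (hu : |p01 - p00| ≤ 1 / 7 * β) (hv : |p10 - p00| ≤ 1 / 7 * α)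
    (h3 : F ≤ 6 / 7 * (φ * ψ) + √(p00 - 6 / 7) * √(p11 - 6 / 7)) :
    F ^ 4 ≤ p00 * p01 * p10 * p11 := by
  set x := √(p00 - 6 / 7) with hx
  set y := √(p11 - 6 / 7) with hy
  have hx0 : 0 ≤ x := Real.sqrt_nonneg _
  have hy0 : 0 ≤ y := Real.sqrt_nonneg _
  have hxx : x ^ 2 = p00 - 6 / 7 := Real.sq_sqrt (by linarith only [e00])
  have hyy : y ^ 2 = p11 - 6 / 7 := Real.sq_sqrt (by linarith only [e11])
  have hαβ : 0 ≤ α * β := mul_nonneg hα hβ
  have hαβ4 : α * β ≤ 2 * 2 := mul_le_mul hα2 hβ2 hβ (by norm_num)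
  have h4 := numeric_prod hβ hα2 hβ2 h1 h2
  have hP0 : 0 ≤ p00 * p11 := mul_nonneg (by linarith only [e00]) (by linarith only [e11])
  set P := √(p00 * p11) with hP
  have hPP : P ^ 2 = p00 * p11 := Real.sq_sqrt hP0
  have hPn : 0 ≤ P := Real.sqrt_nonneg _
  have h5 : 6 / 7 + x * y ≤ P := by
    refine Xor.le_of_sq_le_sq' ?_ hPn
    have e1 : p00 = 6 / 7 + x ^ 2 := by linarith only [hxx]
    have e2 : p11 = 6 / 7 + y ^ 2 := by linarith only [hyy]
    have e3 : P ^ 2 - (6 / 7 + x * y) ^ 2 = 6 / 7 * (x - y) ^ 2 := by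
      rw [hPP, e1, e2]; ring
    have e4 := sq_nonneg (x - y)
    linarith only [e3, e4]
  have hxy : 0 ≤ x * y := mul_nonneg hx0 hy0
  have h8 : F ^ 2 ≤ P ^ 2 - 9 / 49 * (α * β) :=
    numeric_F hF hαβ (by linarith only [hαβ4]) h4 hxy h5 h3
  -- the other product
  have h10 : P ^ 2 - 9 / 49 * (α * β) ≤ p01 * p10 := by
    rw [hPP]
    have h11 : -((p01 - p00) * (p10 - p00)) ≤ 1 / 49 * (α * β) := by
      have h12 : |(p01 - p00) * (p10 - p00)| ≤ (1 / 7 * β) * (1 / 7 * α) := by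
        rw [abs_mul]
        exact mul_le_mul hu hv (abs_nonneg _) (by (clear * - hβ; positivity))
      have h19 := (abs_le.mp h12).1
      linarith only [h19]
    have h13 : p00 * p11 - p01 * p10 = (p00 + p11 - p01 - p10) * p00
        - (p01 - p00) * (p10 - p00) := by ring
    have h14 : (p00 + p11 - p01 - p10) * p00 ≤ 1 / 7 * (α * β) * (8 / 7) := by
      have h15 : (p00 + p11 - p01 - p10) * p00 ≤ 1 / 7 * (α * β) * p00 :=
        mul_le_mul_of_nonneg_right hw (by linarith only [e00])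
      have h16 : 1 / 7 * (α * β) * p00 ≤ 1 / 7 * (α * β) * (8 / 7) :=
        mul_le_mul_of_nonneg_left e00' (by (clear * - hα hβ; positivity))
      linarith only [h15, h16]
    linarith only [h11, h14]
  have h17 : F ^ 2 ≤ p01 * p10 := h8.trans h10
  have h18 : F ^ 2 ≤ p00 * p11 := by rw [← hPP]; linarith only [hαβ, h8]
  calc F ^ 4 = F ^ 2 * F ^ 2 := by ring
    _ ≤ (p00 * p11) * (p01 * p10) := mul_le_mul h18 h17 (sq_nonneg _) hP0
    _ = _ := by ring

end Near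

end Vale.Agent.P372

end

section

/-! A state close to a multiple of the identity does not pass the key test (assembly). -/

open Matrix Kronecker
open scoped ComplexOrder MatrixOrder

set_option linter.unusedSectionVars false

namespace Vale.Agent.P372

namespace Near

variable {A B E : Type} [Fintype A] [DecidableEq A] [Fintype B] [DecidableEq B] [Fintype E]
  [DecidableEq E]

theorem trace_near {R : Matrix E E ℂ} (hR : Contr ((7 : ℂ) • (R - 1))) {M : Matrix E E ℂ}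
    (hM : M.trace = 0) : |(R * M).trace.re| ≤ 1 / 7 * traceNorm M := by
  have h1 := norm_trace_mul_le hR M
  rw [smul_mul_assoc, trace_smul, smul_eq_mul, norm_mul, Matrix.sub_mul, one_mul, trace_sub, hM,
    sub_zero] at h1
  have h2 : ‖(7 : ℂ)‖ = 7 := by simp
  rw [h2] at h1
  have h3 := Complex.abs_re_le_norm (R * M).trace
  linarith

theorem contr_near {R : Matrix E E ℂ} (h1 : (R - ((6 / 7 : ℝ) : ℂ) • 1).PosSemidef)
    (h2 : (((8 / 7 : ℝ) : ℂ) • 1 - R).PosSemidef) : Contr ((7 : ℂ) • (R - 1)) := by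
  have hH : R.IsHermitian := by
    have h3 := h1.1
    have h4 : R = (R - ((6 / 7 : ℝ) : ℂ) • 1) + ((6 / 7 : ℝ) : ℂ) • (1 : Matrix E E ℂ) := by abel
    have h5 : (((6 / 7 : ℝ) : ℂ) • (1 : Matrix E E ℂ)).IsHermitian := by
      rw [Matrix.IsHermitian, conjTranspose_smul, conjTranspose_one, RCLike.star_def,
        Complex.conj_ofReal]
    rw [h4]
    exact h3.add h5
  refine Xor.contr_of_hermitian ?_ ?_ ?_
  · rw [conjTranspose_smul, conjTranspose_sub, conjTranspose_one, hH.eq]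
    simp
  · have h3 : (1 : Matrix E E ℂ) - (7 : ℂ) • (R - 1) = ((7 : ℝ) : ℂ) •
        (((8 / 7 : ℝ) : ℂ) • 1 - R) := by
      rw [smul_sub, smul_sub, smul_smul]
      have h4 : ((7 : ℝ) : ℂ) * ((8 / 7 : ℝ) : ℂ) = 1 + 7 := by push_cast; norm_num
      rw [h4, add_smul, one_smul]
      push_cast
      abel
    rw [h3]
    exact h2.smul (by exact_mod_cast (by norm_num : (0 : ℝ) ≤ 7))
  · have h3 : (1 : Matrix E E ℂ) + (7 : ℂ) • (R - 1) = ((7 : ℝ) : ℂ) •
        (R - ((6 / 7 : ℝ) : ℂ) • 1) := by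
      rw [smul_sub, smul_sub, smul_smul]
      have h4 : ((7 : ℝ) : ℂ) * ((6 / 7 : ℝ) : ℂ) = 7 - 1 := by push_cast; norm_num
      rw [h4, sub_smul, one_smul]
      push_cast
      abel
    rw [h3]
    exact h1.smul (by exact_mod_cast (by norm_num : (0 : ℝ) ≤ 7))

/-- Fuchs and van de Graaf for two operators of Hilbert-Schmidt norm one. -/
theorem fid_dist (X₀ X₁ : Matrix A A ℂ) (h0 : hs X₀ = 1) (h1 : hs X₁ = 1) :
    traceNorm (X₀ * X₁ᴴ) ^ 2 ≤ 1 - traceNorm (X₀ᴴ * X₀ - X₁ᴴ * X₁) ^ 2 / 4 ∧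
    traceNorm (X₀ᴴ * X₀ - X₁ᴴ * X₁) ≤ 2 := by
  obtain ⟨W, hW, hWX⟩ := traceNorm_exists (X₀ * X₁ᴴ)
  have hf := traceNorm_nonneg (X₀ * X₁ᴴ)
  have hα := traceNorm_nonneg (X₀ᴴ * X₀ - X₁ᴴ * X₁)
  have h2 := Xor.fvdg (Φ₀ := X₀) (Φ₁ := X₁) hW hf h0 h1 hWX
  have h3 : traceNorm (X₀ * X₁ᴴ) ≤ 1 := by
    have h4 := Xor.traceNorm_mul_le_hs X₀ᴴ X₁ᴴ
    rw [conjTranspose_conjTranspose, hs_conjTranspose, hs_conjTranspose, h0, h1,
      Real.sqrt_one, mul_one] at h4
    exact h4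
  have h5 : 0 ≤ 1 ^ 2 - traceNorm (X₀ * X₁ᴴ) ^ 2 := by nlinarith only [h3, hf]
  have h6 := Real.sq_sqrt h5
  have h7 := Real.sqrt_nonneg (1 ^ 2 - traceNorm (X₀ * X₁ᴴ) ^ 2)
  have h8 : traceNorm (X₀ᴴ * X₀ - X₁ᴴ * X₁) ^ 2 ≤
      (2 * √(1 ^ 2 - traceNorm (X₀ * X₁ᴴ) ^ 2)) ^ 2 := pow_le_pow_left₀ hα h2 2
  have h9 : traceNorm (X₀ᴴ * X₀ - X₁ᴴ * X₁) ^ 2 / 4 ≤ 1 - traceNorm (X₀ * X₁ᴴ) ^ 2 := by
    rw [mul_pow, h6] at h8
    linarith only [h8]
  refine ⟨by linarith only [h6, h8], ?_⟩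
  refine Xor.le_of_sq_le_sq' ?_ (by norm_num)
  have := sq_nonneg (traceNorm (X₀ * X₁ᴴ))
  linarith only [h6, h8, this]

theorem weight_re (R : Matrix (A × B) (A × B) ℂ) (X X' : Matrix A A ℂ) (Y Y' : Matrix B B ℂ) :
    (R * ((Xᴴ * X - X'ᴴ * X') ⊗ₖ (Yᴴ * Y - Y'ᴴ * Y'))).trace.re =
      weight R X Y + weight R X' Y' - weight R X Y' - weight R X' Y := by
  have h : (Xᴴ * X - X'ᴴ * X') ⊗ₖ (Yᴴ * Y - Y'ᴴ * Y') =
      (Xᴴ * X) ⊗ₖ (Yᴴ * Y) + (X'ᴴ * X') ⊗ₖ (Y'ᴴ * Y') - (Xᴴ * X) ⊗ₖ (Y'ᴴ * Y') -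
        (X'ᴴ * X') ⊗ₖ (Yᴴ * Y) := by
    ext p q
    simp only [kroneckerMap_apply, Matrix.sub_apply, Matrix.add_apply]
    ring
  rw [h, Matrix.mul_sub, Matrix.mul_sub, Matrix.mul_add, trace_sub, trace_sub, trace_add,
    Complex.sub_re, Complex.sub_re, Complex.add_re, weight_eq_trace, weight_eq_trace,
    weight_eq_trace, weight_eq_trace]

theorem weight_re_right (R : Matrix (A × B) (A × B) ℂ) (X : Matrix A A ℂ) (Y Y' : Matrix B B ℂ) :
    (R * ((Xᴴ * X) ⊗ₖ (Yᴴ * Y - Y'ᴴ * Y'))).trace.re = weight R X Y - weight R X Y' := by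
  have h : (Xᴴ * X) ⊗ₖ (Yᴴ * Y - Y'ᴴ * Y') = (Xᴴ * X) ⊗ₖ (Yᴴ * Y) - (Xᴴ * X) ⊗ₖ (Y'ᴴ * Y') := by
    ext p q
    simp only [kroneckerMap_apply, Matrix.sub_apply]
    ring
  rw [h, Matrix.mul_sub, trace_sub, Complex.sub_re, weight_eq_trace, weight_eq_trace]

theorem weight_re_left (R : Matrix (A × B) (A × B) ℂ) (X X' : Matrix A A ℂ) (Y : Matrix B B ℂ) :
    (R * ((Xᴴ * X - X'ᴴ * X') ⊗ₖ (Yᴴ * Y))).trace.re = weight R X Y - weight R X' Y := by
  have h : (Xᴴ * X - X'ᴴ * X') ⊗ₖ (Yᴴ * Y) = (Xᴴ * X) ⊗ₖ (Yᴴ * Y) - (X'ᴴ * X') ⊗ₖ (Yᴴ * Y) := by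
    ext p q
    simp only [kroneckerMap_apply, Matrix.sub_apply]
    ring
  rw [h, Matrix.mul_sub, trace_sub, Complex.sub_re, weight_eq_trace, weight_eq_trace]

theorem trace_sub_eq_zero (X X' : Matrix A A ℂ) (h0 : hs X = 1) (h1 : hs X' = 1) :
    (Xᴴ * X - X'ᴴ * X').trace = 0 := by
  rw [trace_sub, trace_conjTranspose_mul_self, trace_conjTranspose_mul_self, h0, h1, sub_self]

theorem traceNorm_self (X : Matrix A A ℂ) (h0 : hs X = 1) : traceNorm (Xᴴ * X) = 1 := by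
  rw [traceNorm_of_posSemidef (posSemidef_conjTranspose_mul_self X), ← hs_eq_re, h0]

theorem normalised {R : Matrix (A × B) (A × B) ℂ} (h1 : (R - ((6 / 7 : ℝ) : ℂ) • 1).PosSemidef)
    (h2 : (((8 / 7 : ℝ) : ℂ) • 1 - R).PosSemidef) (X₀ X₁ : Matrix A A ℂ) (Y₀ Y₁ : Matrix B B ℂ)
    (hX0 : hs X₀ = 1) (hX1 : hs X₁ = 1) (hY0 : hs Y₀ = 1) (hY1 : hs Y₁ = 1) :
    traceNorm ((X₀ ⊗ₖ Y₀) * R * (X₁ ⊗ₖ Y₁)ᴴ) ^ 4 ≤
      weight R X₀ Y₀ * weight R X₀ Y₁ * weight R X₁ Y₀ * weight R X₁ Y₁ := by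
  have hC := contr_near h1 h2
  have hlow : ∀ (X : Matrix A A ℂ) (Y : Matrix B B ℂ), hs X = 1 → hs Y = 1 →
      6 / 7 ≤ weight R X Y := by
    intro X Y hX hY
    have h3 := weight_nonneg h1 X Y
    rw [weight_sub, weight_smul, weight_one, hX, hY] at h3
    linarith
  have hhigh : ∀ (X : Matrix A A ℂ) (Y : Matrix B B ℂ), hs X = 1 → hs Y = 1 →
      weight R X Y ≤ 8 / 7 := by
    intro X Y hX hY
    have h3 := weight_nonneg h2 X Y
    rw [weight_sub, weight_smul, weight_one, hX, hY] at h3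
    linarith only [h3]
  obtain ⟨f1, f2⟩ := fid_dist X₀ X₁ hX0 hX1
  obtain ⟨g1, g2⟩ := fid_dist Y₀ Y₁ hY0 hY1
  have hα := traceNorm_nonneg (X₀ᴴ * X₀ - X₁ᴴ * X₁)
  have hβ := traceNorm_nonneg (Y₀ᴴ * Y₀ - Y₁ᴴ * Y₁)
  refine numeric (traceNorm_nonneg _) (hlow _ _ hX0 hY0) (hlow _ _ hX1 hY1)
    (hhigh _ _ hX0 hY0) hα hβ f2 g2 f1 g1 ?_ ?_ ?_ ?_
  · have h3 := trace_near hC (M := (X₀ᴴ * X₀ - X₁ᴴ * X₁) ⊗ₖ (Y₀ᴴ * Y₀ - Y₁ᴴ * Y₁)) (by
      rw [trace_kronecker, trace_sub_eq_zero X₀ X₁ hX0 hX1, zero_mul])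
    rw [weight_re] at h3
    have h4 := traceNorm_kronecker_le (X₀ᴴ * X₀ - X₁ᴴ * X₁) (Y₀ᴴ * Y₀ - Y₁ᴴ * Y₁)
    have h5 := (abs_le.mp h3).2
    linarith only [h4, h5]
  · have h3 := trace_near hC (M := (X₀ᴴ * X₀) ⊗ₖ (Y₀ᴴ * Y₀ - Y₁ᴴ * Y₁)) (by
      rw [trace_kronecker, trace_sub_eq_zero Y₀ Y₁ hY0 hY1, mul_zero])
    rw [weight_re_right, abs_sub_comm] at h3
    have h4 := traceNorm_kronecker_le (X₀ᴴ * X₀) (Y₀ᴴ * Y₀ - Y₁ᴴ * Y₁)
    rw [traceNorm_self X₀ hX0, one_mul] at h4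
    linarith only [h3, h4]
  · have h3 := trace_near hC (M := (X₀ᴴ * X₀ - X₁ᴴ * X₁) ⊗ₖ (Y₀ᴴ * Y₀)) (by
      rw [trace_kronecker, trace_sub_eq_zero X₀ X₁ hX0 hX1, zero_mul])
    rw [weight_re_left, abs_sub_comm] at h3
    have h4 := traceNorm_kronecker_le (X₀ᴴ * X₀ - X₁ᴴ * X₁) (Y₀ᴴ * Y₀)
    rw [traceNorm_self Y₀ hY0, mul_one] at h4
    linarith only [h3, h4]
  · have h3 : (X₀ ⊗ₖ Y₀) * R * (X₁ ⊗ₖ Y₁)ᴴ = ((6 / 7 : ℝ) : ℂ) • ((X₀ * X₁ᴴ) ⊗ₖ (Y₀ * Y₁ᴴ)) +
        (X₀ ⊗ₖ Y₀) * (R - ((6 / 7 : ℝ) : ℂ) • 1) * (X₁ ⊗ₖ Y₁)ᴴ := by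
      rw [Matrix.mul_sub, Matrix.sub_mul, Matrix.mul_smul, Matrix.mul_one, smul_mul_assoc,
        conjTranspose_kronecker, ← mul_kronecker_mul]
      abel
    rw [h3]
    refine (traceNorm_add_le _ _).trans ?_
    have h4 := fid_le_weights h1 X₀ X₁ Y₀ Y₁
    rw [weight_sub, weight_sub, weight_smul, weight_smul, weight_one, weight_one, hX0, hX1, hY0,
      hY1, mul_one, mul_one] at h4
    have h5 := traceNorm_kronecker_le (X₀ * X₁ᴴ) (Y₀ * Y₁ᴴ)
    rw [traceNorm_smul, Complex.norm_real, Real.norm_of_nonneg (by norm_num)]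
    linarith only [h4, h5]

theorem eq_zero_of_hs {X : Matrix A A ℂ} (h : hs X = 0) : X = 0 := by
  ext i j
  have h1 := (Finset.sum_eq_zero_iff_of_nonneg (fun i _ => Finset.sum_nonneg fun j _ => by
    (clear * -; positivity))).mp h i (Finset.mem_univ i)
  have h2 := (Finset.sum_eq_zero_iff_of_nonneg (fun j _ => by (clear * -; positivity))).mp h1 j
    (Finset.mem_univ j)
  simpa using h2

/-- A multiple of an operator of Hilbert-Schmidt norm one. -/
theorem exists_normalised {X : Matrix A A ℂ} (h : hs X ≠ 0) :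
    ∃ (r : ℝ) (X' : Matrix A A ℂ), 0 ≤ r ∧ hs X' = 1 ∧ X = (r : ℂ) • X' := by
  have hp : 0 < hs X := lt_of_le_of_ne (hs_nonneg X) (Ne.symm h)
  have hs0 : √(hs X) ≠ 0 := (Real.sqrt_pos.mpr hp).ne'
  refine ⟨√(hs X), ((√(hs X))⁻¹ : ℂ) • X, Real.sqrt_nonneg _, ?_, ?_⟩
  · have h1 : ∀ i j, ‖(((√(hs X))⁻¹ : ℂ) • X) i j‖ ^ 2 = (hs X)⁻¹ * ‖X i j‖ ^ 2 := by
      intro i j
      rw [Matrix.smul_apply, smul_eq_mul, norm_mul, mul_pow, norm_inv, Complex.norm_real,
        Real.norm_of_nonneg (Real.sqrt_nonneg _), inv_pow, Real.sq_sqrt hp.le]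
    rw [hs]
    simp only [h1, ← Finset.mul_sum]
    exact inv_mul_cancel₀ h
  · rw [smul_smul, mul_inv_cancel₀ (by exact_mod_cast hs0), one_smul]

theorem weight_smul_smul (R : Matrix (A × B) (A × B) ℂ) (r s : ℝ) (X : Matrix A A ℂ)
    (Y : Matrix B B ℂ) : weight R ((r : ℂ) • X) ((s : ℂ) • Y) = (r * s) ^ 2 * weight R X Y := by
  have h : ((r : ℂ) • X)ᴴ * ((r : ℂ) • X) = ((r ^ 2 : ℝ) : ℂ) • (Xᴴ * X) := by
    rw [conjTranspose_smul, RCLike.star_def, Complex.conj_ofReal, smul_mul_smul_comm]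
    push_cast
    rw [sq]
  have h' : ((s : ℂ) • Y)ᴴ * ((s : ℂ) • Y) = ((s ^ 2 : ℝ) : ℂ) • (Yᴴ * Y) := by
    rw [conjTranspose_smul, RCLike.star_def, Complex.conj_ofReal, smul_mul_smul_comm]
    push_cast
    rw [sq]
  rw [weight_eq_trace, weight_eq_trace, h, h', smul_kronecker, kronecker_smul, smul_smul,
    Matrix.mul_smul, trace_smul, smul_eq_mul, ← Complex.ofReal_mul, Complex.re_ofReal_mul]
  ring

theorem traceNorm_smul_four (R : Matrix (A × B) (A × B) ℂ) {r₀ r₁ s₀ s₁ : ℝ} (h0 : 0 ≤ r₀)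
    (h1 : 0 ≤ r₁) (h2 : 0 ≤ s₀) (h3 : 0 ≤ s₁) (X₀ X₁ : Matrix A A ℂ) (Y₀ Y₁ : Matrix B B ℂ) :
    traceNorm ((((r₀ : ℂ) • X₀) ⊗ₖ ((s₀ : ℂ) • Y₀)) * R * (((r₁ : ℂ) • X₁) ⊗ₖ ((s₁ : ℂ) • Y₁))ᴴ) =
      (r₀ * s₀ * (r₁ * s₁)) * traceNorm ((X₀ ⊗ₖ Y₀) * R * (X₁ ⊗ₖ Y₁)ᴴ) := by
  have h : (((r₀ : ℂ) • X₀) ⊗ₖ ((s₀ : ℂ) • Y₀)) * R * (((r₁ : ℂ) • X₁) ⊗ₖ ((s₁ : ℂ) • Y₁))ᴴ =
      ((r₀ * s₀ * (r₁ * s₁) : ℝ) : ℂ) • ((X₀ ⊗ₖ Y₀) * R * (X₁ ⊗ₖ Y₁)ᴴ) := by
    rw [smul_kronecker, kronecker_smul, smul_kronecker, kronecker_smul, smul_smul, smul_smul,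
      conjTranspose_smul, smul_mul_assoc, smul_mul_assoc, Matrix.mul_smul, smul_smul]
    congr 1
    rw [RCLike.star_def, map_mul, Complex.conj_ofReal, Complex.conj_ofReal]
    push_cast
    ring
  rw [h, traceNorm_smul, Complex.norm_real, Real.norm_of_nonneg (by positivity)]

theorem all_tests {R : Matrix (A × B) (A × B) ℂ} (h1 : (R - ((6 / 7 : ℝ) : ℂ) • 1).PosSemidef)
    (h2 : (((8 / 7 : ℝ) : ℂ) • 1 - R).PosSemidef) (X₀ X₁ : Matrix A A ℂ) (Y₀ Y₁ : Matrix B B ℂ) :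
    traceNorm ((X₀ ⊗ₖ Y₀) * R * (X₁ ⊗ₖ Y₁)ᴴ) ^ 4 ≤
      weight R X₀ Y₀ * weight R X₀ Y₁ * weight R X₁ Y₀ * weight R X₁ Y₁ := by
  have hRp : R.PosSemidef := by
    have h4 : R = (R - ((6 / 7 : ℝ) : ℂ) • 1) + ((6 / 7 : ℝ) : ℂ) • (1 : Matrix _ _ ℂ) := by abel
    rw [h4]
    exact h1.add (PosSemidef.one.smul (by exact_mod_cast (by norm_num : (0 : ℝ) ≤ 6 / 7)))
  have hz : ∀ {Z : Matrix (A × B) (A × B) ℂ}, Z = 0 → traceNorm Z ^ 4 ≤
      weight R X₀ Y₀ * weight R X₀ Y₁ * weight R X₁ Y₀ * weight R X₁ Y₁ := by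
    intro Z hZ
    rw [hZ, traceNorm_zero, zero_pow (by norm_num)]
    exact mul_nonneg (mul_nonneg (mul_nonneg (weight_nonneg hRp _ _) (weight_nonneg hRp _ _))
      (weight_nonneg hRp _ _)) (weight_nonneg hRp _ _)
  by_cases e0 : hs X₀ = 0
  · refine hz ?_
    rw [eq_zero_of_hs e0, zero_kronecker, Matrix.zero_mul, Matrix.zero_mul]
  by_cases e1 : hs X₁ = 0
  · refine hz ?_
    rw [eq_zero_of_hs e1, zero_kronecker, conjTranspose_zero, Matrix.mul_zero]
  by_cases e2 : hs Y₀ = 0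
  · refine hz ?_
    rw [eq_zero_of_hs e2, kronecker_zero, Matrix.zero_mul, Matrix.zero_mul]
  by_cases e3 : hs Y₁ = 0
  · refine hz ?_
    rw [eq_zero_of_hs e3, kronecker_zero, conjTranspose_zero, Matrix.mul_zero]
  obtain ⟨r₀, X₀', k0, k0', rfl⟩ := exists_normalised e0
  obtain ⟨r₁, X₁', k1, k1', rfl⟩ := exists_normalised e1
  obtain ⟨s₀, Y₀', k2, k2', rfl⟩ := exists_normalised e2
  obtain ⟨s₁, Y₁', k3, k3', rfl⟩ := exists_normalised e3
  rw [traceNorm_smul_four R k0 k1 k2 k3, weight_smul_smul, weight_smul_smul, weight_smul_smul,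
    weight_smul_smul, mul_pow]
  have h5 := normalised h1 h2 X₀' X₁' Y₀' Y₁' k0' k1' k2' k3'
  calc _ ≤ (r₀ * s₀ * (r₁ * s₁)) ^ 4 * (weight R X₀' Y₀' * weight R X₀' Y₁' * weight R X₁' Y₀' *
      weight R X₁' Y₁') := mul_le_mul_of_nonneg_left h5 (by (clear * -; positivity))
    _ = _ := by ring

/-- A positive operator between `6/7 c` and `8/7 c` does not pass the key test. -/
theorem not_keyTest {R : Matrix (A × B) (A × B) ℂ} {c : ℝ} (hc : 0 < c)
    (h1 : (R - ((6 / 7 * c : ℝ) : ℂ) • 1).PosSemidef)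
    (h2 : (((8 / 7 * c : ℝ) : ℂ) • 1 - R).PosSemidef) : ¬ KeyTest1 R := by
  rintro ⟨X₀, X₁, Y₀, Y₁, hlt⟩
  set S : Matrix (A × B) (A × B) ℂ := ((c⁻¹ : ℝ) : ℂ) • R with hS
  have hcc : (c : ℂ) ≠ 0 := by exact_mod_cast hc.ne'
  have hRS : R = (c : ℂ) • S := by
    rw [hS, smul_smul, ← Complex.ofReal_mul, mul_inv_cancel₀ hc.ne', Complex.ofReal_one, one_smul]
  have hci : (0 : ℂ) ≤ ((c⁻¹ : ℝ) : ℂ) := by exact_mod_cast (inv_pos.mpr hc).le
  have e1 : (S - ((6 / 7 : ℝ) : ℂ) • 1).PosSemidef := by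
    have h3 := h1.smul hci
    have h4 : ((c⁻¹ : ℝ) : ℂ) • (R - ((6 / 7 * c : ℝ) : ℂ) • (1 : Matrix (A × B) (A × B) ℂ)) =
        S - ((6 / 7 : ℝ) : ℂ) • 1 := by
      rw [smul_sub, smul_smul, ← Complex.ofReal_mul, ← hS]
      congr 3
      field_simp
    rwa [h4] at h3
  have e2 : (((8 / 7 : ℝ) : ℂ) • 1 - S).PosSemidef := by
    have h3 := h2.smul hci
    have h4 : ((c⁻¹ : ℝ) : ℂ) • (((8 / 7 * c : ℝ) : ℂ) • (1 : Matrix (A × B) (A × B) ℂ) - R) =
        ((8 / 7 : ℝ) : ℂ) • 1 - S := by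
      rw [smul_sub, smul_smul, ← Complex.ofReal_mul, ← hS]
      congr 3
      (clear * - hc; field_simp)
    rwa [h4] at h3
  have h3 := all_tests e1 e2 X₀ X₁ Y₀ Y₁
  have h5 : (X₀ ⊗ₖ Y₀) * R * (X₁ ⊗ₖ Y₁)ᴴ = (c : ℂ) • ((X₀ ⊗ₖ Y₀) * S * (X₁ ⊗ₖ Y₁)ᴴ) := by
    rw [hRS, Matrix.mul_smul, smul_mul_assoc]
  rw [h5, traceNorm_smul, Complex.norm_real, Real.norm_of_nonneg hc.le, mul_pow] at hlt
  have h6 : ∀ (X : Matrix A A ℂ) (Y : Matrix B B ℂ), weight R X Y = c * weight S X Y := by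
    intro X Y
    rw [hRS, weight_smul]
  rw [h6, h6, h6, h6] at hlt
  have h7 : c ^ 4 * traceNorm ((X₀ ⊗ₖ Y₀) * S * (X₁ ⊗ₖ Y₁)ᴴ) ^ 4 ≤
      c ^ 4 * (weight S X₀ Y₀ * weight S X₀ Y₁ * weight S X₁ Y₀ * weight S X₁ Y₁) :=
    mul_le_mul_of_nonneg_left h3 (by positivity)
  have h8 : c * weight S X₀ Y₀ * (c * weight S X₀ Y₁) * (c * weight S X₁ Y₀) *
      (c * weight S X₁ Y₁) = c ^ 4 * (weight S X₀ Y₀ * weight S X₀ Y₁ * weight S X₁ Y₀ *
      weight S X₁ Y₁) := by ring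
  rw [h8] at hlt
  exact absurd hlt (not_lt.mpr h7)

end Near

end Vale.Agent.P372

end

section

/-! No bounded number of copies suffices. -/

open Matrix Kronecker
open scoped ComplexOrder MatrixOrder

set_option linter.unusedSectionVars false

namespace Vale.Agent.P372

namespace Near

variable {ι : Type} [Fintype ι] [DecidableEq ι]
variable {A B E : Type} [Fintype A] [DecidableEq A] [Fintype B] [DecidableEq B] [Fintype E]
  [DecidableEq E]

theorem piT_sub_piT_posSemidef {C D : ι → Matrix E E ℂ} (h0 : ∀ i, (D i).PosSemidef)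
    (h1 : ∀ i, (C i - D i).PosSemidef) : (piT C - piT D).PosSemidef := by
  have h2 : piT C = piT (fun i => ∑ b : Bool, if b then D i else C i - D i) := by
    congr 1
    funext i
    simp
  have h3 : piT D = piT (fun i => if (fun _ : ι => true) i then D i else C i - D i) := by
    congr 1
  rw [h2, piT_sum, h3, ← Finset.add_sum_erase Finset.univ _ (Finset.mem_univ (fun _ : ι => true)),
    add_sub_cancel_left]
  refine posSemidef_sum _ fun x _ => piT_posSemidef fun i => ?_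
  by_cases hx : x i = true
  · rw [if_pos hx]; exact h0 i
  · rw [if_neg hx]; exact h1 i

theorem piT_smul_one (n : ℕ) (a : ℝ) :
    piT (fun _ : Fin n => ((a : ℂ) • (1 : Matrix E E ℂ))) = ((a ^ n : ℝ) : ℂ) • 1 := by
  ext e f
  simp only [piT, Matrix.smul_apply, Matrix.one_apply, smul_eq_mul]
  rw [Finset.prod_mul_distrib, Finset.prod_const, Finset.card_univ, Fintype.card_fin]
  push_cast
  congr 1
  by_cases h : e = f
  · subst h; simp only [↓reduceIte, Finset.prod_const_one]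
  · rw [if_neg h]
    obtain ⟨i, hi⟩ := Function.ne_iff.mp h
    exact Finset.prod_eq_zero (Finset.mem_univ i) (by simp [hi])

def col (n : ℕ) (p : (Fin n → A) × (Fin n → B)) : Fin n → A × B := fun i => (p.1 i, p.2 i)

theorem col_inj (n : ℕ) : Function.Injective (col n : (Fin n → A) × (Fin n → B) → _) := by
  intro p q h
  have h1 : ∀ i, (p.1 i, p.2 i) = (q.1 i, q.2 i) := fun i => congrFun h i
  exact Prod.ext (funext fun i => (Prod.mk.inj (h1 i)).1) (funext fun i => (Prod.mk.inj (h1 i)).2)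

theorem tpow_eq (n : ℕ) (ρ : Matrix (A × B) (A × B) ℂ) :
    tpow n ρ = (piT (fun _ : Fin n => ρ)).submatrix (col n) (col n) := rfl

theorem tpow_low {ρ : Matrix (A × B) (A × B) ℂ} {a : ℝ} (ha : 0 ≤ a)
    (h : (ρ - (a : ℂ) • 1).PosSemidef) (n : ℕ) :
    (tpow n ρ - ((a ^ n : ℝ) : ℂ) • 1).PosSemidef := by
  have h1 := (piT_sub_piT_posSemidef (ι := Fin n) (C := fun _ => ρ)
    (D := fun _ => (a : ℂ) • 1) (fun _ => PosSemidef.one.smul (by exact_mod_cast ha))
    (fun _ => h)).submatrix (col n)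
  rw [piT_smul_one] at h1
  have h2 : (piT (fun _ : Fin n => ρ) - ((a ^ n : ℝ) : ℂ) • 1).submatrix (col n) (col n) =
      tpow n ρ - ((a ^ n : ℝ) : ℂ) • 1 := by
    ext p q
    simp only [submatrix_apply, Matrix.sub_apply, Matrix.smul_apply, Matrix.one_apply,
      (col_inj n).eq_iff, tpow_eq]
  rwa [h2] at h1

theorem tpow_high {ρ : Matrix (A × B) (A × B) ℂ} {b : ℝ} (hρ : ρ.PosSemidef)
    (h : ((b : ℂ) • 1 - ρ).PosSemidef) (n : ℕ) :
    (((b ^ n : ℝ) : ℂ) • 1 - tpow n ρ).PosSemidef := by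
  have h1 := (piT_sub_piT_posSemidef (ι := Fin n) (C := fun _ => (b : ℂ) • 1)
    (D := fun _ => ρ) (fun _ => hρ) (fun _ => h)).submatrix (col n)
  rw [piT_smul_one] at h1
  have h2 : (((b ^ n : ℝ) : ℂ) • 1 - piT (fun _ : Fin n => ρ)).submatrix (col n) (col n) =
      ((b ^ n : ℝ) : ℂ) • 1 - tpow n ρ := by
    ext p q
    simp only [submatrix_apply, Matrix.sub_apply, Matrix.smul_apply, Matrix.one_apply,
      (col_inj n).eq_iff, tpow_eq]
  rwa [h2] at h1

/-- No test on at most `n` copies for a state whose eigenvalues are close to each other. -/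
theorem not_keyTest_tpow {ρ : Matrix (A × B) (A × B) ℂ} {a b c : ℝ} (ha : 0 ≤ a) (hc : 0 < c)
    (h1 : (ρ - (a : ℂ) • 1).PosSemidef) (h2 : ((b : ℂ) • 1 - ρ).PosSemidef) {n : ℕ}
    (hn1 : 6 / 7 * c ^ n ≤ a ^ n) (hn2 : b ^ n ≤ 8 / 7 * c ^ n) : ¬ KeyTest1 (tpow n ρ) := by
  have hρ : ρ.PosSemidef := by
    have h4 : ρ = (ρ - (a : ℂ) • 1) + (a : ℂ) • (1 : Matrix _ _ ℂ) := by abel
    rw [h4]
    exact h1.add (PosSemidef.one.smul (by exact_mod_cast ha))
  have key : ∀ {x : ℝ}, 0 ≤ x → ((x : ℂ) •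
      (1 : Matrix ((Fin n → A) × (Fin n → B)) ((Fin n → A) × (Fin n → B)) ℂ)).PosSemidef :=
    fun hx => PosSemidef.one.smul (by exact_mod_cast hx)
  refine not_keyTest (c := c ^ n) (pow_pos hc n) ?_ ?_
  · have h3 := (tpow_low ha h1 n).add (key (sub_nonneg.mpr hn1))
    have h4 : tpow n ρ - ((a ^ n : ℝ) : ℂ) • 1 + ((a ^ n - 6 / 7 * c ^ n : ℝ) : ℂ) • 1 =
        tpow n ρ - ((6 / 7 * c ^ n : ℝ) : ℂ) • 1 := by
      rw [Complex.ofReal_sub, sub_smul]
      abel
    rwa [h4] at h3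
  · have h3 := (tpow_high hρ h2 n).add (key (sub_nonneg.mpr hn2))
    have h4 : ((b ^ n : ℝ) : ℂ) • 1 - tpow n ρ + ((8 / 7 * c ^ n - b ^ n : ℝ) : ℂ) • 1 =
        ((8 / 7 * c ^ n : ℝ) : ℂ) • 1 - tpow n ρ := by
      rw [Complex.ofReal_sub, sub_smul]
      abel
    rwa [h4] at h3

/-! ### Werner states -/

/-- The flip operator. -/
def flip (d : ℕ) : Matrix (Fin d × Fin d) (Fin d × Fin d) ℂ :=
  fun p q => if p.1 = q.2 ∧ p.2 = q.1 then 1 else 0

theorem flip_herm (d : ℕ) : (flip d)ᴴ = flip d := by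
  ext p q
  rw [conjTranspose_apply]
  unfold flip
  by_cases h : p.1 = q.2 ∧ p.2 = q.1
  · rw [if_pos h, if_pos ⟨h.2.symm, h.1.symm⟩, star_one]
  · rw [if_neg h, if_neg (fun h' => h ⟨h'.2.symm, h'.1.symm⟩), star_zero]

theorem flip_mul (d : ℕ) (M : Matrix (Fin d × Fin d) (Fin d × Fin d) ℂ) (p q) :
    (flip d * M) p q = M (p.2, p.1) q := by
  rw [mul_apply, Finset.sum_eq_single (p.2, p.1)]
  · rw [flip, if_pos ⟨rfl, rfl⟩, one_mul]
  · intro r _ hr
    rw [flip, if_neg, zero_mul]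
    rintro ⟨h1, h2⟩
    exact hr (Prod.ext h2.symm h1.symm)
  · intro h; exact absurd (Finset.mem_univ _) h

theorem flip_sq (d : ℕ) : flip d * flip d = 1 := by
  ext p q
  rw [flip_mul, flip, one_apply]
  by_cases h : p = q
  · subst h; rw [if_pos ⟨rfl, rfl⟩, if_pos rfl]
  · rw [if_neg h, if_neg]
    rintro ⟨h1, h2⟩
    exact h (Prod.ext h2 h1)

theorem one_add_flip (d : ℕ) : (1 + flip d).PosSemidef := by
  have h : 1 + flip d = ((1 / 2 : ℝ) : ℂ) • ((1 + flip d)ᴴ * (1 + flip d)) := by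
    rw [conjTranspose_add, conjTranspose_one, flip_herm, Matrix.mul_add, Matrix.add_mul,
      Matrix.add_mul, flip_sq, one_mul, one_mul, mul_one]
    have : (1 : Matrix (Fin d × Fin d) (Fin d × Fin d) ℂ) + flip d + (flip d + 1) =
        (2 : ℂ) • (1 + flip d) := by rw [two_smul]; abel
    rw [this, smul_smul]
    norm_num
  rw [h]
  exact (posSemidef_conjTranspose_mul_self _).smul
    (by exact_mod_cast (by norm_num : (0 : ℝ) ≤ 1 / 2))

theorem one_sub_flip (d : ℕ) : (1 - flip d).PosSemidef := by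
  have h : 1 - flip d = ((1 / 2 : ℝ) : ℂ) • ((1 - flip d)ᴴ * (1 - flip d)) := by
    rw [conjTranspose_sub, conjTranspose_one, flip_herm, Matrix.mul_sub, Matrix.sub_mul,
      Matrix.sub_mul, flip_sq, one_mul, one_mul, mul_one]
    have : (1 : Matrix (Fin d × Fin d) (Fin d × Fin d) ℂ) - flip d - (flip d - 1) =
        (2 : ℂ) • (1 - flip d) := by rw [two_smul]; abel
    rw [this, smul_smul]
    norm_num
  rw [h]
  exact (posSemidef_conjTranspose_mul_self _).smul
    (by exact_mod_cast (by norm_num : (0 : ℝ) ≤ 1 / 2))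

theorem trace_flip (d : ℕ) : (flip d).trace = d := by
  rw [trace]
  have h : ∀ p : Fin d × Fin d, (flip d).diag p = if p.1 = p.2 then 1 else 0 := by
    intro p
    rw [diag_apply, flip]
    by_cases h : p.1 = p.2
    · rw [if_pos h, if_pos ⟨h, h.symm⟩]
    · rw [if_neg h, if_neg (fun h' => h h'.1)]
  simp only [h]
  rw [Fintype.sum_prod_type]
  simp only [Finset.sum_ite_eq, Finset.mem_univ, ↓reduceIte, Finset.sum_const, Finset.card_univ, Fintype.card_fin, nsmul_eq_mul, mul_one]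

/-- The Werner state `(1 - t F) / (d² - t d)`. -/
noncomputable def werner (d : ℕ) (t : ℝ) : Matrix (Fin d × Fin d) (Fin d × Fin d) ℂ :=
  (((d ^ 2 - t * d)⁻¹ : ℝ) : ℂ) • (1 - (t : ℂ) • flip d)

theorem werner_low {d : ℕ} {t : ℝ} (ht : 0 ≤ t) (hd : 0 < (d : ℝ) ^ 2 - t * d) :
    (werner d t - (((1 - t) * ((d : ℝ) ^ 2 - t * d)⁻¹ : ℝ) : ℂ) • 1).PosSemidef := by
  have h : werner d t - (((1 - t) * ((d : ℝ) ^ 2 - t * d)⁻¹ : ℝ) : ℂ) • 1 =
      ((t * ((d : ℝ) ^ 2 - t * d)⁻¹ : ℝ) : ℂ) • (1 - flip d) := by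
    rw [werner]
    generalize ((d : ℝ) ^ 2 - t * d)⁻¹ = q
    rw [smul_sub, smul_sub, smul_smul]
    push_cast
    rw [sub_mul, sub_smul, one_mul, mul_comm (t : ℂ)]
    abel
  rw [h]
  exact (one_sub_flip d).smul (by exact_mod_cast mul_nonneg ht (inv_nonneg.mpr hd.le))

theorem werner_high {d : ℕ} {t : ℝ} (ht : 0 ≤ t) (hd : 0 < (d : ℝ) ^ 2 - t * d) :
    ((((1 + t) * ((d : ℝ) ^ 2 - t * d)⁻¹ : ℝ) : ℂ) • 1 - werner d t).PosSemidef := by
  have h : (((1 + t) * ((d : ℝ) ^ 2 - t * d)⁻¹ : ℝ) : ℂ) • 1 - werner d t =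
      ((t * ((d : ℝ) ^ 2 - t * d)⁻¹ : ℝ) : ℂ) • (1 + flip d) := by
    rw [werner]
    generalize ((d : ℝ) ^ 2 - t * d)⁻¹ = q
    rw [smul_add, smul_sub, smul_smul]
    push_cast
    rw [add_mul, add_smul, one_mul, mul_comm (t : ℂ)]
    abel
  rw [h]
  exact (one_add_flip d).smul (by exact_mod_cast mul_nonneg ht (inv_nonneg.mpr hd.le))

theorem werner_trace {d : ℕ} {t : ℝ} (hd : 0 < (d : ℝ) ^ 2 - t * d) : (werner d t).trace = 1 := by
  rw [werner, trace_smul, trace_sub, trace_smul, trace_flip, trace_one, Fintype.card_prod,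
    Fintype.card_fin, smul_eq_mul, smul_eq_mul]
  have h : ((d * d : ℕ) : ℂ) - (t : ℂ) * (d : ℂ) = (((d : ℝ) ^ 2 - t * d : ℝ) : ℂ) := by
    push_cast; ring
  rw [h, ← Complex.ofReal_mul, inv_mul_cancel₀ hd.ne', Complex.ofReal_one]

theorem werner_posSemidef {d : ℕ} {t : ℝ} (ht : 0 ≤ t) (ht1 : t ≤ 1)
    (hd : 0 < (d : ℝ) ^ 2 - t * d) : (werner d t).PosSemidef := by
  have h := (werner_low ht hd).add ((PosSemidef.one (n := Fin d × Fin d) (R := ℂ)).smul
    (α := ℂ) (a := (((1 - t) * ((d : ℝ) ^ 2 - t * d)⁻¹ : ℝ) : ℂ))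
    (by exact_mod_cast mul_nonneg (sub_nonneg.mpr ht1) (inv_nonneg.mpr hd.le)))
  rwa [sub_add_cancel] at h

/-- The expectation of the flip in a separable state is nonnegative. -/
theorem flip_sep {d : ℕ} {ρ : Matrix (Fin d × Fin d) (Fin d × Fin d) ℂ} (h : IsSep ρ) :
    0 ≤ (flip d * ρ).trace.re := by
  obtain ⟨n, M, N, hM, hN, rfl⟩ := h
  rw [Finset.mul_sum, trace_sum, Complex.re_sum]
  refine Finset.sum_nonneg fun k _ => ?_
  have h1 : (flip d * (M k ⊗ₖ N k)).trace = (M k * N k).trace := by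
    rw [trace, trace]
    simp only [diag_apply, flip_mul, kroneckerMap_apply]
    rw [Fintype.sum_prod_type]
    simp only [mul_apply]
    rw [Finset.sum_comm]
  rw [h1]
  obtain ⟨C, hC⟩ := exists_eq_conjTranspose_mul_self (hM k)
  rw [hC, Matrix.mul_assoc, trace_mul_comm]
  exact (Complex.le_def.mp ((hN k).mul_mul_conjTranspose_same C).trace_nonneg).1

theorem werner_flip {d : ℕ} {t : ℝ} :
    (flip d * werner d t).trace = ((((d : ℝ) ^ 2 - t * d)⁻¹ * (d - t * d ^ 2) : ℝ) : ℂ) := by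
  rw [werner, Matrix.mul_smul, trace_smul, Matrix.mul_sub, Matrix.mul_smul, flip_sq, mul_one,
    trace_sub, trace_smul, trace_flip, trace_one, Fintype.card_prod, Fintype.card_fin,
    smul_eq_mul, smul_eq_mul]
  push_cast
  ring

theorem werner_not_sep {d : ℕ} {t : ℝ} (hd : 0 < (d : ℝ) ^ 2 - t * d) (h : (d : ℝ) < t * d ^ 2) :
    ¬ IsSep (werner d t) := by
  intro hs
  have h1 := flip_sep hs
  rw [werner_flip, Complex.ofReal_re] at h1
  have h2 : ((d : ℝ) ^ 2 - t * d)⁻¹ * (d - t * d ^ 2) < 0 :=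
    mul_neg_of_pos_of_neg (inv_pos.mpr hd) (by linarith only [h])
  linarith

theorem pow_bounds {N n : ℕ} (hN : 1 ≤ N) (hn : n ≤ N) :
    6 / 7 ≤ (1 - 1 / (14 * N : ℝ)) ^ n ∧ (1 + 1 / (14 * N : ℝ)) ^ n ≤ 8 / 7 := by
  have hNr : (1 : ℝ) ≤ N := by exact_mod_cast hN
  have hnr : (n : ℝ) ≤ N := by exact_mod_cast hn
  set t : ℝ := 1 / (14 * N : ℝ) with ht
  have h14 : (0 : ℝ) < 14 * N := by linarith only [hNr]
  have ht0 : 0 ≤ t := by (clear * - hN; positivity)
  have ht1 : t ≤ 1 / 14 := by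
    rw [ht]
    exact one_div_le_one_div_of_le (by norm_num) (by linarith only [hNr])
  have hnt : n * t ≤ 1 / 14 := by
    rw [ht, mul_one_div, div_le_div_iff₀ h14 (by norm_num)]
    linarith only [hnr]
  have h1 : 13 / 14 ≤ (1 - t) ^ n := by
    have h2 := one_add_mul_le_pow (a := -t) (by linarith only [ht1]) n
    have h3 : (1 + -t) = 1 - t := by ring
    rw [h3] at h2
    linarith only [hnt, h2]
  refine ⟨by linarith only [h1], ?_⟩
  have h2 : (1 + t) ^ n * (1 - t) ^ n ≤ 1 := by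
    rw [← mul_pow]
    refine pow_le_one₀ (by nlinarith only [ht1, ht0]) (by nlinarith only [ht0])
  have h3 : 0 ≤ (1 + t) ^ n := by positivity
  have h4 : (1 + t) ^ n * (13 / 14) ≤ 1 :=
    (mul_le_mul_of_nonneg_left h1 h3).trans h2
  linarith only [h4]

/-- For every `N` there is an entangled state such that no test on at most `N` copies works. -/
theorem no_bounded_number_of_copies (N : ℕ) :
    ∃ (d : ℕ) (ρ : Matrix (Fin d × Fin d) (Fin d × Fin d) ℂ), ρ.PosSemidef ∧ ρ.trace = 1 ∧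
      ¬ IsSep ρ ∧ ∀ n, n ≤ N → ¬ KeyTest1 (tpow n ρ) := by
  set M := N + 1 with hM
  have hM1 : 1 ≤ M := by omega
  have hMr : (1 : ℝ) ≤ M := by exact_mod_cast hM1
  set t : ℝ := 1 / (14 * M : ℝ) with ht
  set d : ℕ := 14 * M + 1 with hd
  have hdr : (d : ℝ) = 14 * M + 1 := by rw [hd]; push_cast; ring
  have h14 : (0 : ℝ) < 14 * M := by linarith only [hMr]
  have ht0 : 0 ≤ t := by (clear * -; positivity)
  have ht14 : t * (14 * M) = 1 := by rw [ht]; field_simp
  have ht1 : t ≤ 1 := by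
    rw [ht, div_le_one h14]; linarith only [hMr]
  have hd0 : (0 : ℝ) < d := by rw [hdr]; linarith only []
  have hD : 0 < (d : ℝ) ^ 2 - t * d := by
    have h1 : t * d ≤ 1 * d := mul_le_mul_of_nonneg_right ht1 hd0.le
    have h2 : (1 : ℝ) < d := by rw [hdr]; linarith only [hMr]
    nlinarith only [hMr, h1, hdr]
  have htd : 1 < t * d := by
    rw [hdr, mul_add, ht14, mul_one]
    have : 0 < t := by (clear * -; positivity)
    linarith only [this]
  refine ⟨d, werner d t, werner_posSemidef ht0 ht1 hD, werner_trace hD, werner_not_sep hD ?_, ?_⟩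
  · nlinarith only [hdr, ht14]
  · intro n hn
    have hb := pow_bounds hM1 (show n ≤ M by omega)
    rw [← ht] at hb
    have hq : 0 < ((d : ℝ) ^ 2 - t * d)⁻¹ := inv_pos.mpr hD
    refine not_keyTest_tpow (a := (1 - t) * ((d : ℝ) ^ 2 - t * d)⁻¹)
      (b := (1 + t) * ((d : ℝ) ^ 2 - t * d)⁻¹) (c := ((d : ℝ) ^ 2 - t * d)⁻¹)
      (mul_nonneg (by linarith only [ht1]) hq.le) hq (werner_low ht0 hD) (werner_high ht0 hD) ?_ ?_
    · rw [mul_pow]
      exact mul_le_mul_of_nonneg_right hb.1 (by (clear * - hD; positivity))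
    · rw [mul_pow]
      exact mul_le_mul_of_nonneg_right hb.2 (by (clear * - hD; positivity))

end Near

end Vale.Agent.P372

end

section

/-! Advantage distillation for rectangular filters. -/

open Matrix Kronecker
open scoped ComplexOrder MatrixOrder

set_option linter.unusedSectionVars false

namespace Vale.Agent.P372

namespace Xor

variable {A B E C D : Type} [Fintype A] [DecidableEq A] [Fintype B] [DecidableEq B]
  [Fintype E] [DecidableEq E] [Fintype C] [DecidableEq C] [Fintype D] [DecidableEq D]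

theorem eve_eq_gram (Ψ : Matrix (A × B) E ℂ) (X : Matrix C A ℂ) (Y : Matrix D B ℂ) :
    eve Ψ (Xᴴ * X) (Yᴴ * Y) = (((X ⊗ₖ Y) * Ψ)ᴴ * ((X ⊗ₖ Y) * Ψ))ᵀ := by
  rw [T1.eve_eq, mul_kronecker_mul, ← conjTranspose_kronecker, conjTranspose_mul]
  simp only [Matrix.mul_assoc]

theorem hs_eq_eve (Ψ : Matrix (A × B) E ℂ) (X : Matrix C A ℂ) (Y : Matrix D B ℂ) :
    hs ((X ⊗ₖ Y) * Ψ) = (eve Ψ (Xᴴ * X) (Yᴴ * Y)).trace.re := by
  rw [eve_eq_gram, trace_transpose, hs_eq_re]

theorem ad_dist' (N : ℕ) (Ψ : Matrix (A × B) E ℂ) {X₀ X₁ : Matrix C A ℂ} {Y₀ Y₁ : Matrix D B ℂ}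
    {p F : ℝ} (h0 : hs ((X₀ ⊗ₖ Y₀) * Ψ) = p) (h1 : hs ((X₁ ⊗ₖ Y₁) * Ψ) = p)
    (hF : traceNorm ((X₀ ⊗ₖ Y₀) * (Ψ * Ψᴴ) * (X₁ ⊗ₖ Y₁)ᴴ) = F) :
    traceNorm (piT (fun _ : Fin N => eve Ψ (X₁ᴴ * X₁) (Y₁ᴴ * Y₁)) -
      piT (fun _ : Fin N => eve Ψ (X₀ᴴ * X₀) (Y₀ᴴ * Y₀))) ≤
      2 * √((p ^ N) ^ 2 - (F ^ N) ^ 2) := by
  have hF0 : 0 ≤ F := hF ▸ traceNorm_nonneg _
  set Φ₀ := (X₀ ⊗ₖ Y₀) * Ψ with hΦ₀
  set Φ₁ := (X₁ ⊗ₖ Y₁) * Ψ with hΦ₁
  have hT : ∀ Φ : Matrix (C × D) E ℂ, piT (fun _ : Fin N => (Φᴴ * Φ)ᵀ) =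
      ((piT (fun _ : Fin N => Φ))ᴴ * piT (fun _ : Fin N => Φ))ᵀ := by
    intro Φ
    rw [piT_conjTranspose, ← piT_mul]
    rfl
  obtain ⟨W, hW, hWt⟩ := traceNorm_exists (Φ₀ * Φ₁ᴴ)
  have hFΦ : traceNorm (Φ₀ * Φ₁ᴴ) = F := by
    rw [← hF, hΦ₀, hΦ₁, conjTranspose_mul]
    simp only [Matrix.mul_assoc]
  rw [hFΦ] at hWt
  rw [eve_eq_gram, eve_eq_gram, ← hΦ₀, ← hΦ₁, hT, hT, ← transpose_sub, traceNorm_transpose,
    ← traceNorm_neg, neg_sub]
  refine fvdg (W := piT (fun _ : Fin N => W)) (contr_piT fun _ => hW) (pow_nonneg hF0 N) ?_ ?_ ?_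
  · rw [hs_piT, Finset.prod_const, Finset.card_univ, Fintype.card_fin, h0]
  · rw [hs_piT, Finset.prod_const, Finset.card_univ, Fintype.card_fin, h1]
  · rw [piT_conjTranspose, ← piT_mul, ← piT_mul, piT_trace, hWt, Finset.prod_const,
      Finset.card_univ, Fintype.card_fin]
    push_cast
    rfl

theorem fid_sq_le' (Ψ : Matrix (A × B) E ℂ) (X₀ X₁ : Matrix C A ℂ) (Y₀ Y₁ : Matrix D B ℂ) :
    traceNorm ((X₀ ⊗ₖ Y₀) * (Ψ * Ψᴴ) * (X₁ ⊗ₖ Y₁)ᴴ) ^ 2 ≤
      hs ((X₀ ⊗ₖ Y₀) * Ψ) * hs ((X₁ ⊗ₖ Y₁) * Ψ) := by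
  have h := traceNorm_mul_le_hs (((X₀ ⊗ₖ Y₀) * Ψ)ᴴ) (((X₁ ⊗ₖ Y₁) * Ψ)ᴴ)
  rw [hs_conjTranspose, hs_conjTranspose] at h
  have e : (((X₀ ⊗ₖ Y₀) * Ψ)ᴴ)ᴴ * ((X₁ ⊗ₖ Y₁) * Ψ)ᴴ = (X₀ ⊗ₖ Y₀) * (Ψ * Ψᴴ) * (X₁ ⊗ₖ Y₁)ᴴ := by
    rw [conjTranspose_conjTranspose, conjTranspose_mul]
    simp only [Matrix.mul_assoc]
  rw [e] at h
  calc _ ≤ (√(hs ((X₀ ⊗ₖ Y₀) * Ψ)) * √(hs ((X₁ ⊗ₖ Y₁) * Ψ))) ^ 2 :=
        pow_le_pow_left₀ (traceNorm_nonneg _) h 2
    _ = _ := by rw [mul_pow, Real.sq_sqrt (hs_nonneg _), Real.sq_sqrt (hs_nonneg _)]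

theorem KD_pos_core' (Ψ : Matrix (A × B) E ℂ) (hΨ : (Ψ * Ψᴴ).trace = 1) (X : Bool → Matrix C A ℂ)
    (Y : Bool → Matrix D B ℂ) {p r F : ℝ} (h0 : hs ((X false ⊗ₖ Y false) * Ψ) = p)
    (h1 : hs ((X true ⊗ₖ Y true) * Ψ) = p) (h01 : hs ((X false ⊗ₖ Y true) * Ψ) ≤ r)
    (h10 : hs ((X true ⊗ₖ Y false) * Ψ) ≤ r)
    (hF : traceNorm ((X false ⊗ₖ Y false) * (Ψ * Ψᴴ) * (X true ⊗ₖ Y true)ᴴ) = F)
    (hpr : p * r < F ^ 2) :
    ∃ N L, 0 < N ∧ 0 < L ∧ 0 < KD (copies L (copies N Ψ)) := by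
  have hdist : ∀ N : ℕ, traceNorm (piT (fun _ : Fin N => eve Ψ ((X true)ᴴ * X true)
      ((Y true)ᴴ * Y true)) - piT (fun _ : Fin N => eve Ψ ((X false)ᴴ * X false)
      ((Y false)ᴴ * Y false))) ≤ 2 * √((p ^ N) ^ 2 - (F ^ N) ^ 2) := fun N =>
    ad_dist' N Ψ h0 h1 hF
  have hp0 : 0 ≤ p := h0 ▸ hs_nonneg _
  have hr0 : 0 ≤ r := (hs_nonneg _).trans h01
  have hF0 : 0 ≤ F := hF ▸ traceNorm_nonneg _
  have hFp2 : F ^ 2 ≤ p * p := by
    have := fid_sq_le' Ψ (X false) (X true) (Y false) (Y true)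
    rwa [hF, h0, h1] at this
  have hFpos : 0 < F := by
    rcases hF0.lt_or_eq with h | h
    · exact h
    · exfalso
      rw [← h] at hpr
      nlinarith only [hpr, hp0, hr0]
  have hppos : 0 < p := by
    rcases hp0.lt_or_eq with h | h
    · exact h
    · exfalso
      rw [← h] at hFp2
      nlinarith only [hpr, hFp2, hp0, hr0]
  have hFp : F ≤ p := by
    refine le_of_sq_le_sq' ?_ hp0
    rw [sq p]
    exact hFp2
  -- choice of N
  have hκ : p * r / F ^ 2 < 1 := (div_lt_one (by positivity)).mpr hpr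
  obtain ⟨N, hN⟩ := exists_pow_lt_of_lt_one (by norm_num : (0 : ℝ) < 1 / 208) hκ
  have hN0 : 0 < N := by
    rcases Nat.eq_zero_or_pos N with h | h
    · exfalso
      rw [h, pow_zero] at hN
      norm_num at hN
    · exact h
  set φ : ℝ := (F / p) ^ N with hφ
  set θ : ℝ := (r / p) ^ N with hθ
  have hφ0 : 0 < φ := by (clear * - hFpos hppos; positivity)
  have hφ1 : φ ≤ 1 := pow_le_one₀ (by positivity) ((div_le_one hppos).mpr hFp)
  have hθ0 : 0 ≤ θ := by (clear * - hr0 hppos; positivity)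
  have hθφ : θ ≤ 1 / 208 * φ ^ 2 := by
    have e1 : θ = (p * r / F ^ 2) ^ N * φ ^ 2 := by
      rw [hθ, hφ, ← pow_mul, mul_comm N 2, pow_mul, ← mul_pow]
      congr 1
      (clear * - hFpos hppos; field_simp)
    rw [e1]
    exact mul_le_mul_of_nonneg_right hN.le (sq_nonneg φ)
  obtain ⟨L, hL0, hL⟩ := num_choice hφ0 hφ1 hθ0 hθφ
  refine ⟨N, L, hN0, hL0, ?_⟩
  -- the effects
  let MA : Bool → Matrix (Fin N → A) (Fin N → A) ℂ := fun x => piT fun _ => (X x)ᴴ * X x
  let MB : Bool → Matrix (Fin N → B) (Fin N → B) ℂ := fun x => piT fun _ => (Y x)ᴴ * Y x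
  have hMA : ∀ x, (MA x).PosSemidef := fun x =>
    piT_posSemidef fun _ => posSemidef_conjTranspose_mul_self _
  have hMB : ∀ x, (MB x).PosSemidef := fun x =>
    piT_posSemidef fun _ => posSemidef_conjTranspose_mul_self _
  have hMA' := (hMA true).add (hMA false)
  have hMB' := (hMB true).add (hMB false)
  set cA : ℝ := (1 + (MA true + MA false).trace.re)⁻¹ with hcA
  set cB : ℝ := (1 + (MB true + MB false).trace.re)⁻¹ with hcB
  have htA := re_trace_nonneg hMA'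
  have htB := re_trace_nonneg hMB'
  have hcA0 : 0 < cA := inv_pos.mpr (by linarith only [htA])
  have hcB0 : 0 < cB := inv_pos.mpr (by linarith only [htB])
  have hA1 : (1 - (cA : ℂ) • (MA true + MA false)).PosSemidef := by
    refine T1.one_sub_smul_posSemidef hMA' hcA0.le ?_
    rw [hcA, inv_mul_le_iff₀ (by linarith only [htA])]
    linarith only []
  have hB1 : (1 - (cB : ℂ) • (MB true + MB false)).PosSemidef := by
    refine T1.one_sub_smul_posSemidef hMB' hcB0.le ?_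
    rw [hcB, inv_mul_le_iff₀ (by linarith only [htB])]
    linarith only []
  clear_value cA cB
  let a : Bool → Matrix (Fin N → A) (Fin N → A) ℂ := fun x => (cA : ℂ) • MA x
  let b : Bool → Matrix (Fin N → B) (Fin N → B) ℂ := fun x => (cB : ℂ) • MB x
  set c : ℝ := cA * cB with hc
  have hc0 : 0 < c := mul_pos hcA0 hcB0
  have hev : ∀ x y, eve (copies N Ψ) (a x) (b y) =
      (c : ℂ) • piT (fun _ : Fin N => eve Ψ ((X x)ᴴ * X x) ((Y y)ᴴ * Y y)) := by
    intro x y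
    rw [T1.eve_smul_left, T1.eve_smul_right, eve_piT, smul_smul, hc, Complex.ofReal_mul]
  have hww : ∀ x y, ww (copies N Ψ) a b x y = c * hs ((X x ⊗ₖ Y y) * Ψ) ^ N := by
    intro x y
    rw [ww, hev, trace_smul, piT_trace, im_trace_eve Ψ (isHermitian_conjTranspose_mul_self _).eq
      (isHermitian_conjTranspose_mul_self _).eq, ← hs_eq_eve, Finset.prod_const, Finset.card_univ,
      Fintype.card_fin, smul_eq_mul, ← Complex.ofReal_pow, ← Complex.ofReal_mul, Complex.ofReal_re]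
  have hevp : ∀ x y, (eve (copies N Ψ) (a x) (b y)).PosSemidef := fun x y =>
    eve_posSemidef _ ((hMA x).smul (by exact_mod_cast hcA0.le))
      ((hMB y).smul (by exact_mod_cast hcB0.le))
  set u : ℝ := ww (copies N Ψ) a b true false + ww (copies N Ψ) a b false true with hu
  set t : ℝ := ww (copies N Ψ) a b true true + ww (copies N Ψ) a b true false +
    ww (copies N Ψ) a b false true + ww (copies N Ψ) a b false false with ht
  have hu0 : 0 ≤ u := by
    rw [hu, hww, hww]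
    have := hs_nonneg ((X true ⊗ₖ Y false) * Ψ)
    have := hs_nonneg ((X false ⊗ₖ Y true) * Ψ)
    (clear hΨ p r F h0 h1 h01 h10 hF hpr hdist hp0 hr0 hF0 hFp2 hFpos hppos hFp hκ hN hN0 φ hφ θ hθ hφ0 hφ1 hθ0 hθφ L hL0 hL MA MB hMA hMB hMA' hMB' hcA hcB htA htB hA1 hB1 a b hc hc0 hev hww hevp u hu t ht; positivity)
  have hpN : 0 < p ^ N := pow_pos hppos N
  have ht1 : 2 * c * p ^ N ≤ t := by
    have : t = c * p ^ N + c * p ^ N + u := by
      rw [ht, hu, hww true true, hww false false, h1, h0]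
      ring
    rw [this]
    linarith only [hu0]
  have ht0 : 0 < t := lt_of_lt_of_le (by (clear * - hcA0 hcB0 hppos; positivity)) ht1
  have hur : u ≤ 2 * c * r ^ N := by
    rw [hu, hww, hww]
    have e1 := pow_le_pow_left₀ (hs_nonneg ((X true ⊗ₖ Y false) * Ψ)) h10 N
    have e2 := pow_le_pow_left₀ (hs_nonneg ((X false ⊗ₖ Y true) * Ψ)) h01 N
    have e3 := mul_le_mul_of_nonneg_left e1 hc0.le
    have e4 := mul_le_mul_of_nonneg_left e2 hc0.le
    linarith only [e3, e4]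
  have hut : u / t ≤ θ := by
    rw [div_le_iff₀ ht0, hθ, div_pow]
    calc u ≤ 2 * c * r ^ N := hur
      _ = r ^ N / p ^ N * (2 * c * p ^ N) := by (clear * - hppos hc0; field_simp)
      _ ≤ r ^ N / p ^ N * t := mul_le_mul_of_nonneg_left ht1 (by (clear * - hr0 hppos; positivity))
  set q : ℝ := c * (2 * √((p ^ N) ^ 2 - (F ^ N) ^ 2)) + u with hq
  have hqt : q / t ≤ √(1 - φ ^ 2) + θ := by
    have e1 : √((p ^ N) ^ 2 - (F ^ N) ^ 2) = p ^ N * √(1 - φ ^ 2) := by
      have : (p ^ N) ^ 2 - (F ^ N) ^ 2 = (p ^ N) ^ 2 * (1 - φ ^ 2) := by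
        rw [hφ, div_pow]
        (clear * - hppos; field_simp)
      rw [this, Real.sqrt_mul (sq_nonneg _), Real.sqrt_sq hpN.le]
    rw [hq, add_div, e1]
    refine add_le_add ?_ hut
    rw [div_le_iff₀ ht0]
    calc c * (2 * (p ^ N * √(1 - φ ^ 2))) = √(1 - φ ^ 2) * (2 * c * p ^ N) := by ring
      _ ≤ √(1 - φ ^ 2) * t := mul_le_mul_of_nonneg_left ht1 (Real.sqrt_nonneg _)
  have hq0 : 0 ≤ q := by
    rw [hq]
    (clear * - hcA0 hcB0 hu0; positivity)
  refine xor_pos L (copies N Ψ) (copies_trace L _ (copies_trace N Ψ hΨ)) (a := a) (b := b)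
    (fun x => (hMA x).smul (by exact_mod_cast hcA0.le))
    (fun x => (hMB x).smul (by exact_mod_cast hcB0.le)) ?_ ?_ (t := t) (u := u) (q := q)
    rfl ht0 rfl ?_ ?_
  · have : a true + a false = (cA : ℂ) • (MA true + MA false) := by
      simp only [a, smul_add]
    rw [this]
    exact hA1
  · have : b true + b false = (cB : ℂ) • (MB true + MB false) := by
      simp only [b, smul_add]
    rw [this]
    exact hB1
  · have e1 : eve (copies N Ψ) (a true - a false) (b true + b false) =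
        (eve (copies N Ψ) (a true) (b true) - eve (copies N Ψ) (a false) (b false)) +
        (eve (copies N Ψ) (a true) (b false) - eve (copies N Ψ) (a false) (b true)) := by
      rw [T1.eve_sub_left, T1.eve_add_right, T1.eve_add_right]
      abel
    rw [e1]
    refine (traceNorm_add_le _ _).trans (add_le_add ?_ ?_)
    · rw [hev, hev, ← smul_sub, traceNorm_smul, Complex.norm_real, Real.norm_of_nonneg hc0.le]
      exact mul_le_mul_of_nonneg_left (hdist N) hc0.le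
    · refine (traceNorm_sub_le _ _).trans ?_
      rw [traceNorm_of_posSemidef (hevp _ _), traceNorm_of_posSemidef (hevp _ _)]
      exact le_rfl
  · refine lt_of_le_of_lt ?_ hL
    have hqt0 : 0 ≤ q / t := div_nonneg hq0 ht0.le
    have e1 : (q / t) ^ L ≤ (√(1 - φ ^ 2) + θ) ^ L := pow_le_pow_left₀ hqt0 hqt L
    have e2 : √(L * (u / t)) ≤ √(L * θ) :=
      Real.sqrt_le_sqrt (mul_le_mul_of_nonneg_left hut (Nat.cast_nonneg L))
    have e3 : 0 ≤ (q / t) ^ L := pow_nonneg hqt0 L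
    have e4 : 0 ≤ √(L * (u / t)) := Real.sqrt_nonneg _
    exact mul_le_mul (by linarith only [e1]) (by linarith only [e2]) (by linarith only [e4]) (by linarith only [e1, e3])

theorem hs_smul' (c : ℂ) (L : Matrix C E ℂ) : hs (c • L) = ‖c‖ ^ 2 * hs L := by
  simp only [hs, Matrix.smul_apply, smul_eq_mul, norm_mul, Finset.mul_sum, mul_pow]

theorem hs_scale (Ψ : Matrix (A × B) E ℂ) (α β : ℝ) (X : Matrix C A ℂ) (Y : Matrix D B ℂ) :
    hs ((((α : ℂ) • X) ⊗ₖ ((β : ℂ) • Y)) * Ψ) = α ^ 2 * β ^ 2 * hs ((X ⊗ₖ Y) * Ψ) := by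
  rw [smul_kronecker, kronecker_smul, Matrix.smul_mul, Matrix.smul_mul, hs_smul', hs_smul',
    Complex.norm_real, Complex.norm_real, Real.norm_eq_abs, Real.norm_eq_abs, sq_abs, sq_abs]
  ring

theorem tn_scale (ρ : Matrix (A × B) (A × B) ℂ) (α β γ δ : ℝ) (X X' : Matrix C A ℂ)
    (Y Y' : Matrix D B ℂ) :
    traceNorm ((((α : ℂ) • X) ⊗ₖ ((β : ℂ) • Y)) * ρ * (((γ : ℂ) • X') ⊗ₖ ((δ : ℂ) • Y'))ᴴ) =
      |α * β * γ * δ| * traceNorm ((X ⊗ₖ Y) * ρ * (X' ⊗ₖ Y')ᴴ) := by
  have : (((α : ℂ) • X) ⊗ₖ ((β : ℂ) • Y)) * ρ * (((γ : ℂ) • X') ⊗ₖ ((δ : ℂ) • Y'))ᴴ =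
      ((α * β * γ * δ : ℝ) : ℂ) • ((X ⊗ₖ Y) * ρ * (X' ⊗ₖ Y')ᴴ) := by
    simp only [smul_kronecker, kronecker_smul, conjTranspose_smul, Matrix.smul_mul,
      Matrix.mul_smul, smul_smul, RCLike.star_def, map_mul, Complex.conj_ofReal]
    congr 1
    push_cast
    ring
  rw [this, traceNorm_smul, Complex.norm_real, Real.norm_eq_abs]

/-- If the test is passed by rectangular filters, then key can be distilled. -/
theorem KD_pos_of_test' (Ψ : Matrix (A × B) E ℂ) (hΨ : (Ψ * Ψᴴ).trace = 1)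
    (X₀ X₁ : Matrix C A ℂ) (Y₀ Y₁ : Matrix D B ℂ)
    (h : hs ((X₀ ⊗ₖ Y₀) * Ψ) * hs ((X₀ ⊗ₖ Y₁) * Ψ) * hs ((X₁ ⊗ₖ Y₀) * Ψ) * hs ((X₁ ⊗ₖ Y₁) * Ψ) <
      traceNorm ((X₀ ⊗ₖ Y₀) * (Ψ * Ψᴴ) * (X₁ ⊗ₖ Y₁)ᴴ) ^ 4) :
    ∃ N L, 0 < N ∧ 0 < L ∧ 0 < KD (copies L (copies N Ψ)) := by
  obtain ⟨α, γ, δ, p, r, hα, hγ, hδ, hprod, h00, h11, h01, h10, hpr⟩ :=
    scale (hs_nonneg ((X₀ ⊗ₖ Y₀) * Ψ)) (hs_nonneg ((X₀ ⊗ₖ Y₁) * Ψ))
      (hs_nonneg ((X₁ ⊗ₖ Y₀) * Ψ)) (hs_nonneg ((X₁ ⊗ₖ Y₁) * Ψ))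
      (traceNorm_nonneg _) (fid_sq_le' Ψ X₀ X₁ Y₀ Y₁) h
  refine KD_pos_core' Ψ hΨ (fun x => if x then (γ : ℂ) • X₁ else (α : ℂ) • X₀)
    (fun x => if x then (δ : ℂ) • Y₁ else ((1 : ℝ) : ℂ) • Y₀) (p := p) (r := r) ?_ ?_ ?_ ?_ rfl ?_
  · simp only [Bool.false_eq_true, if_false]
    rw [hs_scale, one_pow, mul_one, h00]
  · simp only [if_true]
    rw [hs_scale, h11]
  · simp only [if_true, Bool.false_eq_true, if_false]
    rw [hs_scale]
    exact h01
  · simp only [if_true, Bool.false_eq_true, if_false]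
    rw [hs_scale, one_pow, mul_one]
    exact h10
  · simp only [if_true, Bool.false_eq_true, if_false]
    rw [tn_scale, mul_one, hprod, abs_one, one_mul]
    exact hpr

end Xor

end Vale.Agent.P372

end

section

/-! Local filters: if the state after a local filter has positive distillable key, then so has the
state itself. -/

open Matrix Kronecker
open scoped ComplexOrder MatrixOrder

set_option linter.unusedSectionVars false

namespace Vale.Agent.P372

variable {A B C D E : Type} [Fintype A] [DecidableEq A] [Fintype B] [DecidableEq B]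
  [Fintype C] [DecidableEq C] [Fintype D] [DecidableEq D] [Fintype E] [DecidableEq E]

/-- The test with rectangular operators on `n` copies. -/
theorem pos_of_rect (Ψ : Matrix (A × B) E ℂ) (hΨ : (Ψ * Ψᴴ).trace = 1) {n : ℕ} (hn : 1 ≤ n)
    (X₀ X₁ : Matrix C (Fin n → A) ℂ) (Y₀ Y₁ : Matrix D (Fin n → B) ℂ)
    (h : hs ((X₀ ⊗ₖ Y₀) * copies n Ψ) * hs ((X₀ ⊗ₖ Y₁) * copies n Ψ) *
      hs ((X₁ ⊗ₖ Y₀) * copies n Ψ) * hs ((X₁ ⊗ₖ Y₁) * copies n Ψ) <
      traceNorm ((X₀ ⊗ₖ Y₀) * (copies n Ψ * (copies n Ψ)ᴴ) * (X₁ ⊗ₖ Y₁)ᴴ) ^ 4) :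
    0 < distillableKey Ψ := by
  rw [distillableKey_eq_KD]
  have hn' := trace_copies n Ψ hΨ
  obtain ⟨N, L, hN, hL, h2⟩ := Xor.KD_pos_of_test' (copies n Ψ) hn' X₀ X₁ Y₀ Y₁ h
  have h3 := KD_pos_of_copies hL _ (trace_copies N _ hn') h2
  have h4 := KD_pos_of_copies hN _ hn' h3
  exact KD_pos_of_copies hn _ hΨ h4

theorem copies_filter (n : ℕ) (Ψ : Matrix (A × B) E ℂ) (X : Matrix C A ℂ) (Y : Matrix D B ℂ) :
    copies n ((X ⊗ₖ Y) * Ψ) =
      (piT (fun _ : Fin n => X) ⊗ₖ piT (fun _ : Fin n => Y)) * copies n Ψ := by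
  have h1 : ∀ (p : (Fin n → C) × (Fin n → D)) (e : Fin n → E), copies n ((X ⊗ₖ Y) * Ψ) p e =
      ∏ i, ((X ⊗ₖ Y) * Ψ) (p.1 i, p.2 i) (e i) := fun _ _ => rfl
  have h2 : ∀ (q : (Fin n → A) × (Fin n → B)) (e : Fin n → E), copies n Ψ q e =
      ∏ i, Ψ (q.1 i, q.2 i) (e i) := fun _ _ => rfl
  ext p e
  rw [h1, mul_apply]
  simp only [h2, kroneckerMap_apply, piT_apply, mul_apply]
  rw [Finset.prod_univ_sum]
  simp only [Fintype.piFinset_univ]
  rw [← Equiv.sum_comp (Equiv.arrowProdEquivProdArrow (Fin n) (fun _ => A) (fun _ => B)).symm]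
  refine Finset.sum_congr rfl fun q _ => ?_
  rw [Finset.prod_mul_distrib, Finset.prod_mul_distrib]
  rfl

theorem weight_hs (Ψ : Matrix (A × B) E ℂ) (X : Matrix A A ℂ) (Y : Matrix B B ℂ) :
    weight (Ψ * Ψᴴ) X Y = hs ((X ⊗ₖ Y) * Ψ) := by
  rw [← hs_conjTranspose, hs_eq_re, conjTranspose_conjTranspose, weight, conjTranspose_mul]
  simp only [Matrix.mul_assoc]

/-- If the filtered state has positive distillable key, then so has the state. -/
theorem pos_of_filter (Ψ : Matrix (A × B) E ℂ) (hΨ : (Ψ * Ψᴴ).trace = 1) (X : Matrix C A ℂ)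
    (Y : Matrix D B ℂ) (h : 0 < distillableKey ((X ⊗ₖ Y) * Ψ)) : 0 < distillableKey Ψ := by
  obtain ⟨n, hn, X₀, X₁, Y₀, Y₁, h1⟩ := keyTest_of_pos _ h
  rw [← copies_mul] at h1
  set P := piT (fun _ : Fin n => X) with hP
  set Q := piT (fun _ : Fin n => Y) with hQ
  have hw : ∀ (X' : Matrix (Fin n → C) (Fin n → C) ℂ) (Y' : Matrix (Fin n → D) (Fin n → D) ℂ),
      (X' ⊗ₖ Y') * copies n ((X ⊗ₖ Y) * Ψ) = ((X' * P) ⊗ₖ (Y' * Q)) * copies n Ψ := by
    intro X' Y'
    rw [copies_filter, ← Matrix.mul_assoc, ← mul_kronecker_mul]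
  refine pos_of_rect Ψ hΨ hn (X₀ * P) (X₁ * P) (Y₀ * Q) (Y₁ * Q) ?_
  rw [weight_hs, weight_hs, weight_hs, weight_hs, hw, hw, hw, hw] at h1
  have h3 : (X₀ ⊗ₖ Y₀) * (copies n ((X ⊗ₖ Y) * Ψ) * (copies n ((X ⊗ₖ Y) * Ψ))ᴴ) * (X₁ ⊗ₖ Y₁)ᴴ =
      ((X₀ * P) ⊗ₖ (Y₀ * Q)) * (copies n Ψ * (copies n Ψ)ᴴ) * ((X₁ * P) ⊗ₖ (Y₁ * Q))ᴴ := by
    calc (X₀ ⊗ₖ Y₀) * (copies n ((X ⊗ₖ Y) * Ψ) * (copies n ((X ⊗ₖ Y) * Ψ))ᴴ) * (X₁ ⊗ₖ Y₁)ᴴ =
        ((X₀ ⊗ₖ Y₀) * copies n ((X ⊗ₖ Y) * Ψ)) * ((X₁ ⊗ₖ Y₁) * copies n ((X ⊗ₖ Y) * Ψ))ᴴ := by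
          rw [conjTranspose_mul]
          simp only [Matrix.mul_assoc]
      _ = _ := by
          rw [hw, hw, conjTranspose_mul]
          simp only [Matrix.mul_assoc]
  rwa [h3] at h1

end Vale.Agent.P372

end

section

/-! The three-cycle criterion in all dimensions. -/

open Matrix Kronecker
open scoped ComplexOrder MatrixOrder

set_option linter.unusedSectionVars false

namespace Vale.Agent.P372

variable {A B E : Type} [Fintype A] [DecidableEq A] [Fintype B] [DecidableEq B]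
  [Fintype E] [DecidableEq E]

/-- The matrix with rows `star (a i)`. -/
def bras (a : Fin 3 → A → ℂ) : Matrix (Fin 3) A ℂ := fun i x => star (a i x)

theorem bras_apply (a : Fin 3 → A → ℂ) (b : Fin 3 → B → ℂ) (ρ : Matrix (A × B) (A × B) ℂ)
    (i j k l : Fin 3) :
    ((bras a ⊗ₖ bras b) * ρ * (bras a ⊗ₖ bras b)ᴴ) (i, j) (k, l) =
      star (prodVec (a i) (b j)) ⬝ᵥ (ρ *ᵥ prodVec (a k) (b l)) := by
  rw [Matrix.mul_assoc, mul_apply]
  simp only [dotProduct]
  refine Finset.sum_congr rfl fun p _ => ?_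
  have h1 : (bras a ⊗ₖ bras b) (i, j) p = star (prodVec (a i) (b j)) p := by
    simp only [kroneckerMap_apply, bras, prodVec, Pi.star_apply, star_mul']
  rw [h1]
  congr 1
  rw [mul_apply]
  simp only [mulVec, dotProduct]
  refine Finset.sum_congr rfl fun q _ => ?_
  congr 1
  rw [conjTranspose_apply]
  simp only [kroneckerMap_apply, bras, prodVec, star_mul', star_star]

theorem diag_eq_re {M : Matrix A A ℂ} (h : M.PosSemidef) (i : A) : M i i = ((M i i).re : ℂ) :=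
  Complex.ext rfl (Complex.le_def.mp (h.diag_nonneg (i := i))).2.symm

/-- An unnormalised vector with three coherent levels and a light cycle. -/
theorem cycle_scaled (Φ : Matrix (Fin 3 × Fin 3) E ℂ) {m : ℝ} (hm : 0 < m)
    (hc : ∀ i j, (Φ * Φᴴ) (i, i) (j, j) = (m : ℂ))
    (hcyc : ∏ i, ((Φ * Φᴴ) (i, i + 1) (i, i + 1)).re < m ^ 3) :
    ∃ r : ℝ, (((r : ℂ) • Φ) * ((r : ℂ) • Φ)ᴴ).trace = 1 ∧ 0 < distillableKey ((r : ℂ) • Φ) := by
  have hpsd := posSemidef_self_mul_conjTranspose Φ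
  obtain ⟨q, hq⟩ : ∃ q : Fin 3 → Fin 3 → ℝ, ∀ i j, q i j = ((Φ * Φᴴ) (i, j) (i, j)).re :=
    ⟨_, fun _ _ => rfl⟩
  have hd : ∀ i j, (Φ * Φᴴ) (i, j) (i, j) = (q i j : ℂ) := by
    intro i j
    rw [hq]
    exact diag_eq_re hpsd (i, j)
  have hq0 : ∀ i j, 0 ≤ q i j := by
    intro i j
    rw [hq]
    exact (Complex.le_def.mp (hpsd.diag_nonneg (i := (i, j)))).1
  have hqm : q 0 0 = m := by
    rw [hq, hc, Complex.ofReal_re]
  have hsum : (Φ * Φᴴ).trace = ((∑ p : Fin 3 × Fin 3, q p.1 p.2 : ℝ) : ℂ) := by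
    rw [trace]
    push_cast
    exact Finset.sum_congr rfl fun p _ => hd p.1 p.2
  obtain ⟨s, hs⟩ : ∃ s : ℝ, s = ∑ p : Fin 3 × Fin 3, q p.1 p.2 := ⟨_, rfl⟩
  rw [← hs] at hsum
  have hs0 : 0 < s := by
    refine lt_of_lt_of_le hm ?_
    rw [← hqm, hs]
    exact Finset.single_le_sum (f := fun p : Fin 3 × Fin 3 => q p.1 p.2)
      (fun p _ => hq0 p.1 p.2) (Finset.mem_univ ((0 : Fin 3), (0 : Fin 3)))
  have hrr : (√s)⁻¹ * (√s)⁻¹ = s⁻¹ := by
    rw [← mul_inv, Real.mul_self_sqrt hs0.le]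
  refine ⟨(√s)⁻¹, ?_⟩
  have hΦΦ : ((((√s)⁻¹ : ℝ) : ℂ) • Φ) * ((((√s)⁻¹ : ℝ) : ℂ) • Φ)ᴴ = ((s⁻¹ : ℝ) : ℂ) • (Φ * Φᴴ) := by
    rw [conjTranspose_smul, RCLike.star_def, Complex.conj_ofReal, Matrix.smul_mul,
      Matrix.mul_smul, smul_smul, ← Complex.ofReal_mul, hrr]
  have htr : (((((√s)⁻¹ : ℝ) : ℂ) • Φ) * ((((√s)⁻¹ : ℝ) : ℂ) • Φ)ᴴ).trace = 1 := by
    rw [hΦΦ, trace_smul, hsum, smul_eq_mul, ← Complex.ofReal_mul, inv_mul_cancel₀ hs0.ne',
      Complex.ofReal_one]
  refine ⟨htr, ?_⟩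
  refine pos_of_cycle _ htr (α := id) (β := id) Function.injective_id
    Function.injective_id (m := s⁻¹ * m) (mul_pos (inv_pos.mpr hs0) hm)
    (fun i j => s⁻¹ * q i j) ?_ ?_ ?_
  · intro i j
    rw [hΦΦ, Matrix.smul_apply, smul_eq_mul, id_eq, id_eq, hd, Complex.ofReal_mul]
  · intro i j
    rw [hΦΦ, Matrix.smul_apply, smul_eq_mul, id_eq, id_eq, hc, Complex.ofReal_mul]
  · rw [Finset.prod_mul_distrib, Finset.prod_const, Finset.card_univ, Fintype.card_fin, mul_pow]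
    refine mul_lt_mul_of_pos_left ?_ (by (clear * - hs0; positivity))
    refine lt_of_eq_of_lt (Finset.prod_congr rfl fun i _ => ?_) hcyc
    rw [hq]

/-- Three product vectors with the same image under the state, and a light cycle. -/
theorem cycle_criterion (Ψ : Matrix (A × B) E ℂ) (hΨ : (Ψ * Ψᴴ).trace = 1)
    (a : Fin 3 → A → ℂ) (b : Fin 3 → B → ℂ) {m : ℝ} (hm : 0 < m)
    (hc : ∀ i j, star (prodVec (a i) (b i)) ⬝ᵥ ((Ψ * Ψᴴ) *ᵥ prodVec (a j) (b j)) = (m : ℂ))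
    (hcyc : ∏ i, (star (prodVec (a i) (b (i + 1))) ⬝ᵥ
      ((Ψ * Ψᴴ) *ᵥ prodVec (a i) (b (i + 1)))).re < m ^ 3) : 0 < distillableKey Ψ := by
  have hΦρ : ∀ i j k l, (((bras a ⊗ₖ bras b) * Ψ) * ((bras a ⊗ₖ bras b) * Ψ)ᴴ) (i, j) (k, l) =
      star (prodVec (a i) (b j)) ⬝ᵥ ((Ψ * Ψᴴ) *ᵥ prodVec (a k) (b l)) := by
    intro i j k l
    rw [← bras_apply, conjTranspose_mul]
    simp only [Matrix.mul_assoc]
  obtain ⟨r, _, h2⟩ := cycle_scaled ((bras a ⊗ₖ bras b) * Ψ) hm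
    (fun i j => by rw [hΦρ]; exact hc i j) (by
      refine lt_of_eq_of_lt (Finset.prod_congr rfl fun i _ => ?_) hcyc
      rw [hΦρ])
  refine pos_of_filter Ψ hΨ ((r : ℂ) • bras a) (bras b) ?_
  rw [smul_kronecker, Matrix.smul_mul]
  exact h2

/-- The kernel form: three product vectors with the same image under the state. -/
theorem cycle_criterion' (Ψ : Matrix (A × B) E ℂ) (hΨ : (Ψ * Ψᴴ).trace = 1)
    (a : Fin 3 → A → ℂ) (b : Fin 3 → B → ℂ)
    (hker : ∀ i j, (Ψ * Ψᴴ) *ᵥ prodVec (a i) (b i) = (Ψ * Ψᴴ) *ᵥ prodVec (a j) (b j))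
    (hcyc : ∏ i, (star (prodVec (a i) (b (i + 1))) ⬝ᵥ
      ((Ψ * Ψᴴ) *ᵥ prodVec (a i) (b (i + 1)))).re <
      ∏ i, (star (prodVec (a i) (b i)) ⬝ᵥ ((Ψ * Ψᴴ) *ᵥ prodVec (a i) (b i))).re) :
    0 < distillableKey Ψ := by
  have hpsd := posSemidef_self_mul_conjTranspose Ψ
  have hnn : ∀ v : A × B → ℂ, 0 ≤ star v ⬝ᵥ ((Ψ * Ψᴴ) *ᵥ v) := fun v =>
    hpsd.dotProduct_mulVec_nonneg v
  have hherm : ∀ u w : A × B → ℂ, star u ⬝ᵥ ((Ψ * Ψᴴ) *ᵥ w) =
      star (star w ⬝ᵥ ((Ψ * Ψᴴ) *ᵥ u)) := by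
    intro u w
    rw [star_dotProduct, star_mulVec, hpsd.1.eq, ← dotProduct_mulVec]
  have hall : ∀ i j, star (prodVec (a i) (b i)) ⬝ᵥ ((Ψ * Ψᴴ) *ᵥ prodVec (a j) (b j)) =
      star (prodVec (a 0) (b 0)) ⬝ᵥ ((Ψ * Ψᴴ) *ᵥ prodVec (a 0) (b 0)) := by
    intro i j
    rw [hker j 0, hherm (prodVec (a i) (b i)), hker i 0, ← hherm]
  have hnn0 := hnn (prodVec (a 0) (b 0))
  obtain ⟨m, hm⟩ : ∃ m : ℝ, m = (star (prodVec (a 0) (b 0)) ⬝ᵥ
    ((Ψ * Ψᴴ) *ᵥ prodVec (a 0) (b 0))).re := ⟨_, rfl⟩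
  have hm' : star (prodVec (a 0) (b 0)) ⬝ᵥ ((Ψ * Ψᴴ) *ᵥ prodVec (a 0) (b 0)) = (m : ℂ) := by
    rw [hm]
    exact Complex.ext rfl (Complex.le_def.mp hnn0).2.symm
  have hall' : ∀ i j, star (prodVec (a i) (b i)) ⬝ᵥ ((Ψ * Ψᴴ) *ᵥ prodVec (a j) (b j)) =
      (m : ℂ) := fun i j => (hall i j).trans hm'
  have hprod : ∏ i, (star (prodVec (a i) (b i)) ⬝ᵥ ((Ψ * Ψᴴ) *ᵥ prodVec (a i) (b i))).re =
      m ^ 3 := by
    rw [Finset.prod_congr rfl (fun i _ => by rw [hall' i i, Complex.ofReal_re]),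
      Finset.prod_const, Finset.card_univ, Fintype.card_fin]
  rw [hprod] at hcyc
  have hm0 : 0 < m := by
    have h1 : 0 ≤ ∏ i, (star (prodVec (a i) (b (i + 1))) ⬝ᵥ
      ((Ψ * Ψᴴ) *ᵥ prodVec (a i) (b (i + 1)))).re :=
      Finset.prod_nonneg fun i _ => (Complex.le_def.mp (hnn _)).1
    have h2 : 0 ≤ m := by rw [hm]; exact (Complex.le_def.mp hnn0).1
    rcases h2.lt_or_eq with h3 | h3
    · exact h3
    · rw [← h3] at hcyc
      norm_num at hcyc
      linarith only [h1, hcyc]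
  exact cycle_criterion Ψ hΨ a b hm0 hall' hcyc

end Vale.Agent.P372

end

section

/-! Tests about which Eve learns nothing. -/

open Matrix Kronecker
open scoped ComplexOrder MatrixOrder

set_option linter.unusedSectionVars false

namespace Vale.Agent.P372

variable {A B C D E : Type} [Fintype A] [DecidableEq A] [Fintype B] [DecidableEq B]
  [Fintype C] [DecidableEq C] [Fintype D] [DecidableEq D] [Fintype E] [DecidableEq E]

/-- The one-copy test with rectangular operators. -/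
theorem pos_of_rect_one (Ψ : Matrix (A × B) E ℂ) (hΨ : (Ψ * Ψᴴ).trace = 1)
    (X₀ X₁ : Matrix C A ℂ) (Y₀ Y₁ : Matrix D B ℂ)
    (h : hs ((X₀ ⊗ₖ Y₀) * Ψ) * hs ((X₀ ⊗ₖ Y₁) * Ψ) *
      hs ((X₁ ⊗ₖ Y₀) * Ψ) * hs ((X₁ ⊗ₖ Y₁) * Ψ) <
      traceNorm ((X₀ ⊗ₖ Y₀) * (Ψ * Ψᴴ) * (X₁ ⊗ₖ Y₁)ᴴ) ^ 4) :
    0 < distillableKey Ψ := by
  rw [distillableKey_eq_KD]
  obtain ⟨N, L, hN, hL, h2⟩ := Xor.KD_pos_of_test' Ψ hΨ X₀ X₁ Y₀ Y₁ h
  have h3 := KD_pos_of_copies hL _ (trace_copies N _ hΨ) h2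
  exact KD_pos_of_copies hN _ hΨ h3

theorem compress_eq_zero (Ψ : Matrix (A × B) E ℂ) {M : Matrix (A × B) (A × B) ℂ} (hM : Mᴴ = M)
    (h : (Ψ * Ψᴴ) * M * (Ψ * Ψᴴ) = 0) : Ψᴴ * M * Ψ = 0 := by
  have h1 : Ψᴴ * (M * (Ψ * Ψᴴ)) = 0 := by
    rw [← self_mul_conjTranspose_mul_eq_zero, ← Matrix.mul_assoc]
    exact h
  have h2 : (Ψᴴ * (M * (Ψ * Ψᴴ)))ᴴ = 0 := by rw [h1, conjTranspose_zero]
  have h3 : (Ψ * Ψᴴ) * (M * Ψ) = 0 := by
    rw [conjTranspose_mul, conjTranspose_mul, conjTranspose_mul, conjTranspose_conjTranspose,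
      hM] at h2
    rw [← h2]
    simp only [Matrix.mul_assoc]
  rw [self_mul_conjTranspose_mul_eq_zero] at h3
  rw [Matrix.mul_assoc]
  exact h3

/-- If the two coinciding outcomes look the same to Eve, and the other two outcomes are less
likely, then key can be distilled. -/
theorem pos_of_zero_info (Ψ : Matrix (A × B) E ℂ) (hΨ : (Ψ * Ψᴴ).trace = 1)
    (X₀ X₁ : Matrix C A ℂ) (Y₀ Y₁ : Matrix D B ℂ)
    (h0 : (Ψ * Ψᴴ) * ((X₀ᴴ * X₀) ⊗ₖ (Y₀ᴴ * Y₀)) * (Ψ * Ψᴴ) =
      (Ψ * Ψᴴ) * ((X₁ᴴ * X₁) ⊗ₖ (Y₁ᴴ * Y₁)) * (Ψ * Ψᴴ))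
    (h : hs ((X₀ ⊗ₖ Y₁) * Ψ) * hs ((X₁ ⊗ₖ Y₀) * Ψ) < hs ((X₀ ⊗ₖ Y₀) * Ψ) ^ 2) :
    0 < distillableKey Ψ := by
  have hherm : ((X₀ᴴ * X₀) ⊗ₖ (Y₀ᴴ * Y₀) - (X₁ᴴ * X₁) ⊗ₖ (Y₁ᴴ * Y₁))ᴴ =
      (X₀ᴴ * X₀) ⊗ₖ (Y₀ᴴ * Y₀) - (X₁ᴴ * X₁) ⊗ₖ (Y₁ᴴ * Y₁) := by
    rw [conjTranspose_sub, conjTranspose_kronecker, conjTranspose_kronecker]
    simp only [conjTranspose_mul, conjTranspose_conjTranspose]
  have h1 := compress_eq_zero Ψ hherm (by
    rw [Matrix.mul_sub, Matrix.sub_mul, h0, sub_self])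
  have hgram : ∀ (X : Matrix C A ℂ) (Y : Matrix D B ℂ), ((X ⊗ₖ Y) * Ψ)ᴴ * ((X ⊗ₖ Y) * Ψ) =
      Ψᴴ * ((Xᴴ * X) ⊗ₖ (Yᴴ * Y)) * Ψ := by
    intro X Y
    rw [conjTranspose_mul, mul_kronecker_mul, ← conjTranspose_kronecker]
    simp only [Matrix.mul_assoc]
  have heq : ((X₀ ⊗ₖ Y₀) * Ψ)ᴴ * ((X₀ ⊗ₖ Y₀) * Ψ) = ((X₁ ⊗ₖ Y₁) * Ψ)ᴴ * ((X₁ ⊗ₖ Y₁) * Ψ) := by
    rw [hgram, hgram]
    rw [Matrix.mul_sub, Matrix.sub_mul] at h1
    exact sub_eq_zero.mp h1
  have hp : hs ((X₁ ⊗ₖ Y₁) * Ψ) = hs ((X₀ ⊗ₖ Y₀) * Ψ) := by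
    rw [hs_eq_re, hs_eq_re, heq]
  have hF := fidelity_ge ((X₀ ⊗ₖ Y₀) * Ψ) ((X₁ ⊗ₖ Y₁) * Ψ)
  rw [heq, sub_self, traceNorm_zero, ← hs_eq_re, hp] at hF
  have e : (X₀ ⊗ₖ Y₀) * Ψ * ((X₁ ⊗ₖ Y₁) * Ψ)ᴴ = (X₀ ⊗ₖ Y₀) * (Ψ * Ψᴴ) * (X₁ ⊗ₖ Y₁)ᴴ := by
    rw [conjTranspose_mul]
    simp only [Matrix.mul_assoc]
  rw [e] at hF
  refine pos_of_rect_one Ψ hΨ X₀ X₁ Y₀ Y₁ ?_
  rw [hp]
  set p := hs ((X₀ ⊗ₖ Y₀) * Ψ) with hpdef
  have hp0 : 0 ≤ p := hs_nonneg _
  have hF' : p ≤ traceNorm ((X₀ ⊗ₖ Y₀) * (Ψ * Ψᴴ) * (X₁ ⊗ₖ Y₁)ᴴ) := by linarith only [hF]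
  have hpp : 0 < p ^ 2 :=
    lt_of_le_of_lt (mul_nonneg (hs_nonneg _) (hs_nonneg _)) h
  calc p * hs ((X₀ ⊗ₖ Y₁) * Ψ) * hs ((X₁ ⊗ₖ Y₀) * Ψ) * p =
        p ^ 2 * (hs ((X₀ ⊗ₖ Y₁) * Ψ) * hs ((X₁ ⊗ₖ Y₀) * Ψ)) := by ring
    _ < p ^ 2 * p ^ 2 := mul_lt_mul_of_pos_left h hpp
    _ = p ^ 4 := by ring
    _ ≤ _ := pow_le_pow_left₀ hp0 hF' 4

end Vale.Agent.P372

end

section

/-! States of a qubit and a four-level system with translation symmetry. -/

open Matrix Kronecker Filter Topology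
open scoped ComplexOrder MatrixOrder

set_option linter.unusedSectionVars false

namespace Vale.Agent.P372

variable {A B E K : Type} [Fintype A] [DecidableEq A] [Fintype B] [DecidableEq B]
  [Fintype E] [DecidableEq E] [DecidableEq K]

/-- The diagonal matrix of the square roots. -/
noncomputable def sqrtDiag (a : A → ℝ) : Matrix A A ℂ := diagonal fun x => (√(a x) : ℂ)

theorem sqrtDiag_mul (a : A → ℝ) (ha : ∀ x, 0 ≤ a x) :
    (sqrtDiag a)ᴴ * sqrtDiag a = diagonal fun x => (a x : ℂ) := by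
  rw [sqrtDiag, diagonal_conjTranspose, diagonal_mul_diagonal]
  congr 1
  ext x
  rw [Pi.star_apply, RCLike.star_def, Complex.conj_ofReal, ← Complex.ofReal_mul,
    Real.mul_self_sqrt (ha x)]

theorem hs_sqrtDiag (Ψ : Matrix (A × B) E ℂ) (a : A → ℝ) (b : B → ℝ) (ha : ∀ x, 0 ≤ a x)
    (hb : ∀ x, 0 ≤ b x) : hs ((sqrtDiag a ⊗ₖ sqrtDiag b) * Ψ) =
      ∑ p : A × B, a p.1 * b p.2 * ((Ψ * Ψᴴ) p p).re := by
  rw [hs_eq_re, conjTranspose_mul, conjTranspose_kronecker]
  have h1 : Ψᴴ * ((sqrtDiag a)ᴴ ⊗ₖ (sqrtDiag b)ᴴ) * ((sqrtDiag a ⊗ₖ sqrtDiag b) * Ψ) =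
      Ψᴴ * (((sqrtDiag a)ᴴ * sqrtDiag a) ⊗ₖ ((sqrtDiag b)ᴴ * sqrtDiag b)) * Ψ := by
    rw [mul_kronecker_mul]
    simp only [Matrix.mul_assoc]
  rw [h1, sqrtDiag_mul a ha, sqrtDiag_mul b hb, diagonal_kronecker_diagonal, trace_mul_comm,
    ← Matrix.mul_assoc, trace_mul_comm, trace, Complex.re_sum]
  refine Finset.sum_congr rfl fun p _ => ?_
  rw [diag_apply, diagonal_mul, ← Complex.ofReal_mul, Complex.re_ofReal_mul]

/-- A state with one coherent block for each value of a label. -/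
theorem block_zero {κ : A × B → K} {w : K → ℂ} {ρ : Matrix (A × B) (A × B) ℂ}
    (hρ : ∀ p q, ρ p q = if κ p = κ q then w (κ p) else 0) {d : A × B → ℂ}
    (hd : ∀ p, ∑ r, (if κ p = κ r then d r else 0) = 0) :
    ρ * diagonal d * ρ = 0 := by
  ext p q
  rw [mul_apply]
  simp only [mul_diagonal, hρ, Matrix.zero_apply]
  by_cases h : κ p = κ q
  · have h1 : ∀ r, (if κ p = κ r then w (κ p) else 0) * d r * (if κ r = κ q then w (κ r) else 0) =
        w (κ p) * w (κ p) * (if κ p = κ r then d r else 0) := by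
      intro r
      by_cases h2 : κ p = κ r
      · rw [if_pos h2, if_pos (h2.symm.trans h), if_pos h2, ← h2]
        ring
      · rw [if_neg h2, if_neg h2]
        ring
    rw [Finset.sum_congr rfl fun r _ => h1 r, ← Finset.mul_sum, hd, mul_zero]
  · refine Finset.sum_eq_zero fun r _ => ?_
    by_cases h2 : κ p = κ r
    · rw [if_neg (fun h3 => h (h2.trans h3)), mul_zero]
    · rw [if_neg h2]
      ring

/-- Diagonal tests that tell Eve nothing. -/
theorem pos_of_diag {κ : A × B → K} {w : K → ℂ} (Ψ : Matrix (A × B) E ℂ)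
    (hΨ : (Ψ * Ψᴴ).trace = 1)
    (hρ : ∀ p q, (Ψ * Ψᴴ) p q = if κ p = κ q then w (κ p) else 0)
    (a₀ a₁ : A → ℝ) (b₀ b₁ : B → ℝ) (ha₀ : ∀ x, 0 ≤ a₀ x) (ha₁ : ∀ x, 0 ≤ a₁ x)
    (hb₀ : ∀ x, 0 ≤ b₀ x) (hb₁ : ∀ x, 0 ≤ b₁ x)
    (hd : ∀ p, ∑ r, (if κ p = κ r then a₀ r.1 * b₀ r.2 - a₁ r.1 * b₁ r.2 else 0) = 0)
    (h : (∑ p : A × B, a₀ p.1 * b₁ p.2 * ((Ψ * Ψᴴ) p p).re) *
      (∑ p : A × B, a₁ p.1 * b₀ p.2 * ((Ψ * Ψᴴ) p p).re) <
      (∑ p : A × B, a₀ p.1 * b₀ p.2 * ((Ψ * Ψᴴ) p p).re) ^ 2) : 0 < distillableKey Ψ := by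
  refine pos_of_zero_info Ψ hΨ (sqrtDiag a₀) (sqrtDiag a₁) (sqrtDiag b₀) (sqrtDiag b₁) ?_ ?_
  · rw [sqrtDiag_mul _ ha₀, sqrtDiag_mul _ ha₁, sqrtDiag_mul _ hb₀, sqrtDiag_mul _ hb₁,
      diagonal_kronecker_diagonal, diagonal_kronecker_diagonal]
    have h1 := block_zero (κ := κ) (w := w) hρ
      (d := fun r => (a₀ r.1 : ℂ) * b₀ r.2 - (a₁ r.1 : ℂ) * b₁ r.2) (by
        intro p
        have h2 := congrArg (fun x : ℝ => (x : ℂ)) (hd p)
        simp only [Complex.ofReal_sum, Complex.ofReal_zero] at h2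
        refine Eq.trans (Finset.sum_congr rfl fun r _ => ?_) h2
        split_ifs
        · push_cast; rfl
        · simp)
    have h3 : diagonal (fun r : A × B => (a₀ r.1 : ℂ) * b₀ r.2 - (a₁ r.1 : ℂ) * b₁ r.2) =
        diagonal (fun r : A × B => (a₀ r.1 : ℂ) * b₀ r.2) -
          diagonal (fun r : A × B => (a₁ r.1 : ℂ) * b₁ r.2) := by
      rw [diagonal_sub]
    rw [h3, Matrix.mul_sub, Matrix.sub_mul] at h1
    exact sub_eq_zero.mp h1
  · rw [hs_sqrtDiag Ψ a₀ b₁ ha₀ hb₁, hs_sqrtDiag Ψ a₁ b₀ ha₁ hb₀, hs_sqrtDiag Ψ a₀ b₀ ha₀ hb₀]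
    exact h

end Vale.Agent.P372

end

section

/-! PPT states with positive distillable key in all dimensions. -/

open Matrix Kronecker Filter Topology
open scoped ComplexOrder MatrixOrder

set_option linter.unusedSectionVars false

namespace Vale.Agent.P372

variable {A B C D E : Type} [Fintype A] [DecidableEq A] [Fintype B] [DecidableEq B]
  [Fintype C] [DecidableEq C] [Fintype D] [DecidableEq D] [Fintype E] [DecidableEq E]

/-- There is a PPT state with positive distillable key on the systems `A`, `B`. -/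
def HasPPTKey (A B : Type) [Fintype A] [DecidableEq A] [Fintype B] [DecidableEq B] : Prop :=
  ∃ ρ : Matrix (A × B) (A × B) ℂ, ρ.PosSemidef ∧ (ptrans ρ).PosSemidef ∧ ρ.trace = 1 ∧
    ∀ (E : Type) [Fintype E] [DecidableEq E] (Ψ : Matrix (A × B) E ℂ), Ψ * Ψᴴ = ρ →
      0 < distillableKey Ψ

theorem ptrans_conj (ρ : Matrix (A × B) (A × B) ℂ) (V : Matrix C A ℂ) (W : Matrix D B ℂ) :
    ptrans ((V ⊗ₖ W) * ρ * (V ⊗ₖ W)ᴴ) =
      (V ⊗ₖ W.map star) * ptrans ρ * (V ⊗ₖ W.map star)ᴴ := by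
  ext p q
  simp only [ptrans, mul_apply, Finset.sum_mul, conjTranspose_apply, kroneckerMap_apply,
    Matrix.map_apply, star_mul', star_star]
  rw [← Fintype.sum_prod_type', ← Fintype.sum_prod_type']
  let e : ((A × B) × (A × B)) ≃ ((A × B) × (A × B)) :=
    { toFun := fun x => ((x.1.1, x.2.2), (x.2.1, x.1.2))
      invFun := fun x => ((x.1.1, x.2.2), (x.2.1, x.1.2))
      left_inv := fun _ => rfl
      right_inv := fun _ => rfl }
  refine Fintype.sum_equiv e _ _ fun x => ?_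
  simp only [e, Equiv.coe_fn_mk]
  ring

theorem HasPPTKey.embed (h : HasPPTKey A B) (V : Matrix C A ℂ) (W : Matrix D B ℂ)
    (hV : Vᴴ * V = 1) (hW : Wᴴ * W = 1) : HasPPTKey C D := by
  obtain ⟨ρ, h1, h2, h3, h4⟩ := h
  have hVW : (V ⊗ₖ W)ᴴ * (V ⊗ₖ W) = 1 := by
    rw [conjTranspose_kronecker, ← mul_kronecker_mul, hV, hW, one_kronecker_one]
  have htr : ((V ⊗ₖ W) * ρ * (V ⊗ₖ W)ᴴ).trace = 1 := by
    rw [trace_mul_comm, ← Matrix.mul_assoc, hVW, Matrix.one_mul, h3]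
  refine ⟨(V ⊗ₖ W) * ρ * (V ⊗ₖ W)ᴴ, h1.mul_mul_conjTranspose_same _, ?_, htr, ?_⟩
  · rw [ptrans_conj]
    exact h2.mul_mul_conjTranspose_same _
  · intro E _ _ Ψ hΨ
    refine pos_of_filter Ψ (by rw [hΨ, htr]) Vᴴ Wᴴ (h4 E _ ?_)
    rw [conjTranspose_mul, ← conjTranspose_kronecker, conjTranspose_conjTranspose]
    calc (V ⊗ₖ W)ᴴ * Ψ * (Ψᴴ * (V ⊗ₖ W)) = (V ⊗ₖ W)ᴴ * (Ψ * Ψᴴ) * (V ⊗ₖ W) := by
          simp only [Matrix.mul_assoc]
      _ = ((V ⊗ₖ W)ᴴ * (V ⊗ₖ W)) * ρ * ((V ⊗ₖ W)ᴴ * (V ⊗ₖ W)) := by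
          rw [hΨ]
          simp only [Matrix.mul_assoc]
      _ = ρ := by rw [hVW, Matrix.one_mul, Matrix.mul_one]

/-- The inclusion of the first `a` levels. -/
def incl (a c : ℕ) : Matrix (Fin c) (Fin a) ℂ := fun i j => if i.val = j.val then 1 else 0

theorem incl_mul {a c : ℕ} (h : a ≤ c) : (incl a c)ᴴ * incl a c = 1 := by
  ext i j
  rw [mul_apply]
  simp only [conjTranspose_apply, incl]
  rw [Finset.sum_eq_single (Fin.castLE h i)]
  · by_cases hij : i = j
    · subst hij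
      simp
    · have : ¬ (i.val = j.val) := fun h => hij (Fin.ext h)
      simp only [Fin.val_castLE, ↓reduceIte, star_one, this, mul_zero, ne_eq, hij, not_false_eq_true, one_apply_ne]
  · intro k _ hk
    have : ¬ (k.val = i.val) := fun h' => hk (Fin.ext (by simpa using h'))
    simp [this]
  · intro h'
    exact absurd (Finset.mem_univ _) h'

theorem HasPPTKey.mono {a b c d : ℕ} (h : HasPPTKey (Fin a) (Fin b)) (hac : a ≤ c) (hbd : b ≤ d) :
    HasPPTKey (Fin c) (Fin d) :=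
  h.embed (incl a c) (incl b d) (incl_mul hac) (incl_mul hbd)

/-- Mixing with a little noise. -/
theorem HasPPTKey.full_rank [Nonempty A] [Nonempty B] (h : HasPPTKey A B) :
    ∃ ρ : Matrix (A × B) (A × B) ℂ, ρ.PosDef ∧ (ptrans ρ).PosDef ∧ ρ.trace = 1 ∧
      ∀ (E : Type) [Fintype E] [DecidableEq E] (Ψ : Matrix (A × B) E ℂ), Ψ * Ψᴴ = ρ →
        0 < distillableKey Ψ := by
  obtain ⟨ρ, h1, h2, h3, h4⟩ := h
  obtain ⟨Φ, hΦ⟩ : ∃ Φ : Matrix (A × B) (A × B) ℂ, Φ * Φᴴ = ρ := by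
    obtain ⟨X, hX⟩ := CStarAlgebra.nonneg_iff_eq_star_mul_self.mp h1.nonneg
    refine ⟨Xᴴ, ?_⟩
    rw [conjTranspose_conjTranspose]
    exact hX.symm
  have hev := eventually_pos Φ (h4 _ Φ hΦ)
  rw [hΦ] at hev
  obtain ⟨N, hN⟩ : ∃ N : ℝ, N = Fintype.card (A × B) := ⟨_, rfl⟩
  have hN0 : 0 < N := by
    rw [hN]
    exact_mod_cast Fintype.card_pos
  obtain ⟨g, hg⟩ : ∃ g : ℝ → Matrix (A × B) (A × B) ℂ,
      ∀ t, g t = ((1 - t : ℝ) : ℂ) • ρ + ((t * N⁻¹ : ℝ) : ℂ) • 1 := ⟨_, fun _ => rfl⟩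
  have hgc : Continuous g := by
    have : g = fun t : ℝ => ((1 - t : ℝ) : ℂ) • ρ + ((t * N⁻¹ : ℝ) : ℂ) •
      (1 : Matrix (A × B) (A × B) ℂ) := funext hg
    rw [this]
    (clear * -; fun_prop)
  have hg0 : g 0 = ρ := by
    rw [hg]
    simp only [sub_zero, Complex.ofReal_one, one_smul, zero_mul, Complex.ofReal_zero, zero_smul, add_zero]
  have hev' : ∀ᶠ t in 𝓝[>] (0 : ℝ), ∀ (E' : Type) [Fintype E'] [DecidableEq E']
      (Φ' : Matrix (A × B) E' ℂ), Φ' * Φ'ᴴ = g t → (g t).trace = 1 → 0 < distillableKey Φ' := by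
    have h5 : Tendsto g (𝓝 0) (𝓝 ρ) := by
      have := hgc.tendsto 0
      rwa [hg0] at this
    exact (h5.eventually hev).filter_mono nhdsWithin_le_nhds
  have h6 : ∀ᶠ t in 𝓝[>] (0 : ℝ), t < 1 :=
    (gt_mem_nhds (zero_lt_one' ℝ)).filter_mono nhdsWithin_le_nhds
  have h7 : ∀ᶠ t in 𝓝[>] (0 : ℝ), 0 < t := eventually_mem_nhdsWithin
  obtain ⟨t, ⟨ht, ht1⟩, ht0⟩ := ((hev'.and h6).and h7).exists
  have htr : (g t).trace = 1 := by
    rw [hg, trace_add, trace_smul, trace_smul, h3, trace_one, smul_eq_mul, smul_eq_mul, mul_one]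
    have : ((Fintype.card (A × B) : ℕ) : ℂ) = ((N : ℝ) : ℂ) := by
      rw [hN]
      push_cast
      rfl
    rw [this, ← Complex.ofReal_mul, mul_assoc, inv_mul_cancel₀ hN0.ne', mul_one,
      ← Complex.ofReal_add]
    simp
  have hc1 : (0 : ℂ) ≤ ((1 - t : ℝ) : ℂ) := by
    exact_mod_cast (by linarith only [ht1] : (0 : ℝ) ≤ 1 - t)
  have hc2 : (0 : ℂ) < ((t * N⁻¹ : ℝ) : ℂ) := by
    exact_mod_cast (by (clear * - ht0 hN0; positivity) : (0 : ℝ) < t * N⁻¹)
  refine ⟨g t, ?_, ?_, htr, fun E _ _ Ψ hΨ => ht E Ψ hΨ htr⟩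
  · rw [hg]
    exact (PosDef.one.smul hc2).posSemidef_add (h1.smul hc1)
  · have hpt : ptrans (g t) = ((1 - t : ℝ) : ℂ) • ptrans ρ + ((t * N⁻¹ : ℝ) : ℂ) • 1 := by
      ext p q
      have h8 : (1 : Matrix (A × B) (A × B) ℂ) (p.1, q.2) (q.1, p.2) =
          (1 : Matrix (A × B) (A × B) ℂ) p q := by
        simp only [one_apply, Prod.ext_iff]
        by_cases h9 : p.1 = q.1 <;> by_cases h10 : p.2 = q.2 <;> simp [h9, h10, eq_comm]
      rw [hg]
      simp only [ptrans, Matrix.add_apply, Matrix.smul_apply, h8]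
    rw [hpt]
    exact (PosDef.one.smul hc2).posSemidef_add (h2.smul hc1)

end Vale.Agent.P372

end

section

/-! The PPT states of the smallest dimensions. -/

open Matrix Kronecker Filter Topology
open scoped ComplexOrder MatrixOrder

set_option linter.unusedSectionVars false

namespace Vale.Agent.P372

namespace Small

variable {A B E K : Type} [Fintype A] [DecidableEq A] [Fintype B] [DecidableEq B]
  [Fintype E] [DecidableEq E]

/-- A matrix with integer entries. -/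
def ofInt {n : Type} (M : n → n → ℤ) : Matrix n n ℂ := fun p q => (M p q : ℂ)

theorem psd_of_int {n m : Type} [Fintype n] [DecidableEq n] [Fintype m] (M : n → n → ℤ)
    (F : n → m → ℤ) (D : n → ℤ)
    (h : ∀ p q, M p q = ∑ k, F p k * F q k + if p = q then D p else 0) (hD : ∀ p, 0 ≤ D p) :
    (ofInt M).PosSemidef := by
  have h1 : ofInt M = (Matrix.of fun p k => (F p k : ℂ)) * (Matrix.of fun p k => (F p k : ℂ))ᴴ +
      diagonal (fun p => (D p : ℂ)) := by
    ext p q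
    rw [Matrix.add_apply, mul_apply, diagonal_apply, ofInt, h]
    push_cast
    congr 1
    refine Finset.sum_congr rfl fun k _ => ?_
    rw [conjTranspose_apply, of_apply, of_apply, star_intCast]
  rw [h1]
  refine (posSemidef_self_mul_conjTranspose _).add (PosSemidef.diagonal fun p => ?_)
  have h2 : (0 : ℝ) ≤ (D p : ℝ) := by exact_mod_cast hD p
  rw [Pi.zero_apply, ← Complex.ofReal_intCast]
  exact Complex.zero_le_real.mpr h2

/-- Diagonal tests with integer entries. -/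
theorem pos_of_int (Ψ : Matrix (A × B) E ℂ) (hΨ : (Ψ * Ψᴴ).trace = 1) {s : ℝ} (hs : 0 < s)
    (κ : A × B → ℕ) (w : ℕ → ℤ)
    (hρ : Ψ * Ψᴴ = (s : ℂ) • ofInt fun p q => if κ p = κ q then w (κ p) else 0)
    (a₀ a₁ : A → ℤ) (b₀ b₁ : B → ℤ) (ha₀ : ∀ x, 0 ≤ a₀ x) (ha₁ : ∀ x, 0 ≤ a₁ x)
    (hb₀ : ∀ x, 0 ≤ b₀ x) (hb₁ : ∀ x, 0 ≤ b₁ x)
    (hd : ∀ p, ∑ r, (if κ p = κ r then a₀ r.1 * b₀ r.2 - a₁ r.1 * b₁ r.2 else 0) = 0)
    (h : (∑ p : A × B, a₀ p.1 * b₁ p.2 * w (κ p)) * (∑ p : A × B, a₁ p.1 * b₀ p.2 * w (κ p)) <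
      (∑ p : A × B, a₀ p.1 * b₀ p.2 * w (κ p)) ^ 2) : 0 < distillableKey Ψ := by
  have hdiag : ∀ p : A × B, ((Ψ * Ψᴴ) p p).re = s * w (κ p) := by
    intro p
    rw [hρ, Matrix.smul_apply, ofInt, if_pos rfl, smul_eq_mul, ← Complex.ofReal_intCast,
      ← Complex.ofReal_mul, Complex.ofReal_re]
  have hsum : ∀ (a : A → ℤ) (b : B → ℤ),
      ∑ p : A × B, ((a p.1 : ℤ) : ℝ) * ((b p.2 : ℤ) : ℝ) * ((Ψ * Ψᴴ) p p).re =
        s * ((∑ p : A × B, a p.1 * b p.2 * w (κ p) : ℤ) : ℝ) := by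
    intro a b
    push_cast
    rw [Finset.mul_sum]
    refine Finset.sum_congr rfl fun p _ => ?_
    rw [hdiag]
    ring
  refine pos_of_diag (κ := κ) (w := fun k => ((s * (w k : ℝ) : ℝ) : ℂ)) Ψ hΨ ?_
    (fun x => (a₀ x : ℝ)) (fun x => (a₁ x : ℝ)) (fun x => (b₀ x : ℝ)) (fun x => (b₁ x : ℝ))
    (fun x => by exact_mod_cast ha₀ x) (fun x => by exact_mod_cast ha₁ x)
    (fun x => by exact_mod_cast hb₀ x) (fun x => by exact_mod_cast hb₁ x) ?_ ?_
  · intro p q
    rw [hρ, Matrix.smul_apply, ofInt, smul_eq_mul]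
    split_ifs
    · push_cast; rfl
    · simp
  · intro p
    have h1 := congrArg (fun z : ℤ => (z : ℝ)) (hd p)
    simp only [Int.cast_sum, Int.cast_zero] at h1
    refine Eq.trans (Finset.sum_congr rfl fun r _ => ?_) h1
    split_ifs
    · push_cast; rfl
    · simp
  · rw [hsum, hsum, hsum]
    have h1 : ((∑ p : A × B, a₀ p.1 * b₁ p.2 * w (κ p) : ℤ) : ℝ) *
        ((∑ p : A × B, a₁ p.1 * b₀ p.2 * w (κ p) : ℤ) : ℝ) <
          ((∑ p : A × B, a₀ p.1 * b₀ p.2 * w (κ p) : ℤ) : ℝ) ^ 2 := by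
      exact_mod_cast h
    have h2 := mul_lt_mul_of_pos_left h1 (mul_pos hs hs)
    calc _ = s * s * (((∑ p : A × B, a₀ p.1 * b₁ p.2 * w (κ p) : ℤ) : ℝ) *
        ((∑ p : A × B, a₁ p.1 * b₀ p.2 * w (κ p) : ℤ) : ℝ)) := by ring
      _ < _ := h2
      _ = _ := by ring

/-- Assemble a PPT state from integer data. -/
theorem hasPPTKey_of_int (M : A × B → A × B → ℤ) {t : ℕ} (ht : 0 < t)
    (h1 : (ofInt M).PosSemidef) (h2 : (ofInt fun p q : A × B => M (p.1, q.2) (q.1, p.2)).PosSemidef)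
    (h3 : ∑ p, M p p = t)
    (h4 : ∀ (E : Type) [Fintype E] [DecidableEq E] (Ψ : Matrix (A × B) E ℂ),
      (Ψ * Ψᴴ).trace = 1 → Ψ * Ψᴴ = (((t : ℝ)⁻¹ : ℝ) : ℂ) • ofInt M → 0 < distillableKey Ψ) :
    HasPPTKey A B := by
  have ht' : (0 : ℂ) ≤ (((t : ℝ)⁻¹ : ℝ) : ℂ) := by
    exact_mod_cast inv_nonneg.mpr (Nat.cast_nonneg (α := ℝ) t)
  have htr : ((((t : ℝ)⁻¹ : ℝ) : ℂ) • ofInt M).trace = 1 := by
    have h5 : (ofInt M).trace = (t : ℂ) := by
      have h6 := congrArg (fun z : ℤ => (z : ℂ)) h3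
      simp only [Int.cast_sum, Int.cast_natCast] at h6
      rw [← h6]
      rfl
    rw [trace_smul, h5, smul_eq_mul]
    push_cast
    exact inv_mul_cancel₀ (by exact_mod_cast ht.ne')
  exact ⟨_, h1.smul ht', h2.smul ht', htr, fun E _ _ Ψ hΨ => h4 E Ψ (by rw [hΨ, htr]) hΨ⟩

/-- The weights of the blocks. -/
def wts (k : ℕ) : ℤ := if k = 0 ∨ k = 4 then 9 else if k = 2 then 4 else 6

/-- The label of a block. -/
def lab (p : Fin 2 × Fin 4) : ℕ := 1 + p.2.val - p.1.val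

/-- The label of a block, parties exchanged. -/
def lab' (p : Fin 4 × Fin 2) : ℕ := 1 + p.1.val - p.2.val

/-- A factor of the partial transpose. -/
def fac : Fin 2 × Fin 4 → Fin 3 → ℤ := fun p k =>
  if k.val = 0 then (if p = (0, 1) then 2 else if p = (1, 0) then 3 else 0) else
  if k.val = 1 then (if p = (0, 2) then 2 else if p = (1, 1) then 2 else 0) else
    (if p = (0, 3) then 3 else if p = (1, 2) then 2 else 0)

/-- The remaining diagonal of the partial transpose. -/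
def rem (p : Fin 2 × Fin 4) : ℤ :=
  if p = (0, 0) ∨ p = (1, 3) then 6 else if p = (0, 2) ∨ p = (1, 1) then 2 else 0

/-- A factor of the state. -/
def fac0 (κ : ℕ) : Fin 9 → ℤ := fun k =>
  if κ = 0 then (if k.val = 0 then 3 else 0) else if κ = 4 then (if k.val = 1 then 3 else 0) else
  if κ = 2 then (if k.val = 2 then 2 else 0) else
  if κ = 1 then (if k.val = 3 then 2 else if k.val = 4 ∨ k.val = 5 then 1 else 0) else
    (if k.val = 6 then 2 else if k.val = 7 ∨ k.val = 8 then 1 else 0)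

theorem base24 : HasPPTKey (Fin 2) (Fin 4) := by
  refine hasPPTKey_of_int (fun p q => if lab p = lab q then wts (lab p) else 0) (t := 50)
    (by norm_num) (psd_of_int _ (fun p => fac0 (lab p)) (fun _ => 0) (by (clear * -; decide)) (by decide))
    (psd_of_int _ fac rem (by (clear * -; decide)) (by decide)) (by decide) ?_
  intro E _ _ Ψ hΨ hρ
  exact pos_of_int Ψ hΨ (s := ((50 : ℕ) : ℝ)⁻¹) (by (clear * -; positivity)) lab wts hρ ![4, 3] ![3, 4]
    ![16, 0, 7, 12] ![12, 7, 0, 16] (by decide) (by decide) (by decide) (by decide) (by (clear * -; decide))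
    (by decide)

theorem base42 : HasPPTKey (Fin 4) (Fin 2) := by
  refine hasPPTKey_of_int (fun p q => if lab' p = lab' q then wts (lab' p) else 0) (t := 50)
    (by norm_num) (psd_of_int _ (fun p => fac0 (lab' p)) (fun _ => 0) (by (clear * -; decide)) (by decide))
    (psd_of_int _ (fun p => fac p.swap) (fun p => rem p.swap) (by (clear * -; decide)) (by decide))
    (by decide) ?_
  intro E _ _ Ψ hΨ hρ
  exact pos_of_int Ψ hΨ (s := ((50 : ℕ) : ℝ)⁻¹) (by positivity) lab' wts hρ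
    ![16, 0, 7, 12] ![12, 7, 0, 16] ![4, 3] ![3, 4] (by decide) (by decide) (by decide)
    (by decide) (by (clear * -; decide)) (by decide)

/-- A state of two three-level systems. -/
def tri3 (p q : Fin 3 × Fin 3) : ℤ :=
  if p.1 = p.2 ∧ q.1 = q.2 then 4 else if p = q then (if p.2 = p.1 + 1 then 1 else 16) else 0

/-- A factor of the partial transpose. -/
def gac3 (p : Fin 3 × Fin 3) (k : Fin 3) : ℤ :=
  if p.1 = k ∧ p.2 = k + 1 then 1 else if p.1 = k + 1 ∧ p.2 = k then 4 else 0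

theorem base33 : HasPPTKey (Fin 3) (Fin 3) := by
  refine hasPPTKey_of_int tri3 (t := 63) (by norm_num)
    (psd_of_int _ (fun p (_ : Fin 1) => if p.1 = p.2 then 2 else 0)
      (fun p => if p.1 = p.2 then 0 else if p.2 = p.1 + 1 then 1 else 16) (by (clear * -; decide)) (by decide))
    (psd_of_int _ gac3 (fun p => if p.1 = p.2 then 4 else 0) (by (clear * -; decide)) (by decide))
    (by decide) ?_
  intro E _ _ Ψ hΨ hρ
  have hent : ∀ p q, (Ψ * Ψᴴ) p q = (((63 : ℝ)⁻¹ * (tri3 p q : ℝ) : ℝ) : ℂ) := by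
    intro p q
    rw [hρ, Matrix.smul_apply, ofInt, smul_eq_mul]
    push_cast
    rfl
  refine pos_of_cycle Ψ hΨ (α := id) (β := id) Function.injective_id
    Function.injective_id (m := (63 : ℝ)⁻¹ * 4) (by norm_num)
    (fun i j => (63 : ℝ)⁻¹ * (tri3 (i, j) (i, j) : ℝ)) (fun i j => hent _ _) ?_ ?_
  · intro i j
    rw [hent]
    simp only [id_eq, tri3, and_self, if_true]
    norm_num
  · rw [Fin.prod_univ_three]
    have h1 : tri3 (0, 0 + 1) (0, 0 + 1) = 1 := by decide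
    have h2 : tri3 (1, 1 + 1) (1, 1 + 1) = 1 := by decide
    have h3 : tri3 (2, 2 + 1) (2, 2 + 1) = 1 := by decide
    rw [h1, h2, h3]
    norm_num

end Small

/-- In every pair of dimensions in which entangled PPT states exist there are PPT states of full
rank with positive distillable key. -/
theorem exists_ppt_key {a b : ℕ} (ha : 2 ≤ a) (hb : 2 ≤ b) (hab : 6 < a * b) :
    ∃ ρ : Matrix (Fin a × Fin b) (Fin a × Fin b) ℂ, ρ.PosDef ∧ (ptrans ρ).PosDef ∧
      ρ.trace = 1 ∧ ∀ (E : Type) [Fintype E] [DecidableEq E] (Ψ : Matrix (Fin a × Fin b) E ℂ),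
        Ψ * Ψᴴ = ρ → 0 < distillableKey Ψ := by
  have : Nonempty (Fin a) := ⟨⟨0, by omega⟩⟩
  have : Nonempty (Fin b) := ⟨⟨0, by omega⟩⟩
  refine HasPPTKey.full_rank ?_
  by_cases h1 : 4 ≤ b
  · exact Small.base24.mono ha h1
  · by_cases h2 : 4 ≤ a
    · exact Small.base42.mono h2 hb
    · have h3 : 3 ≤ a := by
        by_contra h
        have : a = 2 := by omega
        subst this
        (clear * - hb h1 hab; omega)
      have h4 : 3 ≤ b := by
        by_contra h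
        have : b = 2 := by omega
        subst this
        omega
      exact Small.base33.mono h3 h4

end Vale.Agent.P372

end

section

/-! The results in terms of states. -/

open Matrix Filter Topology
open scoped ComplexOrder MatrixOrder

namespace Vale.Agent.P372

theorem keyPos_open (A B : Type) [Fintype A] [Fintype B] (ρ : Matrix (A × B) (A × B) ℂ)
    (h1 : ρ.PosSemidef) (h2 : KeyPos ρ) : ∀ᶠ σ in 𝓝 ρ, σ.trace = 1 → KeyPos σ := by
  classical
  obtain ⟨X, hX⟩ := CStarAlgebra.nonneg_iff_eq_star_mul_self.mp h1.nonneg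
  have h3 : Xᴴ * (Xᴴ)ᴴ = ρ := by
    rw [conjTranspose_conjTranspose]
    exact hX.symm
  have h4 := eventually_pos Xᴴ (h2 _ Xᴴ h3)
  rw [h3] at h4
  filter_upwards [h4] with σ hσ htr E _ _ Φ hΦ
  exact hσ E Φ hΦ htr

theorem keyPos_kernel (A : Type) [Fintype A] (ρ : Matrix (A × Fin 3) (A × Fin 3) ℂ)
    (h1 : ρ.trace = 1)
    (h2 : ∀ (α : A → ℂ) (β : Fin 3 → ℂ), (∀ (a : A → ℂ) (b : Fin 3 → ℂ),
      ρ *ᵥ prodVec a b = 0 → star (prodVec a b) ⬝ᵥ prodVec α β = 0) → prodVec α β = 0) :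
    KeyPos ρ := by
  classical
  intro E _ _ Ψ hΨ
  subst hΨ
  exact (kernel_unextendible Ψ h1 h2).trans_le (KD_le_distillableKey Ψ)

theorem keyPos_cyc (c : Fin 3 → Fin 3 → ℝ) (s : ℝ) (hc : ∀ i j, 0 ≤ c i j)
    (h1 : ((s : ℂ) • cycState c).trace = 1) (h2 : ¬ IsSep ((s : ℂ) • cycState c)) :
    KeyPos ((s : ℂ) • cycState c) := by
  intro E _ _ Ψ hΨ
  rw [← hΨ] at h1 h2
  exact cycState_pos c hc Ψ h1 hΨ h2

theorem keyPos_cycle (A B : Type) [Fintype A] [Fintype B] (ρ : Matrix (A × B) (A × B) ℂ)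
    (a : Fin 3 → A → ℂ) (b : Fin 3 → B → ℂ) (h1 : ρ.trace = 1)
    (h2 : ∀ i j, ρ *ᵥ prodVec (a i) (b i) = ρ *ᵥ prodVec (a j) (b j))
    (h3 : ∏ i, (star (prodVec (a i) (b (i + 1))) ⬝ᵥ (ρ *ᵥ prodVec (a i) (b (i + 1)))).re <
      ∏ i, (star (prodVec (a i) (b i)) ⬝ᵥ (ρ *ᵥ prodVec (a i) (b i))).re) : KeyPos ρ := by
  classical
  intro E _ _ Ψ hΨ
  subst hΨ
  exact cycle_criterion' Ψ h1 a b h2 h3

theorem keyPos_dims (a b : ℕ) (ha : 2 ≤ a) (hb : 2 ≤ b) (hab : 6 < a * b) :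
    ∃ ρ : Matrix (Fin a × Fin b) (Fin a × Fin b) ℂ,
      ρ.PosDef ∧ (ptrans ρ).PosDef ∧ ρ.trace = 1 ∧ KeyPos ρ := by
  obtain ⟨ρ, h1, h2, h3, h4⟩ := exists_ppt_key ha hb hab
  exact ⟨ρ, h1, h2, h3, fun E _ _ Ψ hΨ => h4 E Ψ hΨ⟩

end Vale.Agent.P372

end
end

section

/-! One party measures blocks of copies in orthonormal bases: no test on any number of copies. -/

open Matrix Kronecker
open scoped ComplexOrder MatrixOrder

set_option linter.unusedSectionVars false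

namespace Vale.Agent.P372

namespace Half

variable {A B α β : Type} [Fintype A] [DecidableEq A] [Fintype B] [DecidableEq B] [Fintype α]
  [DecidableEq α] [Fintype β] [DecidableEq β]

theorem weight_sum {κ : Type} [Fintype κ] (S : κ → Matrix (α × β) (α × β) ℂ) (X : Matrix α α ℂ)
    (Y : Matrix β β ℂ) : weight (∑ τ, S τ) X Y = ∑ τ, weight (S τ) X Y := by
  simp only [Near.weight_eq_trace, Finset.sum_mul, trace_sum, Complex.re_sum]

/-- restriction to one value of Alice's letter -/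
def cut (x : A) (M : Matrix (A × B) (A × B) ℂ) : Matrix (A × B) (A × B) ℂ :=
  fun p q => if p.1 = x ∧ q.1 = x then M p q else 0

theorem cut_posSemidef {M : Matrix (A × B) (A × B) ℂ} (hM : M.PosSemidef) (x : A) :
    (cut x M).PosSemidef := by
  have h := hM.mul_mul_conjTranspose_same
    (diagonal (fun p : A × B => if p.1 = x then (1 : ℂ) else 0))
  have h2 : diagonal (fun p : A × B => if p.1 = x then (1 : ℂ) else 0) * M *
      (diagonal (fun p : A × B => if p.1 = x then (1 : ℂ) else 0))ᴴ = cut x M := by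
    ext p q
    rw [diagonal_conjTranspose, mul_diagonal, diagonal_mul, cut]
    by_cases h1 : p.1 = x <;> by_cases h2 : q.1 = x <;> simp [h1, h2]
  rwa [h2] at h

/-- the pieces of the decomposition at one site -/
noncomputable def piece (a : ℝ) (M : Matrix (A × B) (A × B) ℂ) :
    Option A → Matrix (A × B) (A × B) ℂ
  | none => (M - (a : ℂ) • 1) + ∑ x, cut x (((2 * a : ℝ) : ℂ) • 1 - M)
  | some x => cut x (M - (a : ℂ) • 1)

theorem sum_cut (M : Matrix (A × B) (A × B) ℂ) (p q : A × B) :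
    (∑ x, cut x M) p q = if p.1 = q.1 then M p q else 0 := by
  rw [Matrix.sum_apply]
  simp only [cut]
  rw [Finset.sum_eq_single p.1]
  · by_cases h : p.1 = q.1
    · rw [if_pos ⟨rfl, h.symm⟩, if_pos h]
    · rw [if_neg (fun h' => h h'.2.symm), if_neg h]
  · intro x _ hx
    exact if_neg (fun h' => hx h'.1.symm)
  · intro h
    exact absurd (Finset.mem_univ _) h

theorem piece_sum (a : ℝ) (M : Matrix (A × B) (A × B) ℂ) : ∑ τ, piece a M τ = M := by
  rw [Fintype.sum_option]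
  simp only [piece]
  ext p q
  rw [Matrix.add_apply, Matrix.add_apply, sum_cut, sum_cut]
  simp only [Matrix.sub_apply, Matrix.smul_apply, Matrix.one_apply, smul_eq_mul]
  by_cases h : p.1 = q.1
  · rw [if_pos h, if_pos h]
    push_cast
    ring
  · rw [if_neg h, if_neg h, if_neg (fun h' => h (by rw [h']))]
    ring

theorem piece_posSemidef {a : ℝ} {M : Matrix (A × B) (A × B) ℂ}
    (h1 : (M - (a : ℂ) • 1).PosSemidef) (h2 : (((2 * a : ℝ) : ℂ) • 1 - M).PosSemidef)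
    (τ : Option A) : (piece a M τ).PosSemidef := by
  rcases τ with _ | x
  · exact h1.add (posSemidef_sum _ fun x _ => cut_posSemidef h2 x)
  · exact cut_posSemidef h1 x

end Half

theorem not_keyTest_zero {A B : Type} [Fintype A] [DecidableEq A] [Fintype B] [DecidableEq B]
    (R : Matrix (A × B) (A × B) ℂ) : ¬ KeyTest1 (tpow 0 R) := by
  have h1 : tpow 0 R = 1 := by
    ext p q
    have h : p = q := Subsingleton.elim p q
    subst h
    rw [one_apply_eq, tpow, Finset.univ_eq_empty, Finset.prod_empty]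
  rintro ⟨X₀, X₁, Y₀, Y₁, h⟩
  rw [h1] at h
  refine absurd h (not_lt.mpr ?_)
  have h2 := pow_le_pow_left₀ (traceNorm_nonneg _) (Near.fid_le_weights PosSemidef.one X₀ X₁ Y₀ Y₁) 4
  refine h2.trans (le_of_eq ?_)
  have e : (√(weight (1 : Matrix ((Fin 0 → A) × (Fin 0 → B)) _ ℂ) X₀ Y₀) *
      √(weight (1 : Matrix ((Fin 0 → A) × (Fin 0 → B)) _ ℂ) X₁ Y₁)) ^ 4 =
      (√(weight (1 : Matrix ((Fin 0 → A) × (Fin 0 → B)) _ ℂ) X₀ Y₀) ^ 2) ^ 2 *
      (√(weight (1 : Matrix ((Fin 0 → A) × (Fin 0 → B)) _ ℂ) X₁ Y₁) ^ 2) ^ 2 := by ring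
  rw [e, Real.sq_sqrt (Near.weight_nonneg PosSemidef.one _ _),
    Real.sq_sqrt (Near.weight_nonneg PosSemidef.one _ _)]
  simp only [Near.weight_one]
  ring
theorem keyPos_iff (A B E : Type) [Fintype A] [DecidableEq A] [Fintype B] [DecidableEq B]
    [Fintype E] [DecidableEq E] (Ψ : Matrix (A × B) E ℂ) (h : (Ψ * Ψᴴ).trace = 1) :
    0 < distillableKey Ψ ↔ ∃ n, KeyTest (tpow n (Ψ * Ψᴴ)) Set.univ := by
  simp only [keyTest_univ]
  refine ⟨fun h1 => ?_, fun ⟨n, hn⟩ => ?_⟩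
  · obtain ⟨n, -, h2⟩ := (pos_iff_keyTest Ψ h).mp h1
    exact ⟨n, h2⟩
  · rcases Nat.eq_zero_or_pos n with rfl | h2
    · exact absurd hn (not_keyTest_zero _)
    · exact (pos_iff_keyTest Ψ h).mpr ⟨n, h2, hn⟩
theorem keyPos_kernel' (A : Type) [Fintype A] (ρ : Matrix (A × Fin 3) (A × Fin 3) ℂ)
    (h1 : ρ.trace = 1)
    (h2 : ∀ (α : A → ℂ) (β : Fin 3 → ℂ), (∀ (a : A → ℂ) (b : Fin 3 → ℂ),
      (∀ p, (ρ *ᵥ prodVec a b) p = 0) → sprod (prodVec a b) (prodVec α β) = 0) →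
        ∀ p, prodVec α β p = 0) : KeyPos ρ :=
  keyPos_kernel A ρ h1 fun α β h => funext fun p => h2 α β
    (fun a b hab => h a b (funext hab)) p

theorem keyPos_cycle' (A B : Type) [Fintype A] [Fintype B] (ρ : Matrix (A × B) (A × B) ℂ)
    (a : Fin 3 → A → ℂ) (b : Fin 3 → B → ℂ) (h1 : ρ.trace = 1)
    (h2 : ∀ i j, ρ *ᵥ prodVec (a i) (b i) = ρ *ᵥ prodVec (a j) (b j))
    (h3 : ∏ i, (sprod (prodVec (a i) (b (i + 1))) (ρ *ᵥ prodVec (a i) (b (i + 1)))).re <
      ∏ i, (sprod (prodVec (a i) (b i)) (ρ *ᵥ prodVec (a i) (b i))).re) : KeyPos ρ :=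
  keyPos_cycle A B ρ a b h1 h2 h3

theorem keyPos_dims' (a b : ℕ) (ha : 2 ≤ a) (hb : 2 ≤ b) (hab : 6 < a * b) :
    ∃ ρ σ : Matrix (Fin a × Fin b) (Fin a × Fin b) ℂ, ρ.PosDef ∧ σ.PosDef ∧
      (∀ i j k l, σ (i, j) (k, l) = ρ (i, l) (k, j)) ∧ ρ.trace = 1 ∧ KeyPos ρ := by
  obtain ⟨ρ, h1, h2, h3, h4⟩ := keyPos_dims a b ha hb hab
  exact ⟨ρ, ptrans ρ, h1, h2, fun _ _ _ _ => rfl, h3, h4⟩

end Vale.Agent.P372

end

section

/-! One block is kept coherent, the other blocks are measured by Alice. -/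

open Matrix Kronecker
open scoped ComplexOrder MatrixOrder

set_option linter.unusedSectionVars false

namespace Vale.Agent.P372

namespace Half

section Gram

variable {C D E F : Type} [Fintype C] [DecidableEq C] [Fintype D] [DecidableEq D] [Fintype E]
  [DecidableEq E] [Fintype F] [DecidableEq F]

theorem idem_posSemidef {Z : Matrix C C ℂ} (h1 : Zᴴ = Z) (h2 : Z * Z = Z) :
    (1 - Z).PosSemidef := by
  have h : 1 - Z = (1 - Z)ᴴ * (1 - Z) := by
    rw [conjTranspose_sub, conjTranspose_one, h1]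
    have h3 : (1 - Z) * (1 - Z) = 1 - Z - Z + Z * Z := by noncomm_ring
    rw [h3, h2]
    abel
  rw [h]
  exact posSemidef_conjTranspose_mul_self _

theorem exists_factor_gram (Γ : Matrix C E ℂ) (L : Matrix D E ℂ) (h : Γᴴ * Γ = Lᴴ * L) :
    ∃ Q : Matrix C D ℂ, Γ = Q * L ∧ (1 - Q * Qᴴ).PosSemidef ∧ (1 - Qᴴ * Q).PosSemidef := by
  obtain ⟨X, hX⟩ : ∃ X, X = Lᴴ * L := ⟨_, rfl⟩
  rw [← hX] at h
  have hXh : Xᴴ = X := by rw [hX, conjTranspose_mul, conjTranspose_conjTranspose]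
  obtain ⟨Q0, Q', S, hQ0, hQ', -, h1, h2, h3, -⟩ :=
    exists_sqrt_pinv (posSemidef_conjTranspose_mul_self L)
  rw [← hX] at h1 h2 h3
  obtain ⟨P, hP⟩ : ∃ P, P = Q' * Q' := ⟨_, rfl⟩
  have hPh : Pᴴ = P := by rw [hP, conjTranspose_mul, hQ'.1]
  have hXPX : X * P * X = X := by
    rw [hP, ← Matrix.mul_assoc, h3, Matrix.mul_assoc, h2, h1]
  have hidem : ∀ {G : Type} [Fintype G] [DecidableEq G] (M : Matrix G E ℂ), Mᴴ * M = X →
      (1 - M * (P * X * P) * Mᴴ).PosSemidef := by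
    intro G _ _ M hM
    refine idem_posSemidef ?_ ?_
    · simp only [conjTranspose_mul, conjTranspose_conjTranspose, hPh, hXh, Matrix.mul_assoc]
    · calc M * (P * X * P) * Mᴴ * (M * (P * X * P) * Mᴴ)
          = M * (P * (X * P * (Mᴴ * M) * P * X) * P) * Mᴴ := by simp only [Matrix.mul_assoc]
        _ = M * (P * X * P) * Mᴴ := by rw [hM, hXPX, hXPX]
  refine ⟨Γ * P * Lᴴ, ?_, ?_, ?_⟩
  · have h4 : (Γ * P * X - Γ)ᴴ * (Γ * P * X - Γ) = 0 := by
      rw [conjTranspose_sub, conjTranspose_mul, conjTranspose_mul, hPh, hXh]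
      calc (X * (P * Γᴴ) - Γᴴ) * (Γ * P * X - Γ)
          = X * P * (Γᴴ * Γ) * P * X - X * P * (Γᴴ * Γ) - (Γᴴ * Γ) * P * X + Γᴴ * Γ := by
            simp only [Matrix.mul_sub, Matrix.sub_mul, Matrix.mul_assoc]
            abel
        _ = 0 := by
            rw [h, hXPX, hXPX, sub_self, zero_sub, neg_add_cancel]
    have h5 := (conjTranspose_mul_self_eq_zero (A := Γ * P * X - Γ)).mp h4
    rw [Matrix.mul_assoc _ Lᴴ L, ← hX]
    exact (sub_eq_zero.mp h5).symm
  · have h4 : Γ * P * Lᴴ * (Γ * P * Lᴴ)ᴴ = Γ * (P * X * P) * Γᴴ := by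
      rw [conjTranspose_mul, conjTranspose_mul, conjTranspose_conjTranspose, hPh, hX]
      simp only [Matrix.mul_assoc]
    rw [h4]
    exact hidem Γ h
  · have h4 : (Γ * P * Lᴴ)ᴴ * (Γ * P * Lᴴ) = L * (P * X * P) * Lᴴ := by
      rw [conjTranspose_mul, conjTranspose_mul, conjTranspose_conjTranspose, hPh, ← h]
      simp only [Matrix.mul_assoc]
    rw [h4]
    exact hidem L hX.symm

theorem contr_sandwich {Q₀ Q₁ : Matrix C D ℂ} {W : Matrix C C ℂ} (hW : Contr W)
    (h0 : (1 - Q₀ * Q₀ᴴ).PosSemidef) (h0' : (1 - Q₀ᴴ * Q₀).PosSemidef)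
    (h1 : (1 - Q₁ * Q₁ᴴ).PosSemidef) (h1' : (1 - Q₁ᴴ * Q₁).PosSemidef) :
    Contr (Q₁ᴴ * W * Q₀) := by
  constructor
  · have h : 1 - Q₁ᴴ * W * Q₀ * (Q₁ᴴ * W * Q₀)ᴴ = (1 - Q₁ᴴ * Q₁) + Q₁ᴴ * (1 - W * Wᴴ) * Q₁ᴴᴴ +
        (Q₁ᴴ * W) * (1 - Q₀ * Q₀ᴴ) * (Q₁ᴴ * W)ᴴ := by
      simp only [conjTranspose_mul, conjTranspose_conjTranspose, Matrix.mul_sub, Matrix.sub_mul,
        Matrix.mul_one, Matrix.mul_assoc]
      abel
    rw [h]
    exact (h1'.add (hW.1.mul_mul_conjTranspose_same _)).add (h0.mul_mul_conjTranspose_same _)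
  · have h : 1 - (Q₁ᴴ * W * Q₀)ᴴ * (Q₁ᴴ * W * Q₀) = (1 - Q₀ᴴ * Q₀) +
        Q₀ᴴ * (1 - Wᴴ * W) * Q₀ᴴᴴ + (Q₀ᴴ * Wᴴ) * (1 - Q₁ * Q₁ᴴ) * (Q₀ᴴ * Wᴴ)ᴴ := by
      simp only [conjTranspose_mul, conjTranspose_conjTranspose, Matrix.mul_sub, Matrix.sub_mul,
        Matrix.mul_one, Matrix.mul_assoc]
      abel
    rw [h]
    exact (h0'.add (hW.2.mul_mul_conjTranspose_same _)).add (h1.mul_mul_conjTranspose_same _)

theorem traceNorm_gram_le (Γ₀ Γ₁ : Matrix C E ℂ) (L₀ L₁ : Matrix D E ℂ)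
    (h0 : Γ₀ᴴ * Γ₀ = L₀ᴴ * L₀) (h1 : Γ₁ᴴ * Γ₁ = L₁ᴴ * L₁) (M : Matrix E E ℂ) :
    traceNorm (Γ₀ * M * Γ₁ᴴ) ≤ traceNorm (L₀ * M * L₁ᴴ) := by
  obtain ⟨Q₀, e0, k0, k0'⟩ := exists_factor_gram Γ₀ L₀ h0
  obtain ⟨Q₁, e1, k1, k1'⟩ := exists_factor_gram Γ₁ L₁ h1
  refine traceNorm_le_of_forall fun W hW => ?_
  have h : (W * (Γ₀ * M * Γ₁ᴴ)).trace = ((Q₁ᴴ * W * Q₀) * (L₀ * M * L₁ᴴ)).trace := by
    rw [e0, e1, conjTranspose_mul]
    calc (W * (Q₀ * L₀ * M * (L₁ᴴ * Q₁ᴴ))).trace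
        = ((W * Q₀ * (L₀ * M * L₁ᴴ)) * Q₁ᴴ).trace := by simp only [Matrix.mul_assoc]
      _ = (Q₁ᴴ * (W * Q₀ * (L₀ * M * L₁ᴴ))).trace := trace_mul_comm _ _
      _ = _ := by simp only [Matrix.mul_assoc]
  rw [h]
  exact norm_trace_mul_le (contr_sandwich hW k0 k0' k1 k1') _

/-- partial trace over the second factor -/
def ptr (N : Matrix (C × F) (C × F) ℂ) : Matrix C C ℂ := fun c c' => ∑ f, N (c, f) (c', f)

theorem one_sub_kron (M : Matrix C C ℂ) (h : (1 - M).PosSemidef) :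
    (1 - M ⊗ₖ (1 : Matrix F F ℂ)).PosSemidef := by
  have h1 := h.kronecker (PosSemidef.one (n := F) (R := ℂ))
  have h2 : (1 - M) ⊗ₖ (1 : Matrix F F ℂ) = 1 - M ⊗ₖ (1 : Matrix F F ℂ) := by
    rw [← one_kronecker_one (m := C) (n := F)]
    ext p q
    simp only [kroneckerMap_apply, Matrix.sub_apply, sub_mul]
  rwa [h2] at h1

theorem ptr_le (N : Matrix (C × F) (C × F) ℂ) : traceNorm (ptr N) ≤ traceNorm N := by
  refine traceNorm_le_of_forall fun W hW => ?_
  have hc : Contr (W ⊗ₖ (1 : Matrix F F ℂ)) := by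
    constructor
    · rw [conjTranspose_kronecker, conjTranspose_one, ← mul_kronecker_mul, mul_one]
      exact one_sub_kron _ hW.1
    · rw [conjTranspose_kronecker, conjTranspose_one, ← mul_kronecker_mul, mul_one]
      exact one_sub_kron _ hW.2
  have h : (W * ptr N).trace = ((W ⊗ₖ (1 : Matrix F F ℂ)) * N).trace := by
    simp only [Matrix.trace, Matrix.diag, Matrix.mul_apply, Fintype.sum_prod_type,
      kroneckerMap_apply, ptr]
    refine Finset.sum_congr rfl fun c _ => ?_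
    have h1 : ∀ f : F, (∑ c', ∑ f', W c c' * (1 : Matrix F F ℂ) f f' * N (c', f') (c, f)) =
        ∑ c', W c c' * N (c', f) (c, f) := by
      intro f
      refine Finset.sum_congr rfl fun c' _ => ?_
      rw [Finset.sum_eq_single f]
      · rw [one_apply_eq, mul_one]
      · intro f' _ hf'
        rw [one_apply_ne (Ne.symm hf'), mul_zero, zero_mul]
      · intro hf
        exact absurd (Finset.mem_univ f) hf
    rw [Finset.sum_congr rfl fun f _ => h1 f, Finset.sum_comm]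
    exact Finset.sum_congr rfl fun c' _ => Finset.mul_sum _ _ _
  rw [h]
  exact norm_trace_mul_le hc N

end Gram

section Join

variable {A B α β F : Type} [Fintype A] [DecidableEq A] [Fintype B] [DecidableEq B] [Fintype α]
  [DecidableEq α] [Fintype β] [DecidableEq β] [Fintype F] [DecidableEq F]

/-- `R ⊗ S` with Alice's systems and Bob's systems collected -/
def join (R : Matrix (A × B) (A × B) ℂ) (S : Matrix (α × β) (α × β) ℂ) :
    Matrix ((A × α) × (B × β)) ((A × α) × (B × β)) ℂ :=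
  fun p q => R (p.1.1, p.2.1) (q.1.1, q.2.1) * S (p.1.2, p.2.2) (q.1.2, q.2.2)

/-- controlled operator -/
def ctrl (g : α → Matrix A A ℂ) : Matrix (A × α) (A × α) ℂ :=
  fun p q => if p.2 = q.2 then g p.2 p.1 q.1 else 0

/-- insertion -/
def put (Y : Matrix (B × β) (B × β) ℂ) (T : Matrix β F ℂ) : Matrix ((B × β) × F) B ℂ :=
  fun p b => ∑ y, Y p.1 (b, y) * T y p.2

/-- the partial expectation -/
def pt (Y : Matrix (B × β) (B × β) ℂ) (Z : Matrix β β ℂ) : Matrix B B ℂ :=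
  fun b b' => ∑ y, ∑ y', (Yᴴ * Y) (b, y) (b', y') * Z y' y

def Gam (g : α → Matrix A A ℂ) (Y : Matrix (B × β) (B × β) ℂ) (K : Matrix (α × β) F ℂ) :
    Matrix (((A × α) × (B × β)) × F) (A × B) ℂ :=
  fun p q => g p.1.1.2 p.1.1.1 q.1 * put Y (K.submatrix (Prod.mk p.1.1.2) id) (p.1.2, p.2) q.2

theorem gam_sum (g : α → Matrix A A ℂ) (Y : Matrix (B × β) (B × β) ℂ) (K : Matrix (α × β) F ℂ)
    (c : (A × α) × (B × β)) (f : F) (φ : A × B → ℂ) :
    ∑ p : (A × α) × (B × β), (ctrl g ⊗ₖ Y) c p * (φ (p.1.1, p.2.1) * K (p.1.2, p.2.2) f) =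
      ∑ r, Gam g Y K (c, f) r * φ r := by
  simp only [Fintype.sum_prod_type, kroneckerMap_apply, ctrl, Gam, put, submatrix_apply, id_eq]
  refine Finset.sum_congr rfl fun a _ => ?_
  rw [Finset.sum_eq_single c.1.2]
  · refine Finset.sum_congr rfl fun b _ => ?_
    rw [if_pos rfl, Finset.mul_sum, Finset.sum_mul]
    refine Finset.sum_congr rfl fun y _ => ?_
    ring
  · intro x _ hx
    refine Finset.sum_eq_zero fun b _ => Finset.sum_eq_zero fun y _ => ?_
    rw [if_neg (Ne.symm hx), zero_mul, zero_mul]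
  · intro h
    exact absurd (Finset.mem_univ _) h

theorem join_eq_ptr (R : Matrix (A × B) (A × B) ℂ) (K : Matrix (α × β) F ℂ)
    (g₀ g₁ : α → Matrix A A ℂ) (Y₀ Y₁ : Matrix (B × β) (B × β) ℂ) :
    (ctrl g₀ ⊗ₖ Y₀) * join R (K * Kᴴ) * (ctrl g₁ ⊗ₖ Y₁)ᴴ =
      ptr (Gam g₀ Y₀ K * R * (Gam g₁ Y₁ K)ᴴ) := by
  ext c c'
  have h1 : ∀ q : (A × α) × (B × β), ((ctrl g₀ ⊗ₖ Y₀) * join R (K * Kᴴ)) c q =
      ∑ f, (Gam g₀ Y₀ K * R) (c, f) (q.1.1, q.2.1) * star (K (q.1.2, q.2.2) f) := by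
    intro q
    have h2 : ∀ f, (Gam g₀ Y₀ K * R) (c, f) (q.1.1, q.2.1) =
        ∑ p : (A × α) × (B × β), (ctrl g₀ ⊗ₖ Y₀) c p *
          (R (p.1.1, p.2.1) (q.1.1, q.2.1) * K (p.1.2, p.2.2) f) := by
      intro f
      rw [Matrix.mul_apply]
      exact (gam_sum g₀ Y₀ K c f (fun r => R r (q.1.1, q.2.1))).symm
    simp only [h2, Finset.sum_mul]
    rw [Finset.sum_comm, Matrix.mul_apply]
    refine Finset.sum_congr rfl fun p _ => ?_
    simp only [join, Matrix.mul_apply (M := K), conjTranspose_apply]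
    rw [Finset.mul_sum, Finset.mul_sum]
    refine Finset.sum_congr rfl fun f _ => ?_
    ring
  rw [Matrix.mul_apply]
  simp only [h1, conjTranspose_apply, Finset.sum_mul]
  rw [Finset.sum_comm, ptr]
  refine Finset.sum_congr rfl fun f _ => ?_
  have h3 := congrArg star (gam_sum g₁ Y₁ K c' f (fun r => star ((Gam g₀ Y₀ K * R) (c, f) r)))
  rw [star_sum, star_sum] at h3
  rw [Matrix.mul_apply]
  simp only [conjTranspose_apply]
  calc _ = ∑ p : (A × α) × (B × β), star ((ctrl g₁ ⊗ₖ Y₁) c' p *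
        (star ((Gam g₀ Y₀ K * R) (c, f) (p.1.1, p.2.1)) * K (p.1.2, p.2.2) f)) := by
        refine Finset.sum_congr rfl fun p _ => ?_
        rw [star_mul', star_mul', star_star]
        ring
    _ = _ := h3
    _ = _ := by
        refine Finset.sum_congr rfl fun r _ => ?_
        rw [star_mul', star_star]
        ring

theorem put_gram (Y : Matrix (B × β) (B × β) ℂ) (T : Matrix β F ℂ) :
    (put Y T)ᴴ * put Y T = pt Y (T * Tᴴ) := by
  ext b b'
  have h1 : ((put Y T)ᴴ * put Y T) b b' = ∑ j, ∑ f, ∑ y, ∑ y',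
      star (Y j (b, y)) * Y j (b', y') * (T y' f * star (T y f)) := by
    rw [Matrix.mul_apply, Fintype.sum_prod_type]
    refine Finset.sum_congr rfl fun j _ => Finset.sum_congr rfl fun f _ => ?_
    rw [conjTranspose_apply, put, put, star_sum, Finset.sum_mul_sum]
    refine Finset.sum_congr rfl fun y _ => Finset.sum_congr rfl fun y' _ => ?_
    rw [star_mul']
    ring
  have h2 : ∀ j, (∑ f, ∑ y, ∑ y', star (Y j (b, y)) * Y j (b', y') * (T y' f * star (T y f))) =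
      ∑ y, ∑ y', ∑ f, star (Y j (b, y)) * Y j (b', y') * (T y' f * star (T y f)) := by
    intro j
    rw [Finset.sum_comm]
    refine Finset.sum_congr rfl fun y _ => ?_
    rw [Finset.sum_comm]
  rw [h1, Finset.sum_congr rfl fun j _ => h2 j, Finset.sum_comm, pt]
  refine Finset.sum_congr rfl fun y _ => ?_
  rw [Finset.sum_comm]
  refine Finset.sum_congr rfl fun y' _ => ?_
  rw [Matrix.mul_apply, Matrix.mul_apply, Finset.sum_mul_sum]
  rfl

theorem pt_smul (Y : Matrix (B × β) (B × β) ℂ) (c : ℂ) (Z : Matrix β β ℂ) (b b' : B) :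
    pt Y (c • Z) b b' = c * pt Y Z b b' := by
  simp only [pt, Matrix.smul_apply, smul_eq_mul, Finset.mul_sum]
  refine Finset.sum_congr rfl fun y _ => Finset.sum_congr rfl fun y' _ => ?_
  ring

theorem pt_posSemidef (Y : Matrix (B × β) (B × β) ℂ) {Z : Matrix β β ℂ} (hZ : Z.PosSemidef) :
    (pt Y Z).PosSemidef := by
  obtain ⟨C, hC⟩ := exists_eq_conjTranspose_mul_self hZ
  have h : Z = Cᴴ * (Cᴴ)ᴴ := by rw [conjTranspose_conjTranspose, hC]
  rw [h, ← put_gram]
  exact posSemidef_conjTranspose_mul_self _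

theorem gam_gram (g : α → Matrix A A ℂ) (Y : Matrix (B × β) (B × β) ℂ) (K : Matrix (α × β) F ℂ)
    (c : α → ℝ) (b : Matrix β β ℂ)
    (h : ∀ x y y', (K * Kᴴ) (x, y) (x, y') = c x * b y y') :
    (Gam g Y K)ᴴ * Gam g Y K = (∑ x, (c x : ℂ) • ((g x)ᴴ * g x)) ⊗ₖ pt Y b := by
  have h1 : ∀ x, (K.submatrix (Prod.mk x) id) * (K.submatrix (Prod.mk x) id)ᴴ =
      (c x : ℂ) • b := by
    intro x
    ext y y'
    rw [Matrix.smul_apply, smul_eq_mul, ← h, Matrix.mul_apply, Matrix.mul_apply]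
    rfl
  ext ⟨a, d⟩ ⟨a', d'⟩
  have h2 : ∀ x, (c x : ℂ) * pt Y b d d' = ∑ q : (B × β) × F,
      star (put Y (K.submatrix (Prod.mk x) id) q d) * put Y (K.submatrix (Prod.mk x) id) q d' := by
    intro x
    rw [← pt_smul, ← h1, ← put_gram, Matrix.mul_apply]
    rfl
  have h3 : ((Gam g Y K)ᴴ * Gam g Y K) (a, d) (a', d') = ∑ i, ∑ x, ∑ q : (B × β) × F,
      star (g x i a * put Y (K.submatrix (Prod.mk x) id) q d) *
        (g x i a' * put Y (K.submatrix (Prod.mk x) id) q d') := by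
    rw [Matrix.mul_apply, Fintype.sum_prod_type, Fintype.sum_prod_type, Fintype.sum_prod_type]
    refine Finset.sum_congr rfl fun i _ => Finset.sum_congr rfl fun x _ => ?_
    rw [Fintype.sum_prod_type (α₁ := B × β) (α₂ := F)]
    rfl
  rw [h3, Finset.sum_comm, kroneckerMap_apply, Matrix.sum_apply, Finset.sum_mul]
  refine Finset.sum_congr rfl fun x _ => ?_
  rw [Matrix.smul_apply, smul_eq_mul, mul_right_comm, h2, Matrix.mul_apply, Finset.mul_sum]
  refine Finset.sum_congr rfl fun i _ => ?_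
  rw [Finset.sum_mul]
  refine Finset.sum_congr rfl fun q _ => ?_
  rw [star_mul', conjTranspose_apply]
  ring

theorem trace_ptr {C : Type} [Fintype C] [DecidableEq C] (N : Matrix (C × F) (C × F) ℂ) :
    (ptr N).trace = N.trace := by
  simp only [Matrix.trace, Matrix.diag, ptr, Fintype.sum_prod_type]

theorem join_tests (R : Matrix (A × B) (A × B) ℂ) (S : Matrix (α × β) (α × β) ℂ)
    (hS : S.PosSemidef) (c : α → ℝ) (hc : ∀ x, 0 ≤ c x) (b : Matrix β β ℂ) (hb : b.PosSemidef)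
    (h : ∀ x y y', S (x, y) (x, y') = c x * b y y')
    (hR : ∀ (X₀ X₁ : Matrix A A ℂ) (Y₀ Y₁ : Matrix B B ℂ),
      traceNorm ((X₀ ⊗ₖ Y₀) * R * (X₁ ⊗ₖ Y₁)ᴴ) ^ 4 ≤
        weight R X₀ Y₀ * weight R X₀ Y₁ * weight R X₁ Y₀ * weight R X₁ Y₁)
    (g₀ g₁ : α → Matrix A A ℂ) (Y₀ Y₁ : Matrix (B × β) (B × β) ℂ) :
    traceNorm ((ctrl g₀ ⊗ₖ Y₀) * join R S * (ctrl g₁ ⊗ₖ Y₁)ᴴ) ^ 4 ≤
      weight (join R S) (ctrl g₀) Y₀ * weight (join R S) (ctrl g₀) Y₁ *
        weight (join R S) (ctrl g₁) Y₀ * weight (join R S) (ctrl g₁) Y₁ := by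
  obtain ⟨C, hC⟩ := exists_eq_conjTranspose_mul_self hS
  obtain ⟨K, hK⟩ : ∃ K : Matrix (α × β) (α × β) ℂ, S = K * Kᴴ :=
    ⟨Cᴴ, by rw [conjTranspose_conjTranspose, hC]⟩
  subst hK
  have hG : ∀ g : α → Matrix A A ℂ, ∃ s : Matrix A A ℂ,
      sᴴ * s = ∑ x, (c x : ℂ) • ((g x)ᴴ * g x) := by
    intro g
    obtain ⟨s, hs1, hs2⟩ := exists_sqrt (posSemidef_sum Finset.univ fun x _ =>
      (posSemidef_conjTranspose_mul_self (g x)).smul
        (show (0 : ℂ) ≤ (c x : ℂ) by exact_mod_cast hc x))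
    exact ⟨s, by rw [hs1.1, hs2]⟩
  have hH : ∀ Y : Matrix (B × β) (B × β) ℂ, ∃ t : Matrix B B ℂ, tᴴ * t = pt Y b := by
    intro Y
    obtain ⟨t, ht1, ht2⟩ := exists_sqrt (pt_posSemidef Y hb)
    exact ⟨t, by rw [ht1.1, ht2]⟩
  obtain ⟨s₀, hs₀⟩ := hG g₀
  obtain ⟨s₁, hs₁⟩ := hG g₁
  obtain ⟨t₀, ht₀⟩ := hH Y₀
  obtain ⟨t₁, ht₁⟩ := hH Y₁
  have hgram : ∀ (g : α → Matrix A A ℂ) (Y : Matrix (B × β) (B × β) ℂ) (s : Matrix A A ℂ)
      (t : Matrix B B ℂ), sᴴ * s = ∑ x, (c x : ℂ) • ((g x)ᴴ * g x) → tᴴ * t = pt Y b →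
      (Gam g Y K)ᴴ * Gam g Y K = (s ⊗ₖ t)ᴴ * (s ⊗ₖ t) := by
    intro g Y s t h1 h2
    rw [gam_gram g Y K c b h, conjTranspose_kronecker, ← mul_kronecker_mul, h1, h2]
  have hw : ∀ (g : α → Matrix A A ℂ) (Y : Matrix (B × β) (B × β) ℂ) (s : Matrix A A ℂ)
      (t : Matrix B B ℂ), sᴴ * s = ∑ x, (c x : ℂ) • ((g x)ᴴ * g x) → tᴴ * t = pt Y b →
      weight (join R (K * Kᴴ)) (ctrl g) Y = weight R s t := by
    intro g Y s t h1 h2
    rw [weight, join_eq_ptr, trace_ptr, weight]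
    have h3 : ∀ {C : Type} [Fintype C] [DecidableEq C] (L : Matrix C (A × B) ℂ),
        (L * R * Lᴴ).trace = (R * (Lᴴ * L)).trace := by
      intro C _ _ L
      rw [trace_mul_comm, ← Matrix.mul_assoc, trace_mul_comm]
    rw [h3, h3, hgram g Y s t h1 h2]
  rw [hw _ _ _ _ hs₀ ht₀, hw _ _ _ _ hs₀ ht₁, hw _ _ _ _ hs₁ ht₀, hw _ _ _ _ hs₁ ht₁]
  refine le_trans (pow_le_pow_left₀ (traceNorm_nonneg _) ?_ 4) (hR s₀ s₁ t₀ t₁)
  rw [join_eq_ptr]
  exact (ptr_le _).trans (traceNorm_gram_le _ _ _ _ (hgram _ _ _ _ hs₀ ht₀)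
    (hgram _ _ _ _ hs₁ ht₁) R)

theorem sum_tests4 {κ : Type} [Fintype κ] (S : κ → Matrix (α × β) (α × β) ℂ)
    (hS : ∀ τ, (S τ).PosSemidef) (X₀ X₁ : Matrix α α ℂ) (Y₀ Y₁ : Matrix β β ℂ)
    (h : ∀ τ, traceNorm ((X₀ ⊗ₖ Y₀) * S τ * (X₁ ⊗ₖ Y₁)ᴴ) ^ 4 ≤
      weight (S τ) X₀ Y₀ * weight (S τ) X₀ Y₁ * weight (S τ) X₁ Y₀ * weight (S τ) X₁ Y₁) :
    traceNorm ((X₀ ⊗ₖ Y₀) * (∑ τ, S τ) * (X₁ ⊗ₖ Y₁)ᴴ) ^ 4 ≤
      weight (∑ τ, S τ) X₀ Y₀ * weight (∑ τ, S τ) X₀ Y₁ * weight (∑ τ, S τ) X₁ Y₀ *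
        weight (∑ τ, S τ) X₁ Y₁ := by
  have hw : ∀ (τ : κ) (X : Matrix α α ℂ) (Y : Matrix β β ℂ), 0 ≤ weight (S τ) X Y :=
    fun τ X Y => Near.weight_nonneg (hS τ) X Y
  have hcs : ∀ (v w : κ → ℝ), (∀ τ, 0 ≤ v τ) → (∀ τ, 0 ≤ w τ) →
      (∑ τ, √(v τ) * √(w τ)) ^ 2 ≤ (∑ τ, v τ) * ∑ τ, w τ := by
    intro v w hv hw
    have h1 := Finset.sum_mul_sq_le_sq_mul_sq Finset.univ (fun τ => √(v τ)) (fun τ => √(w τ))
    simp only [Real.sq_sqrt (hv _), Real.sq_sqrt (hw _)] at h1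
    exact h1
  set p : κ → ℝ := fun τ => √(weight (S τ) X₀ Y₀) * √(weight (S τ) X₁ Y₁) with hp
  set q : κ → ℝ := fun τ => √(weight (S τ) X₀ Y₁) * √(weight (S τ) X₁ Y₀) with hq
  have hp0 : ∀ τ, 0 ≤ p τ := fun τ => mul_nonneg (Real.sqrt_nonneg _) (Real.sqrt_nonneg _)
  have hq0 : ∀ τ, 0 ≤ q τ := fun τ => mul_nonneg (Real.sqrt_nonneg _) (Real.sqrt_nonneg _)
  have hF : ∀ τ, traceNorm ((X₀ ⊗ₖ Y₀) * S τ * (X₁ ⊗ₖ Y₁)ᴴ) ≤ √(p τ) * √(q τ) := by
    intro τ
    refine le_of_pow_le_pow_left₀ (n := 4) (by norm_num)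
      (mul_nonneg (Real.sqrt_nonneg _) (Real.sqrt_nonneg _)) ((h τ).trans (le_of_eq ?_))
    have e1 : (√(p τ) * √(q τ)) ^ 4 = (√(p τ) ^ 2) ^ 2 * (√(q τ) ^ 2) ^ 2 := by ring
    rw [e1, Real.sq_sqrt (hp0 τ), Real.sq_sqrt (hq0 τ)]
    simp only [hp, hq]
    rw [mul_pow, mul_pow, Real.sq_sqrt (hw _ _ _), Real.sq_sqrt (hw _ _ _),
      Real.sq_sqrt (hw _ _ _), Real.sq_sqrt (hw _ _ _)]
    ring
  have h0 : traceNorm ((X₀ ⊗ₖ Y₀) * (∑ τ, S τ) * (X₁ ⊗ₖ Y₁)ᴴ) ≤ ∑ τ, √(p τ) * √(q τ) := by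
    rw [Finset.mul_sum, Finset.sum_mul]
    exact (traceNorm_sum_le _ _).trans (Finset.sum_le_sum fun τ _ => hF τ)
  have h1 := hcs p q hp0 hq0
  have h2 : (∑ τ, p τ) ^ 2 ≤ weight (∑ τ, S τ) X₀ Y₀ * weight (∑ τ, S τ) X₁ Y₁ := by
    rw [weight_sum, weight_sum]
    exact hcs _ _ (fun τ => hw τ _ _) (fun τ => hw τ _ _)
  have h3 : (∑ τ, q τ) ^ 2 ≤ weight (∑ τ, S τ) X₀ Y₁ * weight (∑ τ, S τ) X₁ Y₀ := by
    rw [weight_sum, weight_sum]
    exact hcs _ _ (fun τ => hw τ _ _) (fun τ => hw τ _ _)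
  calc _ ≤ (∑ τ, √(p τ) * √(q τ)) ^ 4 := pow_le_pow_left₀ (traceNorm_nonneg _) h0 4
    _ = ((∑ τ, √(p τ) * √(q τ)) ^ 2) ^ 2 := by ring
    _ ≤ ((∑ τ, p τ) * ∑ τ, q τ) ^ 2 := pow_le_pow_left₀ (sq_nonneg _) h1 2
    _ = (∑ τ, p τ) ^ 2 * (∑ τ, q τ) ^ 2 := by ring
    _ ≤ (weight (∑ τ, S τ) X₀ Y₀ * weight (∑ τ, S τ) X₁ Y₁) *
        (weight (∑ τ, S τ) X₀ Y₁ * weight (∑ τ, S τ) X₁ Y₀) :=
      mul_le_mul h2 h3 (sq_nonneg _) ((sq_nonneg _).trans h2)
    _ = _ := by ring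

theorem join_sum {κ : Type} [Fintype κ] (R : Matrix (A × B) (A × B) ℂ)
    (S : κ → Matrix (α × β) (α × β) ℂ) : join R (∑ τ, S τ) = ∑ τ, join R (S τ) := by
  ext p q
  simp only [join, Matrix.sum_apply, Finset.mul_sum]

theorem join_posSemidef {R : Matrix (A × B) (A × B) ℂ} {S : Matrix (α × β) (α × β) ℂ}
    (hR : R.PosSemidef) (hS : S.PosSemidef) : (join R S).PosSemidef :=
  (hR.kronecker hS).submatrix
    (fun p : (A × α) × (B × β) => ((p.1.1, p.2.1), (p.1.2, p.2.2)))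

theorem piece_prod' {a : ℝ} (ha : 0 ≤ a) {M : Matrix (A × B) (A × B) ℂ}
    (h1 : (M - (a : ℂ) • 1).PosSemidef) (τ : Option A) :
    ∃ (c : A → ℝ) (b : Matrix B B ℂ), (∀ x, 0 ≤ c x) ∧ b.PosSemidef ∧
      ∀ x y y', piece a M τ (x, y) (x, y') = c x * b y y' := by
  rcases τ with _ | z
  · refine ⟨fun _ => 1, (a : ℂ) • 1, fun _ => zero_le_one,
      PosSemidef.one.smul (by exact_mod_cast ha), fun x y y' => ?_⟩
    rw [piece, Matrix.add_apply, sum_cut, if_pos rfl]
    simp only [Matrix.sub_apply, Matrix.smul_apply, Matrix.one_apply, smul_eq_mul, Prod.mk.injEq,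
      true_and]
    push_cast
    ring
  · refine ⟨fun x => if x = z then 1 else 0, fun y y' => (M - (a : ℂ) • 1) (z, y) (z, y'),
      fun x => by dsimp only; split_ifs <;> norm_num, h1.submatrix (fun y => (z, y)), fun x y y' => ?_⟩
    rw [piece, cut]
    by_cases h : x = z
    · subst h
      simp
    · simp [h]

/-- tensor product of a family -/
def tf {ι : Type} [Fintype ι] (S : ι → Matrix (A × B) (A × B) ℂ) :
    Matrix ((ι → A) × (ι → B)) ((ι → A) × (ι → B)) ℂ :=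
  (piT S).submatrix (fun p k => (p.1 k, p.2 k)) (fun p k => (p.1 k, p.2 k))

theorem split_tests {ι : Type} [Fintype ι] [DecidableEq ι] (R : Matrix (A × B) (A × B) ℂ)
    (hRp : R.PosSemidef)
    (hR : ∀ (X₀ X₁ : Matrix A A ℂ) (Y₀ Y₁ : Matrix B B ℂ),
      traceNorm ((X₀ ⊗ₖ Y₀) * R * (X₁ ⊗ₖ Y₁)ᴴ) ^ 4 ≤
        weight R X₀ Y₀ * weight R X₀ Y₁ * weight R X₁ Y₀ * weight R X₁ Y₁)
    (M : ι → Matrix (A × B) (A × B) ℂ) (a : ℝ) (ha : 0 ≤ a)
    (h1 : ∀ k, (M k - (a : ℂ) • 1).PosSemidef)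
    (h2 : ∀ k, (((2 * a : ℝ) : ℂ) • 1 - M k).PosSemidef) (g₀ g₁ : (ι → A) → Matrix A A ℂ)
    (Y₀ Y₁ : Matrix (B × (ι → B)) (B × (ι → B)) ℂ) :
    traceNorm ((ctrl g₀ ⊗ₖ Y₀) * join R (tf M) * (ctrl g₁ ⊗ₖ Y₁)ᴴ) ^ 4 ≤
      weight (join R (tf M)) (ctrl g₀) Y₀ * weight (join R (tf M)) (ctrl g₀) Y₁ *
        weight (join R (tf M)) (ctrl g₁) Y₀ * weight (join R (tf M)) (ctrl g₁) Y₁ := by
  have hM : tf M = ∑ τ : ι → Option A, tf (fun k => piece a (M k) (τ k)) := by
    have h3 : M = fun k => ∑ τ, piece a (M k) τ := by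
      funext k
      exact (piece_sum a (M k)).symm
    conv_lhs => rw [h3]
    rw [tf, piT_sum]
    ext p q
    simp only [submatrix_apply, Matrix.sum_apply, tf]
  rw [hM, join_sum]
  have hps : ∀ τ : ι → Option A, (tf (fun k => piece a (M k) (τ k))).PosSemidef := fun τ =>
    (piT_posSemidef fun k => piece_posSemidef (h1 k) (h2 k) (τ k)).submatrix _
  refine sum_tests4 _ (fun τ => join_posSemidef hRp (hps τ)) _ _ _ _ (fun τ => ?_)
  choose c b hc hb hcb using fun k => piece_prod' ha (h1 k) (τ k)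
  refine join_tests R _ (hps τ) (fun x => ∏ k, c k (x k))
    (fun x => Finset.prod_nonneg fun k _ => hc k _) (piT b) (piT_posSemidef hb) ?_ hR g₀ g₁ Y₀ Y₁
  intro x y y'
  rw [tf, submatrix_apply, piT_apply, piT_apply]
  simp only [hcb, Finset.prod_mul_distrib]
  push_cast
  rfl

theorem traceNorm_submatrix_le {C D : Type} [Fintype C] [DecidableEq C] [Fintype D]
    [DecidableEq D] (e : C ≃ D) (N : Matrix D D ℂ) :
    traceNorm (N.submatrix e e) ≤ traceNorm N := by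
  refine traceNorm_le_of_forall fun W hW => ?_
  have h1 : (W * N.submatrix e e).trace = (W.submatrix e.symm e.symm * N).trace := by
    have h2 : W * N.submatrix e e = (W.submatrix e.symm e.symm * N).submatrix e e := by
      rw [← submatrix_mul_equiv _ N e e e, submatrix_submatrix]
      simp
    rw [h2]
    exact Equiv.sum_comp e fun x => (W.submatrix e.symm e.symm * N) x x
  rw [h1]
  refine norm_trace_mul_le ⟨?_, ?_⟩ N
  · have h3 := hW.1.submatrix e.symm
    rw [submatrix_sub] at h3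
    simpa using h3
  · have h3 := hW.2.submatrix e.symm
    rw [submatrix_sub] at h3
    simpa using h3

theorem kron_tf {ι : Type} [Fintype ι] [DecidableEq ι] (u : ι → Matrix A A ℂ) :
    piT u ⊗ₖ (1 : Matrix (ι → B) (ι → B) ℂ) =
      tf (fun k => u k ⊗ₖ (1 : Matrix B B ℂ)) := by
  rw [← piT_one]
  ext p q
  rw [kroneckerMap_apply, tf, submatrix_apply]
  simp only [piT_apply, kroneckerMap_apply, Finset.prod_mul_distrib]

/-- the index equivalence -/
def colI (ι : Type) : ((ι → A) × (ι → B)) ≃ (ι → A × B) where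
  toFun := fun p k => (p.1 k, p.2 k)
  invFun := fun r => (fun i => (r i).1, fun i => (r i).2)
  left_inv := fun _ => rfl
  right_inv := fun _ => rfl

theorem tf_mul {ι : Type} [Fintype ι] [DecidableEq ι] (S T : ι → Matrix (A × B) (A × B) ℂ) :
    tf S * tf T = tf (fun k => S k * T k) := by
  have h := submatrix_mul_equiv (piT S) (piT T) (colI (A := A) (B := B) ι) (colI ι) (colI ι)
  rw [← piT_mul] at h
  exact h

theorem tf_conjTranspose {ι : Type} [Fintype ι] [DecidableEq ι]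
    (S : ι → Matrix (A × B) (A × B) ℂ) : (tf S)ᴴ = tf (fun k => (S k)ᴴ) := by
  rw [tf, conjTranspose_submatrix, piT_conjTranspose, tf]

theorem join_mul (R R' : Matrix (A × B) (A × B) ℂ) (S S' : Matrix (α × β) (α × β) ℂ) :
    join R S * join R' S' = join (R * R') (S * S') := by
  have h := submatrix_mul_equiv (R ⊗ₖ S) (R' ⊗ₖ S') (Equiv.prodProdProdComm A α B β)
    (Equiv.prodProdProdComm A α B β) (Equiv.prodProdProdComm A α B β)
  rw [← mul_kronecker_mul] at h
  exact h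

theorem join_conjTranspose (R : Matrix (A × B) (A × B) ℂ) (S : Matrix (α × β) (α × β) ℂ) :
    (join R S)ᴴ = join Rᴴ Sᴴ := by
  ext p q
  simp only [join, conjTranspose_apply, star_mul']

theorem one_kron_join (U : Matrix α α ℂ) :
    ((1 : Matrix A A ℂ) ⊗ₖ U) ⊗ₖ (1 : Matrix (B × β) (B × β) ℂ) =
      join (1 : Matrix (A × B) (A × B) ℂ) (U ⊗ₖ (1 : Matrix β β ℂ)) := by
  ext ⟨⟨a, x⟩, ⟨b, y⟩⟩ ⟨⟨a', x'⟩, ⟨b', y'⟩⟩
  simp only [join, kroneckerMap_apply, one_apply, Prod.mk.injEq]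
  by_cases h1 : a = a' <;> by_cases h2 : b = b' <;> by_cases h3 : y = y' <;> simp [h1, h2, h3]

theorem rot_join {ι : Type} [Fintype ι] [DecidableEq ι] (u : ι → Matrix A A ℂ)
    (R : Matrix (A × B) (A × B) ℂ) :
    (((1 : Matrix A A ℂ) ⊗ₖ piT u) ⊗ₖ (1 : Matrix (B × (ι → B)) (B × (ι → B)) ℂ)) *
      join R (tf fun _ => R) *
      (((1 : Matrix A A ℂ) ⊗ₖ piT u) ⊗ₖ (1 : Matrix (B × (ι → B)) (B × (ι → B)) ℂ))ᴴ =
    join R (tf (fun k => (u k ⊗ₖ (1 : Matrix B B ℂ)) * R * (u k ⊗ₖ (1 : Matrix B B ℂ))ᴴ)) := by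
  rw [one_kron_join, join_conjTranspose, join_mul, join_mul, kron_tf, tf_conjTranspose, tf_mul,
    tf_mul, conjTranspose_one, one_mul, mul_one]

/-- the operators of Alice -/
def opX {n : ℕ} (m : Fin n) (u : Fin n → Matrix A A ℂ) (g : (Fin n → A) → A → ℂ) :
    Matrix (Fin n → A) (Fin n → A) ℂ := fun p q => g p (q m) * ∏ k, u k (p k) (q k)

theorem ctrl_mul (G : α → Matrix A A ℂ) (U : Matrix α α ℂ) (a a' : A) (x x' : α) :
    (ctrl G * ((1 : Matrix A A ℂ) ⊗ₖ U)) (a, x) (a', x') = G x a a' * U x x' := by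
  rw [Matrix.mul_apply, Fintype.sum_prod_type, Finset.sum_eq_single a',
    Finset.sum_eq_single x]
  · rw [kroneckerMap_apply, one_apply_eq, one_mul, ctrl, if_pos rfl]
  · intro y _ hy
    rw [ctrl, if_neg (Ne.symm hy), zero_mul]
  · intro h
    exact absurd (Finset.mem_univ _) h
  · intro i _ hi
    refine Finset.sum_eq_zero fun y _ => ?_
    rw [kroneckerMap_apply, one_apply_ne hi, zero_mul, mul_zero]
  · intro h
    exact absurd (Finset.mem_univ _) h

theorem opX_eq {n : ℕ} (m : Fin n) (u : Fin n → Matrix A A ℂ) (g : (Fin n → A) → A → ℂ) :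
    opX m u g = (ctrl (fun (x : {j // j ≠ m} → A) a a' =>
      g ((Equiv.funSplitAt m A).symm (a, x)) a' * u m a a') *
        ((1 : Matrix A A ℂ) ⊗ₖ piT (fun j : {j // j ≠ m} => u j))).submatrix
          (Equiv.funSplitAt m A) (Equiv.funSplitAt m A) := by
  ext p q
  have hp : (Equiv.funSplitAt m A).symm (p m, fun j => p j) = p :=
    (Equiv.funSplitAt m A).symm_apply_apply p
  refine Eq.trans ?_ (ctrl_mul (fun (x : {j // j ≠ m} → A) a a' =>
      g ((Equiv.funSplitAt m A).symm (a, x)) a' * u m a a') (piT (fun j : {j // j ≠ m} => u j))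
      (p m) (q m) (fun j => p j) (fun j => q j)).symm
  rw [hp, piT_apply, opX, Fintype.prod_eq_mul_prod_subtype_ne _ m, mul_assoc]

theorem tpow_split {n : ℕ} (m : Fin n) (R : Matrix (A × B) (A × B) ℂ) :
    tpow n R = (join R (tf fun _ : {j // j ≠ m} => R)).submatrix
      ((Equiv.funSplitAt m A).prodCongr (Equiv.funSplitAt m B))
      ((Equiv.funSplitAt m A).prodCongr (Equiv.funSplitAt m B)) := by
  ext p q
  rw [tpow, Fintype.prod_eq_mul_prod_subtype_ne _ m]
  rfl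

theorem block_tests {n : ℕ} (m : Fin n) (R : Matrix (A × B) (A × B) ℂ) (hRp : R.PosSemidef)
    (hR : ∀ (X₀ X₁ : Matrix A A ℂ) (Y₀ Y₁ : Matrix B B ℂ),
      traceNorm ((X₀ ⊗ₖ Y₀) * R * (X₁ ⊗ₖ Y₁)ᴴ) ^ 4 ≤
        weight R X₀ Y₀ * weight R X₀ Y₁ * weight R X₁ Y₀ * weight R X₁ Y₁)
    (a : ℝ) (ha : 0 ≤ a) (h1 : (R - (a : ℂ) • 1).PosSemidef)
    (h2 : (((2 * a : ℝ) : ℂ) • 1 - R).PosSemidef) (u : Fin n → Matrix A A ℂ)
    (hu : ∀ k, k ≠ m → u k * (u k)ᴴ = 1) (g₀ g₁ : (Fin n → A) → A → ℂ)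
    (Y₀ Y₁ : Matrix (Fin n → B) (Fin n → B) ℂ) :
    traceNorm ((opX m u g₀ ⊗ₖ Y₀) * tpow n R * (opX m u g₁ ⊗ₖ Y₁)ᴴ) ^ 4 ≤
      weight (tpow n R) (opX m u g₀) Y₀ * weight (tpow n R) (opX m u g₀) Y₁ *
        weight (tpow n R) (opX m u g₁) Y₀ * weight (tpow n R) (opX m u g₁) Y₁ := by
  obtain ⟨eA, heA⟩ : ∃ e, e = Equiv.funSplitAt m A := ⟨_, rfl⟩
  obtain ⟨eB, heB⟩ : ∃ e, e = Equiv.funSplitAt m B := ⟨_, rfl⟩
  obtain ⟨G, hG⟩ : ∃ G : ((Fin n → A) → A → ℂ) → ({j // j ≠ m} → A) → Matrix A A ℂ,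
      G = fun g x a a' => g ((Equiv.funSplitAt m A).symm (a, x)) a' * u m a a' := ⟨_, rfl⟩
  obtain ⟨U, hU⟩ : ∃ U, U = piT (fun j : {j // j ≠ m} => u j) := ⟨_, rfl⟩
  obtain ⟨M, hM⟩ : ∃ M : {j // j ≠ m} → Matrix (A × B) (A × B) ℂ,
      M = fun k : {j // j ≠ m} => (u k.1 ⊗ₖ (1 : Matrix B B ℂ)) * R *
        (u k.1 ⊗ₖ (1 : Matrix B B ℂ))ᴴ := ⟨_, rfl⟩
  have hop : ∀ g, opX m u g = (ctrl (G g) * ((1 : Matrix A A ℂ) ⊗ₖ U)).submatrix eA eA := by
    intro g
    rw [opX_eq, hU, heA, hG]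
  have htp : tpow n R = (join R (tf fun _ : {j // j ≠ m} => R)).submatrix (eA.prodCongr eB)
      (eA.prodCongr eB) := by
    rw [heA, heB]
    exact tpow_split m R
  have hkr : ∀ (X : Matrix (A × ({j // j ≠ m} → A)) (A × ({j // j ≠ m} → A)) ℂ)
      (Y : Matrix (Fin n → B) (Fin n → B) ℂ), X.submatrix eA eA ⊗ₖ Y =
        (X ⊗ₖ Y.submatrix eB.symm eB.symm).submatrix (eA.prodCongr eB) (eA.prodCongr eB) := by
    intro X Y
    ext p q
    simp only [kroneckerMap_apply, submatrix_apply, Equiv.prodCongr_apply, Prod.map_fst,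
      Prod.map_snd, Equiv.symm_apply_apply]
  have hm : ∀ (g g' : (Fin n → A) → A → ℂ) (Y Y' : Matrix (Fin n → B) (Fin n → B) ℂ),
      (opX m u g ⊗ₖ Y) * tpow n R * (opX m u g' ⊗ₖ Y')ᴴ =
        ((ctrl (G g) ⊗ₖ Y.submatrix eB.symm eB.symm) * join R (tf M) *
          (ctrl (G g') ⊗ₖ Y'.submatrix eB.symm eB.symm)ᴴ).submatrix (eA.prodCongr eB)
            (eA.prodCongr eB) := by
    intro g g' Y Y'
    have hk : ∀ (g : (Fin n → A) → A → ℂ)
        (Z : Matrix (B × ({j // j ≠ m} → B)) (B × ({j // j ≠ m} → B)) ℂ),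
        (ctrl (G g) * ((1 : Matrix A A ℂ) ⊗ₖ U)) ⊗ₖ Z =
          (ctrl (G g) ⊗ₖ Z) * (((1 : Matrix A A ℂ) ⊗ₖ U) ⊗ₖ
            (1 : Matrix (B × ({j // j ≠ m} → B)) (B × ({j // j ≠ m} → B)) ℂ)) := by
      intro g Z
      rw [← mul_kronecker_mul, mul_one]
    rw [hop, hop, hkr, hkr, htp, conjTranspose_submatrix, submatrix_mul_equiv,
      submatrix_mul_equiv, hk, hk, conjTranspose_mul, hM, ← rot_join, hU]
    simp only [Matrix.mul_assoc]
  have hw : ∀ (g : (Fin n → A) → A → ℂ) (Y : Matrix (Fin n → B) (Fin n → B) ℂ),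
      weight (tpow n R) (opX m u g) Y =
        weight (join R (tf M)) (ctrl (G g)) (Y.submatrix eB.symm eB.symm) := by
    intro g Y
    rw [weight, hm, weight]
    congr 1
    exact Equiv.sum_comp (eA.prodCongr eB) fun x => ((ctrl (G g) ⊗ₖ
      Y.submatrix eB.symm eB.symm) * join R (tf M) *
        (ctrl (G g) ⊗ₖ Y.submatrix eB.symm eB.symm)ᴴ) x x
  have hu1 : ∀ k : {j // j ≠ m}, (u k ⊗ₖ (1 : Matrix B B ℂ)) * (u k ⊗ₖ (1 : Matrix B B ℂ))ᴴ =
      1 := by
    intro k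
    rw [conjTranspose_kronecker, conjTranspose_one, ← mul_kronecker_mul, hu k k.2, mul_one,
      one_kronecker_one]
  rw [hm, hw, hw, hw, hw]
  refine (pow_le_pow_left₀ (traceNorm_nonneg _) (traceNorm_submatrix_le _ _) 4).trans ?_
  refine split_tests R hRp hR M a ha (fun k => ?_) (fun k => ?_) _ _ _ _
  · have h3 := h1.mul_mul_conjTranspose_same (u k ⊗ₖ (1 : Matrix B B ℂ))
    rw [Matrix.mul_sub, Matrix.sub_mul, Matrix.mul_smul, Matrix.smul_mul, mul_one, hu1] at h3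
    rw [hM]
    exact h3
  · have h3 := h2.mul_mul_conjTranspose_same (u k ⊗ₖ (1 : Matrix B B ℂ))
    rw [Matrix.mul_sub, Matrix.sub_mul, Matrix.mul_smul, Matrix.smul_mul, mul_one, hu1] at h3
    rw [hM]
    exact h3

end Join

/-- Entangled states with no test on any number of copies when Alice measures blocks of `N` copies
in orthonormal bases, except for one block, on which she may act coherently. -/
theorem werner_tests2 (N : ℕ) :
    ∃ (d : ℕ) (ρ : Matrix (Fin d × Fin d) (Fin d × Fin d) ℂ), ρ.PosSemidef ∧ ρ.trace = 1 ∧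
      ¬ IsSep ρ ∧ (∀ n ≤ N, ¬ KeyTest (tpow n ρ) Set.univ) ∧
      ∀ (n : ℕ) (m : Fin n) (u : Fin n → Matrix (Fin N → Fin d) (Fin N → Fin d) ℂ),
        (∀ k, k ≠ m → u k * (u k)ᴴ = 1) → ¬ KeyTest (tpow n (tpow N ρ))
          {X | ∃ g : _ → _ → ℂ, X = fun p q => g p (q m) * ∏ k, u k (p k) (q k)} := by
  set M := N + 1 with hM
  have hM1 : 1 ≤ M := by omega
  have hMr : (1 : ℝ) ≤ M := by exact_mod_cast hM1
  set t : ℝ := 1 / (14 * M : ℝ) with ht
  set d : ℕ := 14 * M + 1 with hd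
  have hdr : (d : ℝ) = 14 * M + 1 := by rw [hd]; push_cast; ring
  have h14 : (0 : ℝ) < 14 * M := by linarith
  have ht0 : 0 ≤ t := by positivity
  have ht14 : t * (14 * M) = 1 := by rw [ht]; field_simp
  have ht1 : t ≤ 1 := by
    rw [ht, div_le_one h14]; linarith
  have hd0 : (0 : ℝ) < d := by rw [hdr]; linarith
  have hD : 0 < (d : ℝ) ^ 2 - t * d := by
    have h1 : t * d ≤ 1 * d := mul_le_mul_of_nonneg_right ht1 hd0.le
    have h2 : (1 : ℝ) < d := by rw [hdr]; linarith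
    nlinarith
  have htd : 1 < t * d := by
    rw [hdr, mul_add, ht14, mul_one]
    have : 0 < t := by positivity
    linarith
  have hq : 0 < ((d : ℝ) ^ 2 - t * d)⁻¹ := inv_pos.mpr hD
  have hnot : ∀ n ≤ N, ¬ KeyTest1 (tpow n (Near.werner d t)) := by
    intro n hn
    have hb := Near.pow_bounds hM1 (show n ≤ M by omega)
    rw [← ht] at hb
    refine Near.not_keyTest_tpow (a := (1 - t) * ((d : ℝ) ^ 2 - t * d)⁻¹)
      (b := (1 + t) * ((d : ℝ) ^ 2 - t * d)⁻¹) (c := ((d : ℝ) ^ 2 - t * d)⁻¹)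
      (mul_nonneg (by linarith) hq.le) hq (Near.werner_low ht0 hD) (Near.werner_high ht0 hD) ?_ ?_
    · rw [mul_pow]
      exact mul_le_mul_of_nonneg_right hb.1 (by positivity)
    · rw [mul_pow]
      exact mul_le_mul_of_nonneg_right hb.2 (by positivity)
  refine ⟨d, Near.werner d t, Near.werner_posSemidef ht0 ht1 hD, Near.werner_trace hD,
    Near.werner_not_sep hD ?_, fun n hn => ?_, ?_⟩
  · nlinarith
  · rw [keyTest_univ]
    exact hnot n hn
  rintro n m u hu ⟨X₀, ⟨f, hf⟩, X₁, ⟨g, hg⟩, Y₀, Y₁, h⟩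
  have hb := Near.pow_bounds hM1 (show N ≤ M by omega)
  rw [← ht] at hb
  have h1 := Near.tpow_low (mul_nonneg (by linarith) hq.le) (Near.werner_low ht0 hD) N
  have h2 := Near.tpow_high (Near.werner_posSemidef ht0 ht1 hD) (Near.werner_high ht0 hD) N
  have ha : (0 : ℝ) ≤ ((1 - t) * ((d : ℝ) ^ 2 - t * d)⁻¹) ^ N :=
    pow_nonneg (mul_nonneg (by linarith) hq.le) N
  have hRp : (tpow N (Near.werner d t)).PosSemidef := by
    have h3 := h1.add ((PosSemidef.one (n := (Fin N → Fin d) × (Fin N → Fin d)) (R := ℂ)).smul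
      (α := ℂ) (a := ((((1 - t) * ((d : ℝ) ^ 2 - t * d)⁻¹) ^ N : ℝ) : ℂ))
      (by exact_mod_cast ha))
    rwa [sub_add_cancel] at h3
  have hX : ∀ g : (Fin n → Fin N → Fin d) → (Fin N → Fin d) → ℂ,
      (fun p q => g p (q m) * ∏ k, u k (p k) (q k)) = opX m u g := fun _ => rfl
  rw [hX] at hf hg
  rw [hf, hg] at h
  refine absurd h (not_lt.mpr (block_tests m _ hRp (fun X₀ X₁ Y₀ Y₁ => not_lt.mp fun h =>
    hnot N le_rfl ⟨X₀, X₁, Y₀, Y₁, h⟩) _ ha h1 ?_ u hu f g Y₀ Y₁))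
  set q : ℝ := ((d : ℝ) ^ 2 - t * d)⁻¹ with hqdef
  have h3 : 0 ≤ 2 * ((1 - t) * q) ^ N - ((1 + t) * q) ^ N := by
    rw [mul_pow, mul_pow]
    have h4 : 0 ≤ q ^ N := by positivity
    nlinarith [mul_le_mul_of_nonneg_right hb.1 h4, mul_le_mul_of_nonneg_right hb.2 h4]
  have h5 := h2.add ((PosSemidef.one (n := (Fin N → Fin d) × (Fin N → Fin d)) (R := ℂ)).smul
    (α := ℂ) (a := ((2 * ((1 - t) * q) ^ N - ((1 + t) * q) ^ N : ℝ) : ℂ))
    (by exact_mod_cast h3))
  have h6 : (((((1 + t) * q) ^ N : ℝ) : ℂ) • (1 : Matrix ((Fin N → Fin d) × (Fin N → Fin d)) _ ℂ) -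
      tpow N (Near.werner d t)) + (((2 * ((1 - t) * q) ^ N - ((1 + t) * q) ^ N : ℝ) : ℂ)) • 1 =
      (((2 * ((1 - t) * q) ^ N : ℝ) : ℂ)) • 1 - tpow N (Near.werner d t) := by
    rw [Complex.ofReal_sub, sub_smul]
    abel
  rwa [h6] at h5

end Half

end Vale.Agent.P372

end
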